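import Vale.Agent.P022D.L2c.Defs

/-! P022, block L2c: the Herbrand quotient of an eigenspace (row HERB). -/

set_option linter.all false

noncomputable section

namespace Vale.Agent.P022D.L2c

namespace Hq

open Module

variable {F : Type} [Field F] {Y : Type} [AddCommGroup Y] (t : Y →+ Y) (x : F)

theorem extend [CharP F 2] {A B : Type} [AddCommGroup A] [AddCommGroup B] (i : B →+ A)
    (l : B →+ F) (h : ∀ b a, i b = a + a → l b = 0) : ∃ L : A →+ F, ∀ b, L (i b) = l b := by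
  let N : AddSubgroup A := (nsmulAddMonoidHom 2 : A →+ A).range
  letI : Module (ZMod 2) (A ⧸ N) := QuotientAddGroup.zmodModule fun x => ⟨x, rfl⟩
  letI := ZMod.algebra F 2
  let j : B →+ A ⧸ N := (QuotientAddGroup.mk' N).comp i
  have hk : j.rangeRestrict.ker ≤ l.ker := fun b hb => by
    obtain ⟨a, ha⟩ := (QuotientAddGroup.eq_zero_iff _).1 (congrArg Subtype.val hb)
    exact h b a (ha.symm.trans (two_nsmul a))
  let l0 := j.rangeRestrict.liftOfSurjective j.rangeRestrict_surjective ⟨l, hk⟩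
  have h0 : ∀ b, l0 (j.rangeRestrict b) = l b := fun b =>
    j.rangeRestrict.liftOfRightInverse_comp_apply _ _ _ b
  let p : Submodule (ZMod 2) (A ⧸ N) := AddSubgroup.toZModSubmodule 2 j.range
  let l1 : p →+ F := AddMonoidHom.mk' (fun y => l0 ⟨y.1, y.2⟩) fun a b => l0.map_add ⟨_, a.2⟩ ⟨_, b.2⟩
  obtain ⟨g, hg⟩ := LinearMap.exists_extend (l1.toZModLinearMap 2)
  exact ⟨g.toAddMonoidHom.comp (QuotientAddGroup.mk' N), fun b =>
    (DFunLike.congr_fun hg ⟨j b, b, rfl⟩).trans (h0 b)⟩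

theorem rk {M N : Type} [AddCommGroup M] [Module F M] [AddCommGroup N] [Module F N]
    [Module.Finite F M] (p : Submodule F M) (f : p →ₗ[F] N) :
    finrank F p = finrank F (LinearMap.range f) + finrank F (LinearMap.ker f) :=
  f.finrank_range_add_finrank_ker.symm

/-- eigenfunctionals on `A` which vanish on `B` -/
def Q (A B : AddSubgroup Y) : Submodule F (A →+ F) where
  carrier := {l | l ∈ Xe F t x A ∧ ∀ a : A, a.1 ∈ B → l a = 0}
  add_mem' {l k} hl hk := ⟨add_mem hl.1 hk.1, fun a h => by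
    rw [AddMonoidHom.add_apply, hl.2 a h, hk.2 a h, add_zero]⟩
  zero_mem' := ⟨zero_mem _, fun _ _ => rfl⟩
  smul_mem' c l hl := ⟨Submodule.smul_mem _ c hl.1, fun a h => by
    rw [AddMonoidHom.smul_apply, hl.2 a h, smul_zero]⟩

/-- the doubles -/
def tw (A : AddSubgroup Y) : AddSubgroup Y := A.map (nsmulAddMonoidHom 2)

theorem mem_tw {A : AddSubgroup Y} {y : Y} : y ∈ tw A ↔ ∃ a ∈ A, a + a = y := by
  simp only [tw, AddSubgroup.mem_map, nsmulAddMonoidHom_apply, two_nsmul]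

theorem mem_tor {y : Y} : y ∈ tor Y ↔ y + y = 0 := by
  simp only [tor, AddMonoidHom.mem_ker, nsmulAddMonoidHom_apply, two_nsmul]

theorem Q_bot (A : AddSubgroup Y) : Q t x A ⊥ = Xe F t x A :=
  le_antisymm (fun _ h => h.1) fun l h => ⟨h, fun a ha => by
    rw [show a = 0 from Subtype.ext ha, map_zero]⟩

theorem Q_tw [CharP F 2] (A : AddSubgroup Y) : Q t x A (tw A) = Xe F t x A :=
  le_antisymm (fun _ h => h.1) fun l h => ⟨h, fun a ha => by
    obtain ⟨b, hb, e⟩ := mem_tw.1 ha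
    rw [show a = ⟨b, hb⟩ + ⟨b, hb⟩ from Subtype.ext e.symm, map_add, CharTwo.add_self_eq_zero]⟩

theorem avg [CharP F 2] {m : ℕ} (hm : Odd m) (ht : ∀ y, t^[m] y = y) {A B : AddSubgroup Y}
    (le : B ≤ A) (hA : ∀ y ∈ A, t y ∈ A) (hB : ∀ y ∈ B, t y ∈ B) (l : B →+ F)
    (hl : l ∈ Xe F t x B) (L : A →+ F) (hL : ∀ b : B, L ⟨b, le b.2⟩ = l b) :
    ∃ L ∈ Xe F t x A, ∀ b : B, L ⟨b, le b.2⟩ = l b := by
  have st : ∀ {C : AddSubgroup Y}, (∀ y ∈ C, t y ∈ C) → ∀ i, ∀ y ∈ C, t^[i] y ∈ C :=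
    fun h i y hy => by
      induction i with
      | zero => exact hy
      | succ i ih => rw [Function.iterate_succ_apply']; exact h _ ih
  have h1 : ∀ i (b : B), l ⟨t^[i] b, st hB i b b.2⟩ = x ^ i * l b := fun i b => by
    induction i with
    | zero => rw [pow_zero, one_mul]; rfl
    | succ i ih =>
      rw [hl ⟨_, st hB i b b.2⟩ _ (Function.iterate_succ_apply' _ _ _), ih, pow_succ', mul_assoc]
  by_cases hx : x ^ m = 1
  · have x0 : x ≠ 0 := by
      rintro rfl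
      rw [zero_pow hm.pos.ne'] at hx
      exact zero_ne_one hx
    refine ⟨AddMonoidHom.mk' (fun a => ∑ i ∈ Finset.range m, x⁻¹ ^ i * L ⟨t^[i] a, st hA i a a.2⟩)
      fun a b => ?_, fun a a' e => ?_, fun b => ?_⟩
    · rw [← Finset.sum_add_distrib]
      refine Finset.sum_congr rfl fun i _ => ?_
      rw [← mul_add, ← map_add]
      exact congrArg (fun z => _ * L z) (Subtype.ext (iterate_map_add t i _ _))
    · let g : ℕ → F := fun i => x⁻¹ ^ i * L ⟨t^[i] a, st hA i a a.2⟩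
      have e1 : ∑ i ∈ Finset.range m, g (i + 1) = ∑ i ∈ Finset.range m, g i := by
        have e2 : g m = g 0 := by
          simp only [g, inv_pow, hx, pow_zero, ht, Function.iterate_zero, id]
        have := Finset.sum_range_succ' g m
        rw [Finset.sum_range_succ, e2] at this
        exact (add_right_cancel this).symm
      show ∑ i ∈ Finset.range m, x⁻¹ ^ i * L ⟨t^[i] a', _⟩ = x * ∑ i ∈ Finset.range m, g i
      rw [← e1, Finset.mul_sum]
      refine Finset.sum_congr rfl fun i _ => ?_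
      simp only [g, e, Function.iterate_succ_apply, pow_succ', ← mul_assoc, mul_inv_cancel₀ x0,
        one_mul]
    · show ∑ i ∈ Finset.range m, x⁻¹ ^ i * L ⟨t^[i] b, _⟩ = l b
      have e : ∀ i, x⁻¹ ^ i * L ⟨t^[i] b, st hA i b (le b.2)⟩ = l b := fun i => by
        rw [hL ⟨_, st hB i b b.2⟩, h1, ← mul_assoc, ← mul_pow, inv_mul_cancel₀ x0, one_pow, one_mul]
      obtain ⟨k, rfl⟩ := hm
      simp only [e, Finset.sum_const, Finset.card_range, nsmul_eq_mul]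
      push_cast
      rw [CharTwo.two_eq_zero, zero_mul, zero_add, one_mul]
  · refine ⟨0, zero_mem _, fun b => ?_⟩
    have := h1 m b
    simp only [ht] at this
    by_contra hn
    exact hx (mul_right_cancel₀ (fun e => hn e.symm) (this.symm.trans (one_mul _).symm))

theorem ex1 [CharP F 2] {m : ℕ} (hm : Odd m) (ht : ∀ y, t^[m] y = y) {A B : AddSubgroup Y}
    (C D : AddSubgroup Y) [Module.Finite F (A →+ F)] (le : B ≤ A) (hA : ∀ y ∈ A, t y ∈ A)
    (hB : ∀ y ∈ B, t y ∈ B) (h1 : C ≤ B) (h2 : C ≤ D) (h3 : ∀ a ∈ A, a + a ∈ B → a + a ∈ D)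
    (h4 : ∀ d ∈ D, d ∈ B → ∃ c ∈ C, ∃ a ∈ A, d = c + (a + a)) :
    finrank F (Q t x A C) = finrank F (Q t x B D) + finrank F (Q t x A B) := by
  let ρ : Q t x A C →ₗ[F] (B →+ F) :=
    { toFun := fun l => l.1.comp (AddSubgroup.inclusion le)
      map_add' := fun _ _ => rfl
      map_smul' := fun _ _ => rfl }
  have e1 : LinearMap.range ρ = Q t x B D := by
    ext l
    constructor
    · rintro ⟨L, rfl⟩
      refine ⟨fun a a' e => L.2.1 ⟨a, le a.2⟩ ⟨a', le a'.2⟩ e, fun b hb => ?_⟩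
      obtain ⟨c, hc, a, ha, e⟩ := h4 b hb b.2
      show L.1 ⟨b, le b.2⟩ = 0
      rw [show (⟨b, le b.2⟩ : A) = ⟨c, le (h1 hc)⟩ + (⟨a, ha⟩ + ⟨a, ha⟩) from Subtype.ext e,
        map_add, map_add, CharTwo.add_self_eq_zero, add_zero]
      exact L.2.2 _ hc
    · rintro ⟨hl, hl'⟩
      obtain ⟨L, hL⟩ := extend (AddSubgroup.inclusion le) l fun b a e => by
        have e' : (b : Y) = a + a := congrArg Subtype.val e
        exact hl' b (e' ▸ h3 a a.2 (e' ▸ b.2))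
      obtain ⟨L, h5, h6⟩ := avg t x hm ht le hA hB l hl L hL
      exact ⟨⟨L, h5, fun a ha => (h6 ⟨a, h1 ha⟩).trans (hl' _ (h2 ha))⟩, AddMonoidHom.ext h6⟩
  have e2 : (LinearMap.ker ρ).map (Q t x A C).subtype = Q t x A B := by
    ext l
    constructor
    · rintro ⟨L, hL, rfl⟩
      exact ⟨L.2.1, fun a ha => DFunLike.congr_fun (LinearMap.mem_ker.1 hL) ⟨a, ha⟩⟩
    · rintro ⟨hl, hl'⟩
      exact ⟨⟨l, hl, fun a ha => hl' a (h1 ha)⟩,
        AddMonoidHom.ext fun b => hl' ⟨b, le b.2⟩ b.2, rfl⟩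
  rw [← e1, ← e2, Submodule.finrank_map_subtype_eq]
  exact @rk F _ (A →+ F) (B →+ F) _ _ _ _ _ (Q t x A C) ρ

theorem iso (f : Y →+ Y) (hf : ∀ y, f (t y) = t (f y)) (A B A' B' : AddSubgroup Y)
    (hA : ∀ y ∈ A, t y ∈ A) (hB : ∀ y ∈ B', t y ∈ B') (h1 : ∀ a ∈ A, f a ∈ A')
    (h2 : ∀ a ∈ A, f a ∈ B' ↔ a ∈ B) (h3 : ∀ a' ∈ A', ∃ a ∈ A, a' - f a ∈ B') :
    finrank F (Q t x A' B') = finrank F (Q t x A B) := by
  let φ : A →+ A' := (f.comp A.subtype).codRestrict A' fun a => h1 a a.2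
  let ρ : Q t x A' B' →ₗ[F] Q t x A B :=
    { toFun := fun l => ⟨l.1.comp φ, fun a a' e => l.2.1 (φ a) (φ a') (by
          show f a' = t (f a)
          rw [e, hf]), fun a ha => l.2.2 _ ((h2 a a.2).2 ha)⟩
      map_add' := fun _ _ => rfl
      map_smul' := fun _ _ => rfl }
  refine (LinearEquiv.ofBijective ρ ⟨(injective_iff_map_eq_zero _).2 fun l hl => ?_,
    fun l => ?_⟩).finrank_eq
  · refine Subtype.ext (AddMonoidHom.ext fun a' => ?_)
    obtain ⟨a, ha, e⟩ := h3 a' a'.2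
    have e1 : l.1 (φ ⟨a, ha⟩) = 0 := DFunLike.congr_fun (congrArg Subtype.val hl) ⟨a, ha⟩
    have e2 := l.2.2 (a' - φ ⟨a, ha⟩) e
    rwa [map_sub, e1, sub_zero] at e2
  · choose g hg hg' using fun a' : A' => h3 a' a'.2
    have key : ∀ (a' : A') (a : A), a'.1 - f a ∈ B' → l.1 ⟨g a', hg a'⟩ = l.1 a := fun a' a h => by
      rw [← sub_eq_zero, ← map_sub]
      refine l.2.2 _ ((h2 _ (sub_mem (hg a') a.2)).1 ?_)
      have := sub_mem h (hg' a')
      rwa [sub_sub_sub_cancel_left, ← map_sub] at this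
    refine ⟨⟨AddMonoidHom.mk' (fun a' => l.1 ⟨g a', hg a'⟩) fun a b => ?_, fun a a' e => ?_,
      fun a ha => ?_⟩, Subtype.ext (AddMonoidHom.ext fun a => ?_)⟩
    · rw [← map_add]
      refine key _ _ ?_
      have := add_mem (hg' a) (hg' b)
      rwa [sub_add_sub_comm, ← map_add] at this
    · refine (key a' ⟨_, hA _ (hg a)⟩ ?_).trans (l.2.1 ⟨_, hg a⟩ _ rfl)
      have := hB _ (hg' a)
      rwa [map_sub, ← e, ← hf] at this
    · exact (key a 0 (by simpa using ha)).trans (map_zero _)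
    · exact key (φ a) a (by show f a - f a ∈ B'; rw [sub_self]; exact zero_mem _)

theorem fin0 (A : AddSubgroup Y) [Finite A] : Module.Finite F (A →+ F) :=
  Module.Finite.of_injective (show (A →+ F) →ₗ[F] (A → F) from
    { toFun := fun l => l
      map_add' := fun _ _ => rfl
      map_smul' := fun _ _ => rfl }) DFunLike.coe_injective

theorem fin1 {S' S : AddSubgroup Y} (le : S' ≤ S) (h : S'.relIndex S ≠ 0)
    [Module.Finite F (S' →+ F)] : Module.Finite F (S →+ F) := by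
  have : (S'.addSubgroupOf S).FiniteIndex := ⟨h⟩
  let ρ : (S →+ F) →ₗ[F] (S' →+ F) × (S ⧸ S'.addSubgroupOf S → F) :=
    { toFun := fun l => (l.comp (AddSubgroup.inclusion le), fun q => l q.out)
      map_add' := fun _ _ => rfl
      map_smul' := fun _ _ => rfl }
  refine Module.Finite.of_injective ρ ((injective_iff_map_eq_zero _).2 fun l hl => ?_)
  ext s
  obtain ⟨b, hb⟩ := QuotientAddGroup.mk_out_eq_mul (S'.addSubgroupOf S) s
  have e1 : l (s : S ⧸ S'.addSubgroupOf S).out = 0 := congrFun (congrArg Prod.snd hl) _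
  have e2 : l b = 0 := DFunLike.congr_fun (congrArg Prod.fst hl) ⟨b, b.2⟩
  rwa [hb, map_add, e2, add_zero] at e1

theorem st_tor {A : AddSubgroup Y} (hA : ∀ y ∈ A, t y ∈ A) : ∀ y ∈ A ⊓ tor Y, t y ∈ A ⊓ tor Y :=
  fun y hy => ⟨hA y hy.1, mem_tor.2 (by rw [← map_add, mem_tor.1 hy.2, map_zero])⟩

theorem st_tw {A : AddSubgroup Y} (hA : ∀ y ∈ A, t y ∈ A) : ∀ y ∈ tw A, t y ∈ tw A := fun y hy => by
  obtain ⟨a, ha, rfl⟩ := mem_tw.1 hy
  exact mem_tw.2 ⟨_, hA a ha, (map_add _ _ _).symm⟩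

theorem st_sup {A B : AddSubgroup Y} (hA : ∀ y ∈ A, t y ∈ A) (hB : ∀ y ∈ B, t y ∈ B) :
    ∀ y ∈ A ⊔ B, t y ∈ A ⊔ B := fun y hy => by
  obtain ⟨a, ha, b, hb, rfl⟩ := AddSubgroup.mem_sup.1 hy
  rw [map_add]
  exact AddSubgroup.add_mem_sup (hA a ha) (hB b hb)

theorem step [CharP F 2] {m : ℕ} (hm : Odd m) (ht : ∀ y, t^[m] y = y) {S' S : AddSubgroup Y}
    (le : S' ≤ S) (hS' : ∀ y ∈ S', t y ∈ S') (hS : ∀ y ∈ S, t y ∈ S) (h2 : tw S ≤ S')
    [Module.Finite F (S →+ F)] [Module.Finite F (S' →+ F)] [Finite (S ⊓ tor Y : AddSubgroup Y)] :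
    finrank F (Xe F t x S) + finrank F (Xe F t x (S' ⊓ tor Y)) =
      finrank F (Xe F t x S') + finrank F (Xe F t x (S ⊓ tor Y)) := by
  have := fin0 (F := F) (S ⊓ tor Y)
  have d : ∀ {A : AddSubgroup Y}, ∀ a ∈ A, a + a ∈ tw A := fun a ha => mem_tw.2 ⟨a, ha, rfl⟩
  have d' : ∀ {A B : AddSubgroup Y}, ∀ d ∈ tw A, d ∈ B → ∃ c ∈ (⊥ : AddSubgroup Y), ∃ a ∈ A,
      d = c + (a + a) := fun d hd _ => by
    obtain ⟨a, ha, rfl⟩ := mem_tw.1 hd
    exact ⟨0, zero_mem _, a, ha, (zero_add _).symm⟩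
  have e1 := ex1 t x hm ht ⊥ (tw S) le hS hS' bot_le bot_le (fun a ha _ => d a ha) d'
  have e2 := ex1 t x hm ht ⊥ (tw S') h2 hS' (st_tw t hS) bot_le bot_le (fun a ha _ => d a ha) d'
  have e3 := ex1 t x hm ht ⊥ ⊥ (inf_le_inf_right (tor Y) le) (st_tor t hS) (st_tor t hS') bot_le
    bot_le (fun a ha _ => mem_tor.1 ha.2) fun d hd _ => ⟨d, hd, 0, zero_mem _, by simp⟩
  have e4 := ex1 t x hm ht S' S' (sup_le le (inf_le_left (b := tor Y))) hS
    (st_sup t hS' (st_tor t hS)) le_sup_left le_rfl (fun a ha _ => h2 (d a ha))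
    fun d hd _ => ⟨d, hd, 0, zero_mem _, by simp⟩
  have e5 := iso t x (nsmulAddMonoidHom 2) (fun y => (map_nsmul t 2 y).symm) S (S' ⊔ S ⊓ tor Y)
    (tw S) (tw S') hS (st_tw t hS') (fun a ha => ⟨a, ha, rfl⟩) (fun a ha => by
      rw [nsmulAddMonoidHom_apply, two_nsmul, mem_tw]
      constructor
      · rintro ⟨b, hb, e⟩
        rw [← add_sub_cancel b a]
        exact AddSubgroup.add_mem_sup hb ⟨S.sub_mem ha (le hb), mem_tor.2 (by
          rw [sub_add_sub_comm, e, sub_self])⟩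
      · intro h
        obtain ⟨b, hb, c, hc, rfl⟩ := AddSubgroup.mem_sup.1 h
        exact ⟨b, hb, by rw [add_add_add_comm, mem_tor.1 hc.2, add_zero]⟩) (by
      rintro _ ⟨a, ha, rfl⟩
      exact ⟨a, ha, by rw [sub_self]; exact zero_mem _⟩)
  have e6 := iso t x (AddMonoidHom.id Y) (fun _ => rfl) (S ⊓ tor Y) (S' ⊓ tor Y) (S' ⊔ S ⊓ tor Y) S'
    (st_tor t hS) hS' (fun a ha => AddSubgroup.mem_sup_right ha)
    (fun a ha => ⟨fun h => ⟨h, ha.2⟩, fun h => h.1⟩) fun a ha => by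
      obtain ⟨b, hb, c, hc, rfl⟩ := AddSubgroup.mem_sup.1 ha
      exact ⟨c, hc, by simpa using hb⟩
  rw [Q_bot] at e1 e2
  rw [Q_bot, Q_bot] at e3
  omega

theorem oddc [CharP F 2] {S' S : AddSubgroup Y} (le : S' ≤ S) (hS' : ∀ y ∈ S', t y ∈ S')
    (hS : ∀ y ∈ S, t y ∈ S) (h : S'.relIndex S ≠ 0) (h2 : S ≤ S' ⊔ tw S) :
    finrank F (Xe F t x S) = finrank F (Xe F t x S') ∧ S ⊓ tor Y = S' ⊓ tor Y := by
  have : (S'.addSubgroupOf S).FiniteIndex := ⟨h⟩
  have h3 : Function.Injective fun q : S ⧸ S'.addSubgroupOf S => q + q :=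
    Finite.injective_iff_surjective.2 fun q => by
      obtain ⟨s, rfl⟩ := QuotientAddGroup.mk_surjective q
      obtain ⟨b, hb, c, hc, e⟩ := AddSubgroup.mem_sup.1 (h2 s.2)
      obtain ⟨a, ha, rfl⟩ := mem_tw.1 hc
      refine ⟨(⟨a, ha⟩ : S), QuotientAddGroup.eq.2 ?_⟩
      show -(a + a) + s ∈ S'
      rw [← e, neg_add_cancel_comm_assoc]
      exact hb
  have h4 : ∀ a ∈ S, a + a ∈ S' → a ∈ S' := fun a ha h =>
    (QuotientAddGroup.eq_zero_iff (N := S'.addSubgroupOf S) (⟨a, ha⟩ : S)).1 (h3 (a₂ := 0) (by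
      have := (QuotientAddGroup.eq_zero_iff (N := S'.addSubgroupOf S)
        ((⟨a, ha⟩ : S) + ⟨a, ha⟩)).2 h
      exact this.trans (add_zero _).symm))
  refine ⟨?_, le_antisymm (fun a ha => ⟨h4 a ha.1 (by rw [mem_tor.1 ha.2]; exact zero_mem _), ha.2⟩)
    (inf_le_inf_right _ le)⟩
  rw [← Q_tw, ← Q_tw]
  refine iso t x (AddMonoidHom.id Y) (fun _ => rfl) S' (tw S') S (tw S) hS' (st_tw t hS) le
    (fun a ha => ⟨fun h => ?_, fun h => AddSubgroup.map_mono le h⟩) fun a ha => ?_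
  · obtain ⟨b, hb, e⟩ := mem_tw.1 h
    exact mem_tw.2 ⟨b, h4 b hb (e ▸ ha), e⟩
  · obtain ⟨b, hb, c, hc, rfl⟩ := AddSubgroup.mem_sup.1 (h2 ha)
    exact ⟨b, hb, by simpa using hc⟩

end Hq

open Hq in
theorem herb6 : HERB := by
  intro F _ _ Y _ t m hm ht x S' S le hS' hS h hf hT
  refine ⟨fin1 le h, ?_⟩
  induction hn : S'.relIndex S using Nat.strong_induction_on generalizing S with
  | _ n ih =>
    by_cases h2 : S ≤ S' ⊔ tw S
    · obtain ⟨e1, e2⟩ := oddc t x le hS' hS h h2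
      rw [e1, e2]
    · have l1 : S' ⊔ tw S ≤ S := sup_le le fun y hy => by
        obtain ⟨a, ha, rfl⟩ := mem_tw.1 hy
        exact add_mem ha ha
      have e := AddSubgroup.relIndex_mul_relIndex S' (S' ⊔ tw S) S le_sup_left l1
      have n1 : S'.relIndex (S' ⊔ tw S) ≠ 0 := left_ne_zero_of_mul (e ▸ h)
      have n2 : (S' ⊔ tw S).relIndex S ≠ 0 := right_ne_zero_of_mul (e ▸ h)
      have n3 : (S' ⊔ tw S).relIndex S ≠ 1 := fun k => h2 (AddSubgroup.relIndex_eq_one.1 k)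
      have st := st_sup t hS' (st_tw t hS)
      have f1 := fin1 (F := F) le h
      have f2 := fin1 (F := F) le_sup_left n1
      have e1 := ih _ (by
        rw [← hn, ← e]
        exact lt_mul_of_one_lt_right (Nat.pos_of_ne_zero n1) (by omega)) (S' ⊔ tw S) le_sup_left st
        n1 (Finite.of_injective _
          (AddSubgroup.inclusion_injective (inf_le_inf_right (tor Y) l1))) rfl
      have e2 := step t x hm ht l1 st hS le_sup_right
      omega

end Vale.Agent.P022D.L2c
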