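import Vale.Agent.P022D.L2c.All0
import Vale.Agent.P022D.L2c.Herb6

/-! P022: the place 2, closed terms. -/

namespace Vale.Agent.P022D.L2c

theorem caseA : L2b.CaseA := (cases_of herb6).1

theorem caseB : L2b.CaseB := (cases_of herb6).2

theorem two2 : Loc2.Two2 := two2_of herb6

end Vale.Agent.P022D.L2c
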