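import Vale.Agent.P022D.L2c.Defs

/-!
# P022, block L2c: the two halves of row LOCU
-/

set_option linter.all false

noncomputable section

namespace Vale.Agent.P022D.L2c

/-- what is used of the ring of integers of a 2-adic field -/
structure Intg {K : Type} [Field K] (t : K →+* K) (OO : Subring K) : Prop where
  val : ∀ x : K, x ∈ OO ∨ x⁻¹ ∈ OO
  stab : ∀ x ∈ OO, t x ∈ OO
  two : (2 : K)⁻¹ ∉ OO
  arch : ∀ x : K, ∃ n : ℕ, 2 ^ n * x ∈ OO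
  fin : ∀ n : ℕ, ∃ T : Finset K, ∀ x ∈ OO, ∃ y ∈ T, ∃ z ∈ OO, x = y + 2 ^ n * z
  hens : ∀ y ∈ OO, ∃ z ∈ OO, z + 2 * z ^ 2 = y

/-- row LOCU1: from the multiplicative group to the additive group of the integers -/
def LOCU1 : Prop := ∀ (F : Type) [Field F] [CharP F 2] (K : Type) [Field K] [Algebra ℚ_[2] K]
  (t : K ≃ₐ[ℚ_[2]] K) (m : ℕ), Odd m → t ^ m = 1 → ∀ OO : Subring K, Intg (t : K →+* K) OO →
  ∀ x : F, Module.Finite F ((⊤ : AddSubgroup (Additive Kˣ)) →+ F) ∧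
    (x = 1 → Module.finrank F (Xe F (ut t) x ⊤) =
      2 + Module.finrank F (Xe F (t : K →+* K).toAddMonoidHom x OO.toAddSubgroup)) ∧
    (x ≠ 1 → Module.finrank F (Xe F (ut t) x ⊤) =
      Module.finrank F (Xe F (t : K →+* K).toAddMonoidHom x OO.toAddSubgroup))

/-- row LOCU2: the ring of integers -/
def LOCU2 : Prop := ∀ (K : Type) [Field K] [Algebra ℚ_[2] K] [FiniteDimensional ℚ_[2] K],
  ∃ OO : Subring K, (∀ t : K ≃ₐ[ℚ_[2]] K, Intg (t : K →+* K) OO) ∧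
    (∀ c : ℤ_[2], algebraMap ℚ_[2] K c ∈ OO) ∧
    ∀ l : K →ₗ[ℚ_[2]] ℚ_[2], ∃ n : ℕ, ∀ x ∈ OO, ‖2 ^ n * l x‖ ≤ 1

/-- row LOCU3: the ring of integers and the lattice of a basis -/
def LOCU3 : Prop := ∀ (F : Type) [Field F] [CharP F 2] (K : Type) [Field K] [Algebra ℚ_[2] K]
  (t : K ≃ₐ[ℚ_[2]] K) (m : ℕ), Odd m → t ^ m = 1 → ∀ OO : Subring K, Intg (t : K →+* K) OO →
  (∀ c : ℤ_[2], algebraMap ℚ_[2] K c ∈ OO) →
  (∀ l : K →ₗ[ℚ_[2]] ℚ_[2], ∃ n : ℕ, ∀ x ∈ OO, ‖2 ^ n * l x‖ ≤ 1) →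
  ∀ (ι : Type) [Fintype ι] (e : Module.Basis ι ℚ_[2] K) (π : ι → ι), (∀ i, t (e i) = e (π i)) →
  ∀ x : F, Module.finrank F (Xe F (t : K →+* K).toAddMonoidHom x OO.toAddSubgroup) =
    Module.finrank F (Ef F π x)

theorem locu (h1 : LOCU1) (h2 : LOCU2) (h3 : LOCU3) : LOCU := by
  intro F _ _ K _ _ _ t m hm ht ι _ e π he x
  obtain ⟨OO, a, b, c⟩ := h2 K
  rw [← h3 F K t m hm ht OO (a t) b c ι e π he x]
  exact h1 F K t m hm ht OO (a t) x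

end Vale.Agent.P022D.L2c
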