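import Vale.Agent.P022D.L2c.Defs

/-!
# P022, block L2c: the dihedral data and the extension of eigencharacters
-/

set_option linter.all false

noncomputable section

namespace Vale.Agent.P022D.L2c

namespace DihH

variable {F G : Type} [Field F] [Group G] [TopologicalSpace G] {rb : G →* M2 F} {U : Subgroup G}

theorem ent (rb : G →* M2 F) (g h : G) (i j : Fin 2) :
    rb (g * h) i j = rb g i 0 * rb h 0 j + rb g i 1 * rb h 1 j := by
  rw [map_mul, Matrix.mul_apply, Fin.sum_univ_two]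

theorem one0 (rb : G →* M2 F) (g : G) (i : Fin 2) :
    rb g i 0 * rb g⁻¹ 0 i + rb g i 1 * rb g⁻¹ 1 i = 1 := by
  rw [← ent, mul_inv_cancel, map_one, Matrix.one_apply_eq]

theorem inU (D : Dih0 rb U) {g : G} (hg : g ∈ U) :
    rb g 0 0 * rb g⁻¹ 0 0 = 1 ∧ rb g 1 1 * rb g⁻¹ 1 1 = 1 := by
  have a := one0 rb g 0
  have b := one0 rb g 1
  rw [(D.dg g hg).1, zero_mul, add_zero] at a
  rw [(D.dg g hg).2, zero_mul, zero_add] at b
  exact ⟨a, b⟩

theorem outU (D : Dih0 rb U) {g : G} (hg : g ∉ U) :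
    rb g 0 1 * rb g⁻¹ 1 0 = 1 ∧ rb g 1 0 * rb g⁻¹ 0 1 = 1 := by
  have a := one0 rb g 0
  have b := one0 rb g 1
  rw [(D.ad g hg).1, zero_mul, zero_add] at a
  rw [(D.ad g hg).2, zero_mul, add_zero] at b
  exact ⟨a, b⟩

theorem memU (D : Dih0 rb U) {g : G} (h : rb g 0 0 ≠ 0) : g ∈ U :=
  not_not.1 fun k => h (D.ad g k).1

theorem mulU (D : Dih0 rb U) {g h : G} (hg : g ∈ U) (hh : h ∈ U) :
    rb (g * h) 0 0 = rb g 0 0 * rb h 0 0 ∧ rb (g * h) 1 1 = rb g 1 1 * rb h 1 1 := by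
  rw [ent, ent, (D.dg g hg).1, (D.dg g hg).2, zero_mul, zero_mul, add_zero, zero_add]
  exact ⟨rfl, rfl⟩

theorem two (D : Dih0 rb U) {g h : G} (hg : g ∉ U) (hh : h ∉ U) : g * h ∈ U := by
  refine memU D ?_
  rw [ent, (D.ad g hg).1, zero_mul, zero_add]
  exact mul_ne_zero (left_ne_zero_of_mul_eq_one (outU D hg).1)
    (left_ne_zero_of_mul_eq_one (outU D hh).2)

theorem swap (D : Dih0 rb U) {σ u : G} (hσ : σ ∉ U) (hu : u ∈ U) : σ * u * σ⁻¹ ∈ U ∧
    rb (σ * u * σ⁻¹) 0 0 = rb u 1 1 ∧ rb (σ * u * σ⁻¹) 1 1 = rb u 0 0 := by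
  have hσ' : σ⁻¹ ∉ U := fun k => hσ (U.inv_mem_iff.1 k)
  refine ⟨two D (fun k => hσ ((U.mul_mem_cancel_right hu).1 k)) hσ', ?_, ?_⟩
  · simp only [ent, (D.ad σ hσ).1, (D.ad _ hσ').1, zero_mul, mul_zero, zero_add]
    linear_combination rb u 1 1 * (outU D hσ).1
  · simp only [ent, (D.ad σ hσ).2, (D.ad _ hσ').2, zero_mul, mul_zero, add_zero]
    linear_combination rb u 0 0 * (outU D hσ).2

theorem keep (D : Dih0 rb U) {σ u : G} (hσ : σ ∈ U) (hu : u ∈ U) :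
    rb (σ * u * σ⁻¹) 0 0 = rb u 0 0 ∧ rb (σ * u * σ⁻¹) 1 1 = rb u 1 1 := by
  obtain ⟨a, b⟩ := mulU D (U.mul_mem hσ hu) (U.inv_mem hσ)
  rw [a, b, (mulU D hσ hu).1, (mulU D hσ hu).2]
  constructor
  · linear_combination rb u 0 0 * (inU D hσ).1
  · linear_combination rb u 1 1 * (inU D hσ).2

/-- the ratio of the diagonal entries -/
def thU (D : Dih0 rb U) : U →* F where
  toFun g := th rb g
  map_one' := by
    rw [OneMemClass.coe_one, th, inv_one, map_one, Matrix.one_apply_eq, Matrix.one_apply_eq,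
      one_mul]
  map_mul' g h := by
    rw [Subgroup.coe_mul, th, th, th, mul_inv_rev, (mulU D g.2 h.2).1,
      (mulU D (U.inv_mem h.2) (U.inv_mem g.2)).2]
    ring

theorem th_one (D : Dih0 rb U) {g : G} (hg : g ∈ U) : th rb g = 1 ↔ rb g 0 0 = rb g 1 1 := by
  have b := (inU D hg).2
  rw [th]
  constructor
  · intro h
    linear_combination rb g 1 1 * h - rb g 0 0 * b
  · intro h
    rw [h, b]

end DihH

open DihH

theorem dih : DIH := by
  intro F _ _ _ G _ _ _ rb U D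
  let θ : U →* Fˣ := (thU D).toHomUnits
  have hθ : ∀ u : U, θ u = 1 ↔ rb u 0 0 = rb u 1 1 := fun u =>
    Units.ext_iff.trans (th_one D u.2)
  have sc : ∀ g, g ∈ θ.ker.map U.subtype ↔ g ∈ U ∧ rb g 0 0 = rb g 1 1 := fun g =>
    ⟨fun ⟨u, hu, e⟩ => e ▸ ⟨u.2, (hθ u).1 hu⟩, fun h => ⟨⟨g, h.1⟩, (hθ ⟨g, h.1⟩).2 h.2, rfl⟩⟩
  have mk : ∀ u : U, θ u = 1 → (u : G) ∈ θ.ker.map U.subtype := fun u h => ⟨u, h, rfl⟩
  have ri : (θ.ker.map U.subtype).relIndex U = Nat.card θ.range := by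
    rw [Subgroup.relIndex, Subgroup.subgroupOf,
      Subgroup.comap_map_eq_self_of_injective U.subtype_injective, Subgroup.index_ker]
  obtain ⟨⟨_, t, rfl⟩, ht⟩ := IsCyclic.exists_monoid_generator (α := θ.range)
  have gen : ∀ u : U, ∃ i : ℕ, θ t ^ i = θ u := fun u =>
    let ⟨i, hi⟩ := ht ⟨θ u, u, rfl⟩
    ⟨i, congrArg Subtype.val hi⟩
  have ne : θ t ≠ 1 := fun e => by
    obtain ⟨g, hg, k⟩ := D.irr
    obtain ⟨i, hi⟩ := gen ⟨g, hg⟩
    rw [e, one_pow] at hi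
    exact k ((hθ ⟨g, hg⟩).1 hi.symm)
  have pw : θ t ^ Nat.card θ.range = 1 :=
    congrArg Subtype.val (pow_card_eq_one' (G := θ.range) (x := ⟨θ t, t, rfl⟩))
  have opV : IsOpen ((θ.ker.map U.subtype : Subgroup G) : Set G) := by
    refine Subgroup.isOpen_of_mem_nhds _ (g := 1) (Filter.mem_of_superset
      (D.opn.mem_nhds (map_one rb)) fun g hg => (sc g).2 ?_)
    have e : rb g = 1 := hg
    exact ⟨memU D (by rw [e, Matrix.one_apply_eq]; exact one_ne_zero),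
      by rw [e, Matrix.one_apply_eq, Matrix.one_apply_eq]⟩
  refine ⟨θ.ker.map U.subtype, t, D, sc, ⟨fun v hv g => (sc _).2 ?_⟩, opV,
    Subgroup.isOpen_mono (fun g hg => ((sc g).1 hg).1) opV, t.2,
    fun h => ne ((hθ t).2 ((sc _).1 h).2), fun u hu => ?_, ?_, fun e => ne (Units.ext e), ?_, ?_,
    ?_, fun σ hσ => (sc _).2 ?_⟩
  · obtain ⟨a, b⟩ := (sc v).1 hv
    by_cases hg : g ∈ U
    · exact ⟨U.mul_mem (U.mul_mem hg a) (U.inv_mem hg), by
        rw [(keep D hg a).1, (keep D hg a).2, b]⟩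
    · exact ⟨(swap D hg a).1, by rw [(swap D hg a).2.1, (swap D hg a).2.2, b]⟩
  · obtain ⟨i, hi⟩ := gen ⟨u, hu⟩
    exact ⟨i, mk ((t ^ i)⁻¹ * ⟨u, hu⟩) (by rw [map_mul, map_inv, map_pow, hi, inv_mul_cancel])⟩
  · rw [ri]
    refine Odd.of_dvd_nat ?_ (Subgroup.card_subgroup_dvd_card θ.range)
    haveI := Fintype.ofFinite F
    obtain ⟨n, -, hn⟩ := FiniteField.card F 2
    rw [Nat.card_units, Nat.card_eq_fintype_card, hn]
    exact Nat.Even.sub_odd Nat.one_le_two_pow ((Nat.even_pow' n.ne_zero).2 even_two) odd_one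
  · rw [ri]
    exact congrArg Units.val pw
  · rw [ri]
    exact mk (t ^ Nat.card θ.range) (by rw [map_pow, pw])
  · refine or_iff_not_imp_left.2 fun h => ?_
    obtain ⟨σ, hσ⟩ := not_forall.1 fun k => h ((Subgroup.eq_top_iff' U).2 k)
    refine Subgroup.index_eq_two_iff.2 ⟨σ, fun b => ?_⟩
    by_cases hb : b ∈ U
    · exact Or.inr ⟨hb, fun k => hσ ((U.mul_mem_cancel_left hb).1 k)⟩
    · exact Or.inl ⟨two D hb hσ, hb⟩
  · obtain ⟨a, b, c⟩ := swap D hσ t.2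
    exact ⟨U.mul_mem a t.2, by rw [(mulU D a t.2).1, (mulU D a t.2).2, b, c, mul_comm]⟩

theorem ext : EXT := by
  intro F _ G _ _ _ U V t θ hV _ le ht gen mul one ne b hb
  classical
  obtain ⟨⟨lc, add⟩, eig⟩ := hb
  let B : G → F := fun g => if h : g ∈ V then b ⟨g, h⟩ else 0
  have hB : ∀ (g : G) (h : g ∈ V), B g = b ⟨g, h⟩ := fun g h => dif_pos h
  have B1 : ∀ v ∈ V, ∀ w ∈ V, B (v * w) = B v + B w := fun v hv w hw => by
    rw [hB _ (V.mul_mem hv hw), hB v hv, hB w hw]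
    exact add ⟨v, hv⟩ ⟨w, hw⟩
  have B0 : B 1 = 0 := by
    have e := B1 1 V.one_mem 1 V.one_mem
    rw [one_mul] at e
    linear_combination -e
  have B2 : ∀ v ∈ V, B v⁻¹ = -B v := fun v hv => by
    have e := B1 v hv _ (V.inv_mem hv)
    rw [mul_inv_cancel, B0] at e
    linear_combination -e
  have B3 : ∀ v ∈ V, B (t * v * t⁻¹) = θ t * B v := fun v hv => by
    rw [hB _ (hV.conj_mem v hv t), hB v hv]
    exact eig _ _ rfl
  have B4 : ∀ (i : ℕ), ∀ w ∈ V, ∀ v ∈ V,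
      B (t ^ i * w * v * (t ^ i * w)⁻¹) = θ (t ^ i * w) * B v := fun i w hw v hv => by
    induction i with
    | zero =>
      rw [pow_zero, one_mul, B1 _ (V.mul_mem hw hv) _ (V.inv_mem hw), B1 w hw v hv, B2 w hw,
        one w hw]
      ring
    | succ i ih =>
      have e : t ^ (i + 1) * w * v * (t ^ (i + 1) * w)⁻¹ =
          t * (t ^ i * w * v * (t ^ i * w)⁻¹) * t⁻¹ := by group
      rw [e, B3 _ (hV.conj_mem v hv _), ih, pow_succ', mul_assoc t,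
        mul t ht _ (U.mul_mem (U.pow_mem ht i) (le hw)), mul_assoc]
  have B5 : ∀ u ∈ U, ∀ v ∈ V, B (u * v * u⁻¹) = θ u * B v := fun u hu v hv => by
    obtain ⟨i, hi⟩ := gen u hu
    have e := B4 i _ hi v hv
    rwa [mul_inv_cancel_left] at e
  have ka : ∀ u ∈ U, t * u * t⁻¹ * u⁻¹ ∈ V := fun u hu => by
    obtain ⟨i, hi⟩ := gen u hu
    have e : t * u * t⁻¹ * u⁻¹ = t ^ i * (t * ((t ^ i)⁻¹ * u) * t⁻¹ * ((t ^ i)⁻¹ * u)⁻¹) *
      (t ^ i)⁻¹ := by group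
    rw [e]
    exact hV.conj_mem _ (V.mul_mem (hV.conj_mem _ hi t) (V.inv_mem hi)) _
  have n0 := sub_ne_zero.2 ne
  refine ⟨fun u => B (t * u * t⁻¹ * (u : G)⁻¹) / (θ t - 1), ?_, fun u u' => ?_, fun v u e => ?_⟩
  · have c : Continuous fun u : U => (⟨t * u * t⁻¹ * (u : G)⁻¹, ka u u.2⟩ : V) :=
      Continuous.subtype_mk (((continuous_const.mul continuous_subtype_val).mul
        continuous_const).mul continuous_subtype_val.inv) _
    have e : (fun u : U => B (t * u * t⁻¹ * (u : G)⁻¹) / (θ t - 1)) = (· / (θ t - 1)) ∘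
        (b ∘ fun u : U => (⟨t * u * t⁻¹ * (u : G)⁻¹, ka u u.2⟩ : V)) :=
      funext fun u => congrArg (· / (θ t - 1)) (hB _ (ka u u.2))
    rw [e]
    exact (lc.comp_continuous c).comp _
  · have e : t * ((u * u' : U) : G) * t⁻¹ * ((u * u' : U) : G)⁻¹ =
        t * u * t⁻¹ * (u : G)⁻¹ * (u * (t * u' * t⁻¹ * (u' : G)⁻¹) * (u : G)⁻¹) := by
      rw [Subgroup.coe_mul]
      group
    simp only
    rw [e, B1 _ (ka u u.2) _ (hV.conj_mem _ (ka u' u'.2) _), B5 u u.2 _ (ka u' u'.2)]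
    ring
  · simp only
    rw [e, B1 _ (hV.conj_mem _ v.2 t) _ (V.inv_mem v.2), B3 _ v.2, B2 _ v.2, hB _ v.2,
      div_eq_iff n0]
    ring

end Vale.Agent.P022D.L2c
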