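import Vale.Agent.P022D.L2c.Defs
import Vale.Agent.P022D.L2b.B1

/-!
# P022, block L2c: the character of `-1` (row ETA)
-/

set_option linter.all false

noncomputable section

namespace Vale.Agent.P022D.L2c

namespace Eta

open Vale.Agent.P022D.L2b.B Vale.Agent.P022D.L2 Finset

theorem fin_ord {x : Om} (hx : x ∈ Oi) (h : rs x ≠ 0) : IsOfFinOrder (rs x) := by
  let K := IntermediateField.adjoin ℚ_[2] {x}
  have : FiniteDimensional ℚ_[2] K :=
    IntermediateField.adjoin.finiteDimensional (Algebra.IsIntegral.isIntegral x)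
  have : FiniteDimensional ℚ_[2] K.toSubalgebra.toSubmodule := this
  have : ProperSpace K.toSubalgebra.toSubmodule := FiniteDimensional.proper ℚ_[2] _
  let y : ℕ → K.toSubalgebra.toSubmodule := fun n =>
    ⟨x ^ n, pow_mem (IntermediateField.mem_adjoin_simple_self ℚ_[2] x) n⟩
  obtain ⟨a, -, φ, hφ, ha⟩ := (isCompact_closedBall (0 : K.toSubalgebra.toSubmodule)
    1).tendsto_subseq (x := y) fun n => mem_closedBall_zero_iff.2 (pow_mem hx n)
  obtain ⟨N, hN⟩ := Metric.cauchySeq_iff'.1 ha.cauchySeq 1 one_pos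
  have e : rs (x ^ φ (N + 1)) = rs (x ^ φ N) := (rs_eq (pow_mem hx _) (pow_mem hx _)).2 (by
    have := hN (N + 1) (Nat.le_succ N)
    rwa [dist_eq_norm] at this)
  obtain ⟨d, hd⟩ := Nat.exists_eq_add_of_lt (hφ (Nat.lt_succ_self N))
  rw [rs_pow hx, rs_pow hx, hd, add_assoc, pow_add] at e
  exact isOfFinOrder_iff_pow_eq_one.2 ⟨d + 1, d.succ_pos,
    (mul_right_eq_self₀.1 e).resolve_right (pow_ne_zero _ h)⟩

theorem pw {x : Om} (hx : x ∈ Oi) (g : GG) : ∃ a : ℕ, a ≠ 0 ∧ rs (g x) = rs x ^ a := by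
  by_cases h : rs x = 0
  · refine ⟨1, one_ne_zero, ?_⟩
    rw [rs_congr g hx (zero_mem _) (h.trans rs_zero.symm), map_zero, rs_zero, h, pow_one]
  have o := (fin_ord hx h).orderOf_pos
  have : NeZero (orderOf (rs x)) := ⟨o.ne'⟩
  obtain ⟨a, -, ha⟩ := (IsPrimitiveRoot.orderOf (rs x)).eq_pow_of_pow_eq_one (ξ := rs (g x)) (by
    rw [← rs_pow (Oi.map g hx), ← map_pow, rs_congr g (pow_mem hx _) (one_mem _)
      (by rw [rs_pow hx, pow_orderOf_eq_one, rs_one]), map_one, rs_one])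
  exact ⟨a + orderOf (rs x), by omega, by rw [pow_add, pow_orderOf_eq_one, mul_one, ha]⟩

theorem comm {x : Om} (hx : x ∈ Oi) (g h : GG) : rs (g (h x)) = rs (h (g x)) := by
  obtain ⟨a, -, ha⟩ := pw hx g
  obtain ⟨b, -, hb⟩ := pw hx h
  rw [rs_congr g (Oi.map h hx) (pow_mem hx b) (by rw [hb, rs_pow hx]),
    rs_congr h (Oi.map g hx) (pow_mem hx a) (by rw [ha, rs_pow hx]), map_pow, map_pow,
    rs_pow (Oi.map g hx), rs_pow (Oi.map h hx), ha, hb, ← pow_mul, ← pow_mul, mul_comm]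

theorem four : ∀ a b : ZMod (2 ^ 2), a ^ 2 + b ^ 2 = 0 → ¬ IsUnit b := by decide

/-- the residue field of `ℚ₂(i)` has two elements -/
theorem ram {i y : Om} {η : GG → ZMod 2} (hi : i ^ 2 = -1) (k : Ar.Ku i η) (hy : y ∈ Oi)
    (h : ∀ g, η g = 0 → g y = y) {σ : GG} (hσ : η σ = 1) : rs y = 0 ∨ rs y = 1 := by
  have i0 : i ≠ 0 := fun e => by rw [e] at hi; norm_num at hi
  have am : ∀ x y, η (x * y) = η x + η y := fun x y => by rw [(k.coc i0).2, one_mul]
  have two : (1 + 1 : ZMod 2) = 0 := rfl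
  have w3 : ∀ x, η x = 1 → x (σ y) = y := fun x hx => by
    rw [← AlgEquiv.mul_apply, h _ (by rw [am, hx, hσ, two])]
  have w1 : ∀ x, η x = 1 → x y = σ y := fun x hx => x.injective (by
    rw [w3 x hx, ← AlgEquiv.mul_apply, h _ (by rw [am, hx, two])])
  have w2 : ∀ x, η x = 0 → x (σ y) = σ y := fun x hx => by
    rw [← AlgEquiv.mul_apply, w1 _ (by rw [am, hx, hσ, zero_add])]
  obtain ⟨S, hS⟩ := fixed (x := y + σ y) fun x => by
    rw [map_add]
    rcases Ar.z2 (η x) with e | e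
    · rw [h x e, w2 x e]
    · rw [w1 x e, w3 x e, add_comm]
  obtain ⟨N, hN⟩ := fixed (x := y * σ y) fun x => by
    rw [map_mul]
    rcases Ar.z2 (η x) with e | e
    · rw [h x e, w2 x e]
    · rw [w1 x e, w3 x e, mul_comm]
  obtain ⟨d, hd⟩ := fixed (x := (y - σ y) * i) fun x => by
    rw [map_mul, map_sub, k]
    rcases Ar.z2 (η x) with e | e
    · rw [h x e, w2 x e, e, Ar.sg0, one_mul]
    · rw [w1 x e, w3 x e, e, Ar.sg1]; ring
  have sy := Oi.map σ hy
  have ni : ‖i‖ = 1 := root_nrm (N := 4) (by norm_num) (by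
    rw [show 4 = 2 * 2 from rfl, pow_mul, hi]; norm_num)
  have nS : ‖S‖ ≤ 1 := by rw [← nrm_alg, hS]; exact add_mem hy sy
  have nN : ‖N‖ ≤ 1 := by rw [← nrm_alg, hN]; exact mul_mem hy sy
  have nd : ‖d‖ = ‖y - σ y‖ := by rw [← nrm_alg, hd, norm_mul, ni, mul_one]
  have nd' : ‖d‖ ≤ 1 := nd ▸ sub_mem hy sy
  have e : S ^ 2 + d ^ 2 = 4 * N := (algebraMap ℚ_[2] Om).injective (by
    rw [map_add, map_pow, map_pow, map_mul, map_ofNat, hS, hN, hd, mul_pow, hi]; ring)
  let S' : ℤ_[2] := ⟨S, nS⟩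
  let d' : ℤ_[2] := ⟨d, nd'⟩
  let N' : ℤ_[2] := ⟨N, nN⟩
  have e' : S' ^ 2 + d' ^ 2 = 4 * N' := Subtype.ext e
  have e2 := congrArg (PadicInt.toZModPow 2) e'
  rw [map_add, map_pow, map_pow, map_mul, map_ofNat, show (4 : ZMod (2 ^ 2)) = 0 from rfl,
    zero_mul] at e2
  have lt : ‖y - σ y‖ < 1 := by
    rw [← nd]
    exact lt_of_le_of_ne nd' fun h1 => four _ _ e2 ((PadicInt.isUnit_iff.2 h1).map _)
  have e3 := q_sq nN
  rw [hN, rs_mul hy sy, ← (rs_eq hy sy).2 lt] at e3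
  have e4 : rs y ^ 2 * (rs y - 1) ^ 2 = 0 := by
    linear_combination e3 + (rs y ^ 2 - rs y ^ 3) * k2
  rcases mul_eq_zero.1 e4 with e5 | e5
  · exact Or.inl (pow_eq_zero_iff two_ne_zero |>.1 e5)
  · exact Or.inr (sub_eq_zero.1 (pow_eq_zero_iff two_ne_zero |>.1 e5))

/-- no dihedral extension of odd degree over `ℚ₂(i)` -/
theorem nodih {i : Om} {η : GG → ZMod 2} (hi : i ^ 2 = -1) (k : Ar.Ku i η) (V : Subgroup GG)
    (hn : V.Normal) (hV : IsOpen (V : Set GG)) {t σ : GG} {m : ℕ} (hm : Odd m) (tm : t ^ m ∈ V)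
    (gen : ∀ u, η u = 0 → ∃ j : ℕ, (t ^ j)⁻¹ * u ∈ V) (hσ : η σ = 1)
    (inv : σ * t * σ⁻¹ * t ∈ V) : t ∈ V := by
  have mp : ∀ (g : GG) {x : Om}, (∀ v ∈ V, v x = x) → ∀ v ∈ V, v (g x) = g x := fun g x hx v hv => by
    have := congrArg g (hx _ (hn.conj_mem v hv g⁻¹))
    rwa [← AlgEquiv.mul_apply, inv_inv, mul_assoc, mul_inv_cancel_left] at this
  have tr : ∀ {x : Om}, (∀ v ∈ V, v x = x) →
      t (∑ j ∈ range m, (t ^ j) x) = ∑ j ∈ range m, (t ^ j) x := fun {x} hx => by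
    have e1 := sum_range_succ (fun j => (t ^ j) x) m
    rw [sum_range_succ', hx _ tm, pow_zero, AlgEquiv.one_apply, add_left_inj] at e1
    rw [map_sum, ← e1]
    exact sum_congr rfl fun j _ => by rw [pow_succ', AlgEquiv.mul_apply]
  have res : ∀ {x : Om}, x ∈ Oi → (∀ v ∈ V, v x = x) → rs x = 0 ∨ rs x = 1 := fun {x} hx hv => by
    have t2 : rs (t (t x)) = rs x := by
      have e := comm (Oi.map σ⁻¹ (Oi.map t hx)) σ t
      have e' := hv _ inv
      simp only [AlgEquiv.mul_apply] at e'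
      rw [e', ← AlgEquiv.mul_apply σ, mul_inv_cancel, AlgEquiv.one_apply] at e
      exact e.symm
    have t3 : ∀ n, rs ((t ^ (2 * n)) x) = rs x := fun n => by
      induction n with
      | zero => rfl
      | succ n ih =>
        rw [mul_add, add_comm, pow_add, AlgEquiv.mul_apply, rs_congr _ (Oi.map _ hx) hx ih, mul_one,
          sq, AlgEquiv.mul_apply, t2]
    have t1 : rs (t x) = rs x := by
      obtain ⟨n, rfl⟩ := hm
      rw [← rs_congr t (Oi.map _ hx) hx (t3 n), ← AlgEquiv.mul_apply, ← pow_succ', hv _ tm]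
    have t4 : ∀ n, rs ((t ^ n) x) = rs x := fun n => by
      induction n with
      | zero => rfl
      | succ n ih => rw [pow_succ', AlgEquiv.mul_apply, rs_congr _ (Oi.map _ hx) hx ih, t1]
    have := ram hi k (sum_mem fun j (_ : j ∈ range m) => Oi.map (t ^ j) hx) (fun g hg => by
      obtain ⟨j, hj⟩ := gen g hg
      have e1 : ∀ n : ℕ, (t ^ n) (∑ j ∈ range m, (t ^ j) x) = ∑ j ∈ range m, (t ^ j) x :=
        fun n => by
          induction n with
          | zero => rfl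
          | succ n ih => rw [pow_succ', AlgEquiv.mul_apply, ih, tr hv]
      rw [← mul_inv_cancel_left (t ^ j) g, AlgEquiv.mul_apply, map_sum,
        sum_congr rfl fun l _ => mp (t ^ l) hv _ hj, e1]) hσ
    rwa [rs_sum _ fun j _ => Oi.map _ hx, sum_congr rfl fun j _ => t4 j, sum_const, card_range,
      nsmul_eq_mul, odd_cast hm, one_mul] at this
  rw [← show (IntermediateField.fixedField V).fixingSubgroup = V from
    InfiniteGalois.fixingSubgroup_fixedField ⟨V, V.isClosed_of_isOpen hV⟩,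
    IntermediateField.mem_fixingSubgroup_iff]
  intro x hx
  have hx := (IntermediateField.mem_fixedField_iff V x).1 hx
  by_contra ne
  have z0 : t x - x ≠ 0 := sub_ne_zero.2 ne
  have hz : ∀ v ∈ V, v (t x - x) = t x - x := fun v hv => by rw [map_sub, mp t hx v hv, hx v hv]
  have s0 : ∑ j ∈ range m, (t ^ j) (t x - x) = 0 := by
    have : ∀ j : ℕ, (t ^ j) (t x - x) = t ((t ^ j) x) - (t ^ j) x := fun j => by
      rw [map_sub, ← AlgEquiv.mul_apply, ← pow_succ, pow_succ', AlgEquiv.mul_apply]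
    rw [sum_congr rfl fun j _ => this j, sum_sub_distrib, ← map_sum, tr hx, sub_self]
  generalize t x - x = z at z0 hz s0
  have n1 : ∀ j : ℕ, ‖(t ^ j) z / z‖ = 1 := fun j => by
    rw [norm_div, nrm, div_self (norm_ne_zero_iff.2 z0)]
  have r1 : ∀ j : ℕ, rs ((t ^ j) z / z) = 1 := fun j =>
    (res (n1 j).le fun v hv => by rw [map_div₀, mp _ hz v hv, hz v hv]).resolve_left fun e =>
      ((rs_eq_zero (n1 j).le).1 e).ne (n1 j)
  have := rs_sum (range m) (f := fun j => (t ^ j) z / z) fun j _ => (n1 j).le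
  rw [← sum_div, s0, zero_div, rs_zero, sum_congr rfl fun j _ => r1 j, sum_const, card_range,
    nsmul_eq_mul, odd_cast hm, one_mul] at this
  exact zero_ne_one this

end Eta

open Vale.Agent.P022D.L2 Vale.Agent.P022D.L2b.B in
theorem eta : ETA G2 := by
  obtain ⟨i, hi⟩ := IsAlgClosed.exists_pow_nat_eq (-1 : Om) two_pos
  have i0 : i ≠ 0 := fun e => by rw [e] at hi; norm_num at hi
  choose η k using fun x : GG => Ar.pm (s := x i) (t := i) (by rw [← map_pow, hi, map_neg, map_one])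
  have k : Ar.Ku i η := k
  have c := k.coc i0
  refine ⟨η, ⟨c.1, fun x y => by rw [c.2, one_mul]⟩, fun e => ?_, fun a ha => ?_,
    fun U V t σ hn hV le tU tV gen odd _ hσ inv h => tV ?_⟩
  · obtain ⟨d, hd⟩ := fixed (x := i) fun g => by rw [k, e]; simp
    refine P025H25.not_split_of_T 2 2 (by norm_num) (by norm_num) (by decide)
      ⟨d, 0, (algebraMap ℚ_[2] Om).injective ?_⟩
    rw [show P025H25.R 2 = -1 by decide]
    simp [hd, hi]
  · obtain ⟨l, l0, hl⟩ := Ar.kum (L := Om) ⊤ isClosed_univ ha.1 fun x _ y _ => ha.2 x y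
    have hl : Ar.Ku l a := fun x => hl x trivial
    exact Ar.cup (mul_ne_zero i0 l0) hl l0 (k.mul hl) 0 1 (by rw [mul_pow, hi]; simp)
  · exact Eta.nodih hi k V hn hV odd (V.pow_relIndex_mem tU) (fun u hu => gen u ((h u).1 hu))
      ((Ar.z2 _).resolve_left fun e => hσ ((h σ).1 e)) inv

end Vale.Agent.P022D.L2c
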