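import Vale.Agent.P022D.L2c.Defs
import Vale.Agent.P022D.L2.Ar

/-! P022, block L2c: Kummer theory for the open subgroups of the group of `ℚ₂` (row KUM). -/

set_option linter.all false

noncomputable section

namespace Vale.Agent.P022D.L2c

namespace Kum

open Module IntermediateField
open L2.Ar (sg sg_add sg_sq sg_inj map_sg pm sg0)

section lin

variable (F : Type) [Field F] [CharP F 2]

theorem dec [Finite F] : ∃ (n : ℕ) (e : Fin n → F) (c : Fin n → F →+ ZMod 2),
    ∀ f, f = ∑ i, e i * up F (c i f) := by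
  letI := ZMod.algebra F 2
  let b := Module.finBasis (ZMod 2) F
  refine ⟨_, b, fun i => (b.coord i).toAddMonoidHom, fun f => ?_⟩
  conv_lhs => rw [← b.sum_repr f]
  exact Finset.sum_congr rfl fun i _ => by rw [mul_comm]; exact Algebra.smul_def _ _

variable {X : Type} [Group X] [TopologicalSpace X]

/-- extension of scalars -/
def io : Hm (ZMod 2) X →+ Hm F X where
  toFun w := ⟨fun h => up F (w.1 h), w.2.1.comp _, fun x y => by simp only [w.2.2, map_add]⟩
  map_zero' := Subtype.ext (funext fun _ => map_zero (up F))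
  map_add' a b := Subtype.ext (funext fun _ => map_add (up F) _ _)

theorem dual [Finite F] {Y : Type} [AddCommGroup Y] (ka : Y →+ Hm (ZMod 2) X)
    (hs : Function.Surjective ka) (hk : ∀ y, ka y = 0 → ∃ z, y = z + z)
    [Module.Finite F (Y →+ F)] : Module.Finite F (Hm F X) ∧
      ∃ Φ : Dual F (Hm F X) ≃ₗ[F] (Y →+ F), ∀ l y, Φ l y = l (io F (ka y)) := by
  obtain ⟨n, e, c, hc⟩ := dec F
  let Φ : Dual F (Hm F X) →ₗ[F] (Y →+ F) :=
    { toFun := fun l => l.toAddMonoidHom.comp ((io F).comp ka)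
      map_add' := fun _ _ => rfl
      map_smul' := fun _ _ => rfl }
  have h1 : Function.Injective Φ := by
    rw [injective_iff_map_eq_zero]
    intro l hl
    ext b
    let w : Fin n → Hm (ZMod 2) X := fun i =>
      ⟨fun h => c i (b.1 h), b.2.1.comp _, fun x y => by simp only [b.2.2, map_add]⟩
    have e1 : b = ∑ i, e i • io F (w i) := Subtype.ext (funext fun h => by
      rw [Submodule.coe_sum, Finset.sum_apply]
      exact hc _)
    rw [e1, map_sum]
    refine Finset.sum_eq_zero fun i _ => ?_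
    obtain ⟨y, hy⟩ := hs (w i)
    have : l (io F (ka y)) = 0 := DFunLike.congr_fun hl y
    rw [map_smul, ← hy, this, smul_zero]
  have h2 : Module.Finite F (Hm F X) :=
    (Module.finite_dual_iff F).1 (Module.Finite.of_injective Φ h1)
  have h3 : Finite (Hm F X) := Module.finite_of_finite F
  have h4 : Finite (Hm (ZMod 2) X) := Finite.of_injective (io F (X := X)) fun a b h =>
    Subtype.ext (funext fun x => (up F).injective (congrFun (congrArg Subtype.val h) x))
  let ev : X → Dual (ZMod 2) (Hm (ZMod 2) X) := fun h =>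
    (LinearMap.proj h).comp (Hm (ZMod 2) X).subtype
  have h5 : Submodule.span (ZMod 2) (Set.range ev) = ⊤ :=
    Submodule.span_eq_top_of_ne_zero fun z hz => by
      by_contra hn
      push Not at hn
      exact hz (Subtype.ext (funext fun h => hn _ ⟨h, rfl⟩))
  have h6 : ∀ μ : Dual (ZMod 2) (Hm (ZMod 2) X), ∃ l : Dual F (Hm F X),
      ∀ w, l (io F w) = up F (μ w) := by
    intro μ
    have hμ : μ ∈ Submodule.span (ZMod 2) (Set.range ev) := h5 ▸ Submodule.mem_top
    induction hμ using Submodule.span_induction with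
    | mem x hx =>
      obtain ⟨h, rfl⟩ := hx
      exact ⟨(LinearMap.proj h).comp (Hm F X).subtype, fun w => rfl⟩
    | zero => exact ⟨0, fun w => (map_zero _).symm⟩
    | add x y _ _ hx hy =>
      obtain ⟨a, ha⟩ := hx
      obtain ⟨b, hb⟩ := hy
      exact ⟨a + b, fun w => by rw [LinearMap.add_apply, LinearMap.add_apply, ha, hb, map_add]⟩
    | smul a x _ hx =>
      obtain ⟨b, hb⟩ := hx
      exact ⟨up F a • b, fun w => by
        rw [LinearMap.smul_apply, LinearMap.smul_apply, hb, smul_eq_mul, smul_eq_mul, map_mul]⟩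
  refine ⟨h2, LinearEquiv.ofBijective Φ ⟨h1, fun l => ?_⟩, fun _ _ => rfl⟩
  have h7 : ka.ker ≤ l.ker := fun y hy => by
    obtain ⟨z, rfl⟩ := hk y hy
    rw [AddMonoidHom.mem_ker, map_add, CharTwo.add_self_eq_zero]
  let l' := ka.liftOfSurjective hs ⟨l, h7⟩
  have h8 : ∀ y, l' (ka y) = l y := fun y => ka.liftOfRightInverse_comp_apply _ _ _ y
  choose m hm using fun i => h6 (((c i).comp l').toZModLinearMap 2)
  refine ⟨∑ i, e i • m i, AddMonoidHom.ext fun y => ?_⟩
  show (∑ i, e i • m i) (io F (ka y)) = _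
  rw [LinearMap.sum_apply, hc (l y), ← h8]
  exact Finset.sum_congr rfl fun i _ => by rw [LinearMap.smul_apply, hm]; rfl

omit [CharP F 2] in
theorem eig {A : Type} [AddCommGroup A] [Module F A] [Module.Finite F A] (T : A →ₗ[F] A) :
    finrank F (LinearMap.ker T.dualMap) = finrank F (LinearMap.ker T) := by
  have h1 := T.finrank_range_add_finrank_ker
  have h2 := T.dualMap.finrank_range_add_finrank_ker
  rw [LinearMap.finrank_range_dualMap_eq_finrank_range, Subspace.dual_finrank_eq] at h2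
  omega

omit [CharP F 2] in
theorem cmp {A : Type} [AddCommGroup A] [Module F A] [Module.Finite F A] {Y : Type} [AddCommGroup Y]
    (τ : Y →+ Y) (j : (⊤ : AddSubgroup Y) → A) (Φ : Dual F A ≃ₗ[F] ((⊤ : AddSubgroup Y) →+ F))
    (hΦ : ∀ l y, Φ l y = l (j y)) (T : A →ₗ[F] A) (eq : ∀ y y', y'.1 = τ y.1 → j y' = T (j y))
    (x : F) : finrank F (Xe F τ x ⊤) = finrank F (LinearMap.ker (T - x • LinearMap.id)) := by
  have e2 : Xe F τ x ⊤ = (LinearMap.ker (T - x • LinearMap.id).dualMap).map Φ.toLinearMap := by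
    ext l
    obtain ⟨l, rfl⟩ := Φ.surjective l
    have e3 : ∀ (l : Dual F A) b, (T - x • LinearMap.id).dualMap l b = l (T b) - x * l b :=
      fun l b => by simp
    constructor
    · intro hl
      refine ⟨l, Φ.injective (AddMonoidHom.ext fun y => ?_), rfl⟩
      have := hl y ⟨_, trivial⟩ rfl
      rw [hΦ, hΦ, eq y _ rfl] at this
      rw [hΦ, e3, this, sub_self, map_zero, AddMonoidHom.zero_apply]
    · rintro ⟨l', hl, e⟩ y y' e'
      obtain rfl : l' = l := Φ.injective e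
      rw [hΦ, hΦ, eq y y' e', ← sub_eq_zero, ← e3, LinearMap.mem_ker.1 hl, LinearMap.zero_apply]
  rw [e2, Φ.finrank_map_eq, eig]

omit [CharP F 2] in
theorem ef_rank {Γ : Type} [Group Γ] [Finite Γ] (τ : Γ) (x : F) (hx : x ^ orderOf τ = 1) :
    finrank F (Ef F (fun i => τ * i) x) = (Subgroup.zpowers τ).index := by
  classical
  set Z := Subgroup.zpowers τ with hZ
  have x0 : x ≠ 0 := by
    rintro rfl
    rw [zero_pow (orderOf_pos τ).ne'] at hx
    exact zero_ne_one hx
  have hg : ∀ y : Z, y ∈ Subgroup.zpowers (⟨τ, Subgroup.mem_zpowers τ⟩ : Z) := by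
    rintro ⟨_, k, rfl⟩
    exact ⟨k, rfl⟩
  have hd : orderOf (Units.mk0 x x0) ∣ orderOf (⟨τ, Subgroup.mem_zpowers τ⟩ : Z) := by
    rw [Subgroup.orderOf_mk, orderOf_dvd_iff_pow_eq_one]
    exact Units.ext hx
  let χ := monoidHomOfForallMemZpowers hg hd
  have hχ : χ ⟨τ, Subgroup.mem_zpowers τ⟩ = Units.mk0 x x0 :=
    monoidHomOfForallMemZpowers_apply_gen hg hd
  have hm : ∀ i : Γ, i * ((i⁻¹ : Γ) : Γ ⧸ Z).out ∈ Z := fun i => by
    have := QuotientGroup.eq.1 ((i⁻¹ : Γ) : Γ ⧸ Z).out_eq.symm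
    rwa [inv_inv] at this
  let Ψ : Ef F (fun i => τ * i) x →ₗ[F] (Γ ⧸ Z → F) :=
    { toFun := fun f q => f.1 q.out⁻¹
      map_add' := fun _ _ => rfl
      map_smul' := fun _ _ => rfl }
  have h1 : Function.Injective Ψ := by
    rw [injective_iff_map_eq_zero]
    intro f hf
    have h2 : ∀ (n : ℕ) (j : Γ), f.1 (τ ^ n * j) = x ^ n * f.1 j := by
      intro n j
      induction n with
      | zero => simp
      | succ n ih => rw [pow_succ', mul_assoc, f.2, ih, pow_succ', mul_assoc]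
    refine Subtype.ext (funext fun i => ?_)
    obtain ⟨n, hn⟩ := mem_powers_iff_mem_zpowers.2 (hm i)
    have h3 : f.1 ((i⁻¹ : Γ) : Γ ⧸ Z).out⁻¹ = 0 := congrFun hf _
    have h4 := h2 n ((i⁻¹ : Γ) : Γ ⧸ Z).out⁻¹
    have hn' : τ ^ n = i * ((i⁻¹ : Γ) : Γ ⧸ Z).out := hn
    rwa [h3, mul_zero, hn', mul_inv_cancel_right] at h4
  have h2 : Function.Surjective Ψ := by
    intro φ
    refine ⟨⟨fun i => (χ ⟨_, hm i⟩ : F) * φ ((i⁻¹ : Γ) : Γ ⧸ Z), fun i => ?_⟩, funext fun q => ?_⟩
    · have e : (((τ * i)⁻¹ : Γ) : Γ ⧸ Z) = ((i⁻¹ : Γ) : Γ ⧸ Z) :=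
        QuotientGroup.eq.2 (by simpa only [inv_inv, mul_inv_cancel_right] using Subgroup.mem_zpowers τ)
      have e' : (⟨_, hm (τ * i)⟩ : Z) = ⟨τ, Subgroup.mem_zpowers τ⟩ * ⟨_, hm i⟩ :=
        Subtype.ext (by simp only [e, mul_assoc, Subgroup.coe_mul])
      show (χ ⟨_, hm (τ * i)⟩ : F) * φ (((τ * i)⁻¹ : Γ) : Γ ⧸ Z) =
        x * ((χ ⟨_, hm i⟩ : F) * φ ((i⁻¹ : Γ) : Γ ⧸ Z))
      rw [e', map_mul, hχ, Units.val_mul, Units.val_mk0, mul_assoc, e]
    · have e : ((q.out⁻¹⁻¹ : Γ) : Γ ⧸ Z) = q := by rw [inv_inv]; exact q.out_eq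
      have e' : (⟨_, hm q.out⁻¹⟩ : Z) = 1 :=
        Subtype.ext (by simp only [e, inv_mul_cancel, Subgroup.coe_one])
      show (χ ⟨_, hm q.out⁻¹⟩ : F) * φ ((q.out⁻¹⁻¹ : Γ) : Γ ⧸ Z) = φ q
      rw [e', e, map_one, Units.val_one, one_mul]
  have := Fintype.ofFinite (Γ ⧸ Z)
  rw [(LinearEquiv.ofBijective Ψ ⟨h1, h2⟩).finrank_eq, Module.finrank_fintype_fun_eq_card,
    Subgroup.index, Nat.card_eq_fintype_card]

end lin

section gal

variable {k L : Type} [Field k] [Field L] [Algebra k L] [CharZero L] [IsGalois k L] [IsAlgClosed L]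

/-- the multiplicative group, written additively -/
abbrev Yk (K : Type) [Field K] : Type := (⊤ : AddSubgroup (Additive Kˣ))

/-- the value -/
def vl {K : IntermediateField k L} (y : Yk K) : L := ((Additive.toMul y.1 : Kˣ) : K)

/-- an element with given value -/
def mk {K : IntermediateField k L} (s : L) (h : s ∈ K) (h0 : s ≠ 0) : Yk K :=
  ⟨Additive.ofMul (Units.mk0 ⟨s, h⟩ fun e => h0 (congrArg Subtype.val e)), trivial⟩

theorem kummer (H : Subgroup Gal(L / k)) (hH : IsOpen (H : Set Gal(L / k))) :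
    ∃ ka : Yk (fixedField H) →+ Hm (ZMod 2) H, Function.Surjective ka ∧
      (∀ y, ka y = 0 → ∃ z, y = z + z) ∧
      (∀ y (s : L), s ^ 2 = vl y → ∀ h : H, h.1 s = sg L ((ka y).1 h) * s) ∧
      ∀ y (s : L) (a : H → ZMod 2), s ^ 2 = vl y → (∀ h : H, h.1 s = sg L (a h) * s) →
        (ka y).1 = a := by
  classical
  have v0 : ∀ y : Yk (fixedField H), vl y ≠ 0 := fun y e =>
    (Additive.toMul y.1).ne_zero (Subtype.ext e)
  have s0 : ∀ (y : Yk (fixedField H)) (s : L), s ^ 2 = vl y → s ≠ 0 := by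
    rintro y s h rfl
    exact v0 y (by rw [← h]; ring)
  have rt : ∀ y : Yk (fixedField H), ∃ s : L, s ^ 2 = vl y := fun y =>
    IsAlgClosed.exists_pow_nat_eq _ two_pos
  have ex : ∀ y : Yk (fixedField H), ∃ a : Hm (ZMod 2) H, ∀ s : L, s ^ 2 = vl y →
      ∀ h : H, h.1 s = sg L (a.1 h) * s := by
    intro y
    obtain ⟨t, ht⟩ := rt y
    have h1 : ∀ h : H, ∃ a, h.1 t = sg L a * t := fun h => pm (by
      rw [← map_pow, ht]
      exact (mem_fixedField_iff H _).1 (Additive.toMul y.1).1.2 h.1 h.2)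
    choose a ha using h1
    refine ⟨⟨a, IsLocallyConstant.desc a (fun c => sg L c * t) ?_ (sg_inj (s0 y t ht)),
      fun x z => sg_inj (s0 y t ht) ?_⟩, fun s hs h => ?_⟩
    · have : (fun c => sg L c * t) ∘ a = (fun g : Gal(L / k) => g t) ∘ Subtype.val :=
        funext fun h => (ha h).symm
      rw [this]
      exact (L2.Ar.lc t).comp_continuous continuous_subtype_val
    · show sg L (a (x * z)) * t = sg L (a x + a z) * t
      rw [← ha, Subgroup.coe_mul, AlgEquiv.mul_apply, ha z, map_mul, map_sg, ha x, sg_add]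
      ring
    · obtain ⟨c, rfl⟩ := pm (hs.trans ht.symm)
      rw [map_mul, map_sg, ha]
      exact mul_left_comm _ _ _
  choose ka hka using ex
  have un : ∀ y (s : L) (a : H → ZMod 2), s ^ 2 = vl y → (∀ h : H, h.1 s = sg L (a h) * s) →
      (ka y).1 = a := fun y s a hs ha =>
    funext fun h => sg_inj (s0 y s hs) ((hka y s hs h).symm.trans (ha h))
  refine ⟨AddMonoidHom.mk' ka fun y y' => Subtype.ext ?_, fun a => ?_, fun y hy => ?_, hka, un⟩
  · obtain ⟨s, hs⟩ := rt y
    obtain ⟨s', hs'⟩ := rt y'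
    refine un _ (s * s') _ (by rw [mul_pow, hs, hs']; rfl) fun h => ?_
    rw [map_mul, hka y s hs, hka y' s' hs']
    show _ = sg L ((ka y).1 h + (ka y').1 h) * _
    rw [sg_add]
    ring
  · let z : Gal(L / k) → ZMod 2 := fun g => if h : g ∈ H then a.1 ⟨g, h⟩ else 0
    have hz : IsLocallyConstant z := by
      refine (IsLocallyConstant.iff_exists_open _).2 fun x => ?_
      by_cases hx : x ∈ H
      · refine ⟨Subtype.val '' {y : H | a.1 y = a.1 ⟨x, hx⟩},
          hH.isOpenMap_subtype_val _ (a.2.1.isOpen_fiber _), ⟨⟨x, hx⟩, rfl, rfl⟩, ?_⟩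
        rintro _ ⟨y, hy, rfl⟩
        simp only [z, dif_pos y.2, dif_pos hx]
        exact hy
      · exact ⟨Hᶜ, (H.isClosed_of_isOpen hH).isOpen_compl, hx,
          fun y (hy : y ∉ H) => by simp only [z, dif_neg hy, dif_neg hx]⟩
    obtain ⟨l, l0, hl⟩ := L2.Ar.kum H (H.isClosed_of_isOpen hH) hz fun x hx y hy => by
      simp only [z, dif_pos hx, dif_pos hy, dif_pos (H.mul_mem hx hy)]
      exact a.2.2 ⟨x, hx⟩ ⟨y, hy⟩
    have h2 : l ^ 2 ∈ fixedField H := (mem_fixedField_iff H _).2 fun g hg => by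
      rw [map_pow, hl g hg, mul_pow, pow_two (sg L _), sg_sq, one_mul]
    exact ⟨mk _ h2 (pow_ne_zero 2 l0), Subtype.ext (un _ l _ rfl fun h => by
      rw [hl h.1 h.2]; simp only [z, dif_pos h.2])⟩
  · obtain ⟨s, hs⟩ := rt y
    have h2 : s ∈ fixedField H := (mem_fixedField_iff H _).2 fun g hg => by
      have hy' : ka y = 0 := hy
      have := hka y s hs ⟨g, hg⟩
      rw [hy'] at this
      exact this.trans (by show sg L 0 * s = s; rw [sg0, one_mul])
    exact ⟨mk s h2 (s0 y s hs), Subtype.ext (Additive.toMul.injective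
      (Units.ext (Subtype.ext (hs.symm.trans (pow_two s)))))⟩

end gal

theorem fix (H : Subgroup G2) (hH : IsOpen (H : Set G2)) : (fixedField H).fixingSubgroup = H :=
  InfiniteGalois.fixingSubgroup_fixedField ⟨H, H.isClosed_of_isOpen hH⟩

theorem fd (H : Subgroup G2) (hH : IsOpen (H : Set G2)) : FiniteDimensional ℚ_[2] (fixedField H) :=
  (InfiniteGalois.isOpen_iff_finite _).1 (by rw [fix H hH]; exact hH)

theorem rank (h : LOCU) (H : Subgroup G2) (hH : IsOpen (H : Set G2)) :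
    Nat.card (Hm (ZMod 2) H) = 2 ^ (H.index + 2) := by
  have := fd H hH
  obtain ⟨ka, h1, h2, -⟩ := kummer H hH
  obtain ⟨h3, h4, -⟩ := h (ZMod 2) (fixedField H) 1 1 odd_one (one_pow 1) _
    (Module.finBasis ℚ_[2] (fixedField H)) id (fun _ => rfl) 1
  obtain ⟨h5, Φ, -⟩ := dual (ZMod 2) ka h1 h2
  have e1 : Xe (ZMod 2) (ut (1 : fixedField H ≃ₐ[ℚ_[2]] fixedField H)) 1 ⊤ = ⊤ :=
    eq_top_iff.2 fun l _ a a' e => by rw [one_mul, show a' = a from Subtype.ext e]
  have e2 : Ef (ZMod 2) (id : Fin (finrank ℚ_[2] (fixedField H)) → _) 1 = ⊤ :=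
    eq_top_iff.2 fun l _ i => (one_mul _).symm
  have h6 := h4 rfl
  rw [e1, e2, finrank_top, finrank_top, ← Φ.finrank_eq, Subspace.dual_finrank_eq,
    Module.finrank_fintype_fun_eq_card, Fintype.card_fin, finrank_eq_fixingSubgroup_index,
    fix H hH] at h6
  rw [Module.natCard_eq_pow_finrank (K := ZMod 2), h6, Nat.card_zmod, add_comm]

theorem eul (h : LOCU) : EUL G2 := by
  intro F _ _ _ U V t x hn hV le ht gen odd x1 xm
  have := fd V hV
  have : IsGalois ℚ_[2] (fixedField V) :=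
    (InfiniteGalois.normal_iff_isGalois _).1 (by rw [fix V hV]; exact hn)
  obtain ⟨ka, h1, h2, h3, h4⟩ := kummer V hV
  let ρ : G2 →* Gal(fixedField V / ℚ_[2]) := AlgEquiv.restrictNormalHom (fixedField V)
  have hk : ρ.ker = V := (fixedField V).restrictNormalHom_ker.trans (fix V hV)
  have hU : U.map ρ = Subgroup.zpowers (ρ t⁻¹) := by
    rw [map_inv, Subgroup.zpowers_inv]
    refine le_antisymm ?_ (Subgroup.zpowers_le.2 ⟨t, ht, rfl⟩)
    rintro _ ⟨u, hu, rfl⟩
    obtain ⟨i, hi⟩ := gen u hu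
    rw [← hk, MonoidHom.mem_ker, map_mul, map_inv, inv_mul_eq_one, map_pow] at hi
    exact hi ▸ Subgroup.npow_mem_zpowers _ _
  have ho : orderOf (ρ t⁻¹) = V.relIndex U := by
    rw [← Nat.card_zpowers, ← hU, ← Subgroup.relIndex_ker, hk]
  have hi : (Subgroup.zpowers (ρ t⁻¹)).index = U.index := by
    rw [← hU, ← Subgroup.index_comap_of_surjective _ (AlgEquiv.restrictNormalHom_surjective
      (AlgebraicClosure ℚ_[2])), Subgroup.comap_map_eq_self (hk.trans_le le)]
  obtain ⟨h5, -, h6⟩ := h F (fixedField V) (ρ t⁻¹) _ odd (ho ▸ pow_orderOf_eq_one _) _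
    (IsGalois.normalBasis ℚ_[2] (fixedField V)) (fun i => ρ t⁻¹ * i) (fun i => by
      rw [IsGalois.normalBasis_apply i, IsGalois.normalBasis_apply (_ * i)]; rfl) x
  obtain ⟨h7, Φ, hΦ⟩ := dual F ka h1 h2
  let cj : V → V := fun v => ⟨t * v * t⁻¹, hn.conj_mem _ v.2 t⟩
  have cc : Continuous cj := Continuous.subtype_mk (by fun_prop) _
  have cm : ∀ v w, cj (v * w) = cj v * cj w := fun v w => Subtype.ext (by simp [cj])
  let T : Hm F V →ₗ[F] Hm F V :=
    { toFun := fun b => ⟨b.1 ∘ cj, b.2.1.comp_continuous cc, fun v w => by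
        simp only [Function.comp, cm, b.2.2]⟩
      map_add' := fun _ _ => rfl
      map_smul' := fun _ _ => rfl }
  have eq : ∀ y y' : Yk (fixedField V), y'.1 = ut (ρ t⁻¹) y.1 → io F (ka y') = T (io F (ka y)) := by
    intro y y' e
    obtain ⟨s, hs⟩ := IsAlgClosed.exists_pow_nat_eq (vl y) two_pos
    have e1 : vl y' = t⁻¹ (vl y) := by
      rw [vl, e]
      exact AlgEquiv.restrictNormalHom_apply _ _ _
    have e2 := h4 y' (t⁻¹ s) ((ka y).1 ∘ cj) (by rw [← map_pow, hs, e1]) fun v => by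
      have e3 := congrArg (t⁻¹ : G2) (h3 y s hs (cj v))
      rw [map_mul, map_sg, ← AlgEquiv.mul_apply] at e3
      rw [← AlgEquiv.mul_apply]
      refine Eq.trans ?_ e3
      simp only [cj, ← mul_assoc, inv_mul_cancel, one_mul]
    exact Subtype.ext (funext fun v => congrArg (up F) (congrFun e2 v))
  have e1 : Eg F V t x = (LinearMap.ker (T - x • LinearMap.id)).map (Hm F V).subtype := by
    ext b
    constructor
    · rintro ⟨hb, hb'⟩
      exact ⟨⟨b, hb⟩, Subtype.ext (funext fun v => sub_eq_zero.2 (hb' v (cj v) rfl)), rfl⟩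
    · rintro ⟨b, hb, rfl⟩
      refine ⟨b.2, fun v v' e => ?_⟩
      rw [show v' = cj v from Subtype.ext e]
      exact sub_eq_zero.1 (congrFun (congrArg Subtype.val hb) v)
  rw [e1, Submodule.finrank_map_subtype_eq, ← cmp F _ _ Φ hΦ T eq x, h6 x1,
    ef_rank F _ x (ho ▸ xm), hi]

end Kum

theorem kum (h : LOCU) : KUM := by
  refine ⟨⟨?_, Kum.rank h⟩, Kum.eul h⟩
  have h1 := Kum.rank h ⊤ isOpen_univ
  rw [Subgroup.index_top] at h1
  refine Eq.trans (Nat.card_congr ?_) h1
  exact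
    { toFun := fun b => ⟨fun g => b.1 g.1, b.2.1.comp_continuous continuous_subtype_val,
        fun x y => b.2.2 _ _⟩
      invFun := fun b => ⟨fun g => b.1 ⟨g, trivial⟩,
        b.2.1.comp_continuous (Continuous.subtype_mk continuous_id _),
        fun x y => b.2.2 ⟨x, trivial⟩ ⟨y, trivial⟩⟩
      left_inv := fun _ => rfl
      right_inv := fun _ => rfl }

end Vale.Agent.P022D.L2c
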