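import Vale.Agent.P022D.L2c.Defs2

/-!
# P022, block L2c: from the multiplicative group to the integers (row LOCU1)
-/

set_option linter.all false

noncomputable section

namespace Vale.Agent.P022D.L2c

namespace L1

variable {K : Type} [Field K] [CharZero K] {t : K →+* K} {OO : Subring K}

theorem two_mem (OO : Subring K) : (2 : K) ∈ OO := by exact_mod_cast natCast_mem OO 2

theorem four_mem (OO : Subring K) : (4 : K) ∈ OO := by exact_mod_cast natCast_mem OO 4

theorem ne0 (h : Intg t OO) {y : K} (hy : y ∈ OO) : 1 + 4 * y ≠ 0 := fun e => h.two (by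
  rw [show (2 : K)⁻¹ = -(2 * y) by linear_combination (2 : K)⁻¹ * e]
  exact neg_mem (mul_mem (two_mem OO) hy))

theorem invm (h : Intg t OO) {y : K} (hy : y ∈ OO) : (1 + 4 * y)⁻¹ ∈ OO := by
  have n := ne0 h hy
  rcases h.val (2 / (1 + 4 * y)) with a | a
  · rw [show (1 + 4 * y)⁻¹ = 1 - 2 * y * (2 / (1 + 4 * y)) by field_simp; ring]
    exact sub_mem (one_mem _) (mul_mem (mul_mem (two_mem OO) hy) a)
  · refine absurd ?_ h.two
    rw [show (2 : K)⁻¹ = (2 / (1 + 4 * y))⁻¹ - 2 * y by field_simp; ring]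
    exact sub_mem a (mul_mem (two_mem OO) hy)

theorem zp (h : Intg t OO) {n : ℤ} (hn : (2 : K) ^ n ∈ OO) : 0 ≤ n := by
  by_contra c
  obtain ⟨k, hk⟩ := Int.eq_ofNat_of_zero_le (show 0 ≤ -n - 1 by omega)
  refine h.two ?_
  rw [show (2 : K)⁻¹ = 2 ^ n * 2 ^ k by
    rw [← zpow_natCast, ← zpow_add₀ two_ne_zero, ← hk, show n + (-n - 1) = -1 by ring, zpow_neg_one]]
  exact mul_mem hn (pow_mem (two_mem OO) k)

theorem uniq (h : Intg t OO) {n n' : ℤ} {y y' : K} (hy : y ∈ OO) (hy' : y' ∈ OO)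
    (e : (2 : K) ^ n * (1 + 4 * y) = 2 ^ n' * (1 + 4 * y')) : n = n' ∧ y = y' := by
  have k : ∀ {n n' : ℤ} {y y' : K}, y ∈ OO → y' ∈ OO →
      (2 : K) ^ n * (1 + 4 * y) = 2 ^ n' * (1 + 4 * y') → n' ≤ n := fun {n n' y y'} hy hy' e => by
    have := zp h (n := n - n') (by
      have n0 := ne0 h hy
      have n1 : (2 : K) ^ n' ≠ 0 := zpow_ne_zero _ two_ne_zero
      rw [show (2 : K) ^ (n - n') = (1 + 4 * y') * (1 + 4 * y)⁻¹ by
        rw [zpow_sub₀ two_ne_zero]
        field_simp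
        linear_combination e]
      exact mul_mem (add_mem (one_mem _) (mul_mem (four_mem OO) hy')) (invm h hy))
    omega
  obtain rfl := le_antisymm (k hy' hy e.symm) (k hy hy' e)
  have := mul_left_cancel₀ (zpow_ne_zero _ two_ne_zero) e
  exact ⟨rfl, by linear_combination (4 : K)⁻¹ * this⟩

/-- the value of an element of the multiplicative group -/
def vl (a : Additive Kˣ) : K := (Additive.toMul a : Kˣ)

theorem vl_add (a b : Additive Kˣ) : vl (a + b) = vl a * vl b := rfl

theorem vl_neg (a : Additive Kˣ) : vl (-a) = (vl a)⁻¹ := Units.val_inv_eq_inv_val _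

theorem vl_zero : vl (0 : Additive Kˣ) = 1 := rfl

theorem vl_inj {a b : Additive Kˣ} (h : vl a = vl b) : a = b := Units.ext h

theorem vl_ne (a : Additive Kˣ) : vl a ≠ 0 := Units.ne_zero _

theorem vl_zsmul (n : ℤ) (a : Additive Kˣ) : vl (n • a) = vl a ^ n :=
  Units.val_zpow_eq_zpow_val _ _

/-- an element with a given value -/
def mk (x : K) (hx : x ≠ 0) : Additive Kˣ := Additive.ofMul (Units.mk0 x hx)

theorem vl_mk (x : K) (hx : x ≠ 0) : vl (mk x hx) = x := rfl

/-- the subgroup generated by `2` and the units which are `1` modulo `4` -/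
def SS (h : Intg t OO) : AddSubgroup (Additive Kˣ) where
  carrier := {a | ∃ n : ℤ, ∃ y ∈ OO, vl a = 2 ^ n * (1 + 4 * y)}
  zero_mem' := ⟨0, 0, zero_mem _, by simp [vl_zero]⟩
  add_mem' := by
    rintro a b ⟨n, y, hy, e⟩ ⟨n', y', hy', e'⟩
    refine ⟨n + n', y + y' + 4 * (y * y'), add_mem (add_mem hy hy')
      (mul_mem (four_mem OO) (mul_mem hy hy')), ?_⟩
    rw [vl_add, e, e', zpow_add₀ two_ne_zero]; ring
  neg_mem' := by
    rintro a ⟨n, y, hy, e⟩
    refine ⟨-n, -(y * (1 + 4 * y)⁻¹), neg_mem (mul_mem hy (invm h hy)), ?_⟩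
    have := ne0 h hy
    rw [vl_neg, e, mul_inv, zpow_neg]
    congr 1
    field_simp
    ring

theorem idx (h : Intg t OO) : (SS h).relIndex ⊤ ≠ 0 := by
  classical
  rw [AddSubgroup.relIndex_top_right]
  obtain ⟨T, hT⟩ := h.fin 3
  have : Finite (Additive Kˣ ⧸ SS h) := by
    refine Finite.of_surjective
      (fun y : {y : T // (y : K) ≠ 0} => (QuotientAddGroup.mk (mk _ y.2) : _ ⧸ SS h)) fun q => ?_
    obtain ⟨a, rfl⟩ := QuotientAddGroup.mk_surjective q
    have a0 := vl_ne a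
    obtain ⟨k, hk⟩ := h.arch (vl a)⁻¹
    obtain ⟨k', hk'⟩ := h.arch (vl a)
    obtain ⟨n, hn, mn⟩ := Int.exists_least_of_bdd (P := fun n => (2 : K) ^ n * vl a ∈ OO)
      ⟨-k, fun n hn => by
        have := zp h (n := n + k) (by
          rw [show (2 : K) ^ (n + k) = 2 ^ n * vl a * (2 ^ k * (vl a)⁻¹) by
            rw [zpow_add₀ two_ne_zero, zpow_natCast]; field_simp]
          exact mul_mem hn hk)
        omega⟩ ⟨k', by rwa [zpow_natCast]⟩
    have n1 : (2 : K) ^ n ≠ 0 := zpow_ne_zero _ two_ne_zero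
    have hb : ((2 : K) ^ (n - 1) * vl a)⁻¹ ∈ OO := (h.val _).resolve_left fun c => by
      have := mn _ c
      omega
    obtain ⟨y, hy, z, hz, e⟩ := hT _ hn
    have m : -(z * ((2 : K) ^ (n - 1) * vl a)⁻¹) ∈ OO := neg_mem (mul_mem hz hb)
    have e' : y = vl a * (2 ^ n * (1 + 4 * -(z * ((2 : K) ^ (n - 1) * vl a)⁻¹))) := by
      rw [zpow_sub₀ two_ne_zero, zpow_one]
      field_simp
      linear_combination -e
    have y0 : y ≠ 0 := by
      rw [e']; exact mul_ne_zero a0 (mul_ne_zero n1 (ne0 h m))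
    have q : -a + mk y y0 ∈ SS h := ⟨n, _, m, by
      rw [vl_add, vl_neg, vl_mk, inv_mul_eq_iff_eq_mul₀ a0]
      exact e'⟩
    exact ⟨⟨⟨y, hy⟩, y0⟩, (QuotientAddGroup.eq.2 q).symm⟩
  exact AddSubgroup.index_ne_zero_of_finite

theorem mem_tor {a : Additive Kˣ} : a ∈ tor (Additive Kˣ) ↔ vl a = 1 ∨ vl a = -1 := by
  rw [← mul_self_eq_one_iff, ← vl_add, ← two_nsmul, ← vl_zero]
  exact ⟨fun h => congrArg vl h, fun h => vl_inj h⟩

theorem notor (h : Intg t OO) (a : (SS h ⊓ tor (Additive Kˣ) : AddSubgroup _)) : a = 0 := by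
  obtain ⟨a, ⟨n, y, hy, e⟩, ha⟩ := a
  rcases mem_tor.1 ha with c | c
  · exact Subtype.ext (vl_inj c)
  · have m : -(1 : K) - 2 * y ∈ OO := sub_mem (neg_mem (one_mem _)) (mul_mem (two_mem OO) hy)
    have m' : y + y + 4 * (y * y) ∈ OO := add_mem (add_mem hy hy)
      (mul_mem (four_mem OO) (mul_mem hy hy))
    have n0 := (uniq h (n := n + n) (n' := 0) m' (zero_mem _) (by
      rw [zpow_add₀ two_ne_zero, zpow_zero]
      rw [c] at e
      linear_combination (1 - 2 ^ n * (1 + 4 * y)) * e)).1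
    obtain rfl : n = 0 := by omega
    refine absurd ?_ h.two
    rw [c, zpow_zero] at e
    rw [show (2 : K)⁻¹ = -y by linear_combination (-(4 : K)⁻¹) * e]
    exact neg_mem hy

variable {F : Type} [Field F] [CharP F 2]

theorem kill {A : Type} [AddCommGroup A] (l : A →+ F) (a : A) : l (a + a) = 0 := by
  rw [map_add, CharTwo.add_self_eq_zero]

/-- the element `2` -/
def tw (h : Intg t OO) : SS h := ⟨mk 2 two_ne_zero, 1, 0, zero_mem _, by simp [vl_mk]⟩

/-- the element `1 + 4 y` -/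
def un (h : Intg t OO) (y : OO.toAddSubgroup) : SS h :=
  ⟨mk _ (ne0 h y.2), 0, y, y.2, by simp [vl_mk]⟩

theorem un_add (h : Intg t OO) (l : SS h →+ F) (y y' : OO.toAddSubgroup) :
    l (un h (y + y')) = l (un h y) + l (un h y') := by
  have n := ne0 h (y + y').2
  obtain ⟨z, hz, e⟩ := h.hens (2 * (y * y') * (1 + 4 * ((y + y' : OO.toAddSubgroup) : K))⁻¹)
    (mul_mem (mul_mem (two_mem OO) (mul_mem y.2 y'.2)) (invm h (y + y').2))
  have : un h y + un h y' = un h (y + y') + (un h ⟨z, hz⟩ + un h ⟨z, hz⟩) :=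
    Subtype.ext (vl_inj (by
      show (1 + 4 * (y : K)) * (1 + 4 * y') =
        (1 + 4 * ((y + y' : OO.toAddSubgroup) : K)) * ((1 + 4 * z) * (1 + 4 * z))
      rw [eq_mul_inv_iff_mul_eq₀ n] at e
      rw [AddSubgroup.coe_add] at e ⊢
      linear_combination -8 * e))
  rw [← map_add, this, map_add, kill, add_zero]

/-- a character of `SS` is given by its value at `2` and a character of the integers -/
def Ph (h : Intg t OO) (F : Type) [Field F] [CharP F 2] :
    (SS h →+ F) →ₗ[F] F × (OO.toAddSubgroup →+ F) where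
  toFun l := (l (tw h), AddMonoidHom.mk' (fun y => l (un h y)) (un_add h l))
  map_add' _ _ := rfl
  map_smul' _ _ := rfl

theorem dec (h : Intg t OO) (a : SS h) (n : ℤ) (y : OO.toAddSubgroup)
    (e : vl a.1 = 2 ^ n * (1 + 4 * y)) : a = n • tw h + un h y :=
  Subtype.ext (vl_inj (by
    show _ = vl (n • mk (2 : K) two_ne_zero) * (1 + 4 * y)
    rw [e, vl_zsmul, vl_mk]))

theorem Ph_inj (h : Intg t OO) : Function.Injective (Ph h F) := by
  rw [injective_iff_map_eq_zero]
  intro l hl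
  ext a
  obtain ⟨n, y, hy, e⟩ := a.2
  have h1 : l (tw h) = 0 := congrArg Prod.fst hl
  have h2 : l (un h ⟨y, hy⟩) = 0 := DFunLike.congr_fun (congrArg Prod.snd hl) ⟨y, hy⟩
  rw [dec h a n ⟨y, hy⟩ e, map_add, map_zsmul, h1, h2]
  simp

theorem Ph_sur (h : Intg t OO) : Function.Surjective (Ph h F) := by
  rintro ⟨c, lam⟩
  choose n y hy e using fun a : SS h => a.2
  have k : ∀ (a : SS h) (n' : ℤ) (y' : OO.toAddSubgroup), vl a.1 = 2 ^ n' * (1 + 4 * y') →
      n a • c + lam ⟨y a, hy a⟩ = n' • c + lam y' := fun a n' y' e' => by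
    obtain ⟨p, q⟩ := uniq h (hy a) y'.2 ((e a).symm.trans e')
    rw [p, show (⟨y a, hy a⟩ : OO.toAddSubgroup) = y' from Subtype.ext q]
  refine ⟨AddMonoidHom.mk' (fun a => n a • c + lam ⟨y a, hy a⟩) fun a b => ?_, Prod.ext ?_ ?_⟩
  · let w : OO.toAddSubgroup := ⟨2 * (y a * y b), OO.mul_mem (two_mem OO) (OO.mul_mem (hy a) (hy b))⟩
    rw [k (a + b) (n a + n b) (⟨y a, hy a⟩ + ⟨y b, hy b⟩ + (w + w)) (by
      show vl a.1 * vl b.1 = _ * (1 + 4 * (y a + y b + (2 * (y a * y b) + 2 * (y a * y b))))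
      rw [e, e, zpow_add₀ two_ne_zero]; ring), map_add, kill, map_add, add_zsmul]
    abel
  · show n _ • c + lam _ = c
    rw [k (tw h) 1 0 (by simp [tw, vl_mk]), map_zero, one_smul, add_zero]
  · ext y'
    show n _ • c + lam _ = lam y'
    rw [k (un h y') 0 y' (by simp [un, vl_mk]), zero_smul, zero_add]

theorem finO (h : Intg t OO) : Module.Finite F (OO.toAddSubgroup →+ F) := by
  classical
  obtain ⟨T, hT⟩ := h.fin 1
  let L : (OO.toAddSubgroup →+ F) →ₗ[F] ({y : T // (y : K) ∈ OO} → F) :=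
    { toFun := fun l y => l ⟨_, y.2⟩
      map_add' := fun _ _ => rfl
      map_smul' := fun _ _ => rfl }
  refine Module.Finite.of_injective L ((injective_iff_map_eq_zero _).2 fun l hl => ?_)
  ext x
  obtain ⟨y, hy, z, hz, e⟩ := hT x x.2
  have m : y ∈ OO := by
    rw [show y = x - (z + z) by rw [e]; ring]
    exact sub_mem x.2 (add_mem hz hz)
  have h1 : l ⟨y, m⟩ = 0 := congrFun hl ⟨⟨y, hy⟩, m⟩
  rw [show x = ⟨y, m⟩ + (⟨z, hz⟩ + ⟨z, hz⟩) from Subtype.ext (by
    show (x : K) = y + (z + z)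
    rw [e]; ring), map_add, kill, h1]
  simp

/-- the scalars fixed by `x` -/
def EE (x : F) : Submodule F F := LinearMap.ker (LinearMap.lsmul F F (1 - x))

theorem mem_EE {x c : F} : c ∈ EE x ↔ c = x * c := by
  rw [EE, LinearMap.mem_ker, LinearMap.lsmul_apply, smul_eq_mul, sub_mul, one_mul, sub_eq_zero]

/-- the product of two submodules -/
def prodEq {M N : Type} [AddCommGroup M] [AddCommGroup N] [Module F M] [Module F N]
    (A : Submodule F M) (B : Submodule F N) : (A.prod B) ≃ₗ[F] A × B where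
  toFun p := (⟨p.1.1, p.2.1⟩, ⟨p.1.2, p.2.2⟩)
  invFun p := ⟨(p.1.1, p.2.1), p.1.2, p.2.2⟩
  map_add' _ _ := rfl
  map_smul' _ _ := rfl
  left_inv _ := rfl
  right_inv _ := rfl

end L1

open L1

theorem locu1 (hH : HERB) : LOCU1 := by
  intro F _ _ K _ _ t m hm ht OO h x
  have : CharZero K := charZero_of_injective_algebraMap (algebraMap ℚ_[2] K).injective
  have vt : ∀ a, vl (ut t a) = t (vl a) := fun _ => rfl
  have it : ∀ (k : ℕ) a, vl ((ut t)^[k] a) = (t ^ k) (vl a) := fun k => by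
    induction k with
    | zero => exact fun _ => rfl
    | succ k ih => exact fun a => by rw [Function.iterate_succ_apply, ih, vt, pow_succ]; rfl
  have t2 : ∀ (n : ℤ) (y : K), t (2 ^ n * (1 + 4 * y)) = 2 ^ n * (1 + 4 * t y) := fun n y => by
    simp only [map_mul, map_zpow₀, map_add, map_one, map_ofNat]
  have fO := finO (F := F) h
  let ng : (⊤ ⊓ tor (Additive Kˣ) : AddSubgroup _) :=
    ⟨mk (-1) (by norm_num), trivial, mem_tor.2 (Or.inr rfl)⟩
  have cs : ∀ a : (⊤ ⊓ tor (Additive Kˣ) : AddSubgroup _), a = 0 ∨ a = ng := fun a =>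
    (mem_tor.1 a.2.2).imp (fun c => Subtype.ext (vl_inj c)) fun c => Subtype.ext (vl_inj c)
  have ng0 : ng ≠ 0 := fun c => by
    have : (-1 : K) = 1 := congrArg vl (congrArg Subtype.val c)
    norm_num at this
  have ng2 : ng + ng = 0 := Subtype.ext (vl_inj (by show (-1 : K) * -1 = 1; ring))
  obtain ⟨f1, f2⟩ := hH F (Additive Kˣ) (ut t) m hm (fun a => vl_inj (by rw [it, ht]; rfl)) x
    (SS h) ⊤ le_top (by
      rintro a ⟨n, y, hy, e⟩
      exact ⟨n, t y, h.stab y hy, by rw [vt, e, t2]⟩) (fun _ _ => trivial) (idx h)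
    (Module.Finite.of_injective _ (Ph_inj h))
    (Finite.of_surjective (fun b : Bool => if b then 0 else ng) fun a => by
      rcases cs a with c | c
      exacts [⟨true, c.symm⟩, ⟨false, c.symm⟩])
  have e0 : Module.finrank F (Xe F (ut t) x (SS h ⊓ tor (Additive Kˣ))) = 0 := by
    have : Subsingleton (Xe F (ut t) x (SS h ⊓ tor (Additive Kˣ))) := ⟨fun a b => Subtype.ext (by
      ext c
      rw [notor h c, map_zero, map_zero])⟩
    exact Module.finrank_zero_of_subsingleton
  have e1 : Module.finrank F (Xe F (ut t) x (⊤ ⊓ tor (Additive Kˣ))) =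
      Module.finrank F (EE x) := by
    let L : Xe F (ut t) x (⊤ ⊓ tor (Additive Kˣ)) →ₗ[F] EE x :=
      { toFun := fun l => ⟨l.1 ng, mem_EE.2 (l.2 ng ng (vl_inj (by
          rw [vt]; show (-1 : K) = t (-1); rw [map_neg, map_one])))⟩
        map_add' := fun _ _ => rfl
        map_smul' := fun _ _ => rfl }
    refine (LinearEquiv.ofBijective L ⟨fun a b e => Subtype.ext ?_, fun c => ?_⟩).finrank_eq
    · ext s
      rcases cs s with rfl | rfl
      · rw [map_zero, map_zero]
      · exact congrArg Subtype.val e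
    · classical
      refine ⟨⟨AddMonoidHom.mk' (fun a => if a = 0 then 0 else c.1) fun a b => ?_,
        fun a a' e => ?_⟩, Subtype.ext (if_neg ng0)⟩
      · rcases cs a with rfl | rfl <;> rcases cs b with rfl | rfl <;>
          simp [ng0, ng2, CharTwo.add_self_eq_zero]
      · have : a' = a := Subtype.ext (vl_inj (by
          rw [e, vt]
          rcases mem_tor.1 a.2.2 with k | k <;> rw [k] <;> simp))
        rw [this]
        show (if a = 0 then 0 else c.1) = x * if a = 0 then 0 else c.1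
        split_ifs
        · rw [mul_zero]
        · exact mem_EE.1 c.2
  have e2 : Module.finrank F (Xe F (ut t) x (SS h)) = Module.finrank F (EE x) +
      Module.finrank F (Xe F (t : K →+* K).toAddMonoidHom x OO.toAddSubgroup) := by
    have q : (Xe F (ut t) x (SS h)).map (Ph h F) =
        (EE x).prod (Xe F (t : K →+* K).toAddMonoidHom x OO.toAddSubgroup) := by
      ext p
      obtain ⟨l, rfl⟩ := Ph_sur h p
      rw [Submodule.mem_map, Submodule.mem_prod]
      refine ⟨fun ⟨l', hl', e⟩ => ?_, fun ⟨a, b⟩ => ⟨l, fun s s' e => ?_, rfl⟩⟩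
      · obtain rfl := Ph_inj h e
        refine ⟨mem_EE.2 (hl' (tw h) (tw h) (vl_inj ?_)), fun y y' e' =>
          hl' (un h y) (un h y') (vl_inj ?_)⟩
        · rw [vt]; show (2 : K) = t 2; rw [map_ofNat]
        · rw [vt]
          show 1 + 4 * (y' : K) = t (1 + 4 * y)
          rw [e', map_add, map_one, map_mul, map_ofNat]; rfl
      · obtain ⟨n, y, hy, e'⟩ := s.2
        have a' : l (tw h) = x * l (tw h) := mem_EE.1 a
        have b' : l (un h ⟨t y, h.stab y hy⟩) = x * l (un h ⟨y, hy⟩) :=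
          b ⟨y, hy⟩ ⟨t y, h.stab y hy⟩ rfl
        rw [dec h s' n ⟨t y, h.stab y hy⟩ (by rw [e, vt, e', t2]), dec h s n ⟨y, hy⟩ e', map_add,
          map_add, map_zsmul, b', zsmul_eq_mul]
        linear_combination (n : F) * a'
    have := Module.Free.of_divisionRing F (Xe F (t : K →+* K).toAddMonoidHom x OO.toAddSubgroup)
    rw [(Submodule.equivMapOfInjective _ (Ph_inj h) _).finrank_eq, q,
      (prodEq _ _).finrank_eq, Module.finrank_prod]
  rw [e0, e1, e2, add_zero] at f2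
  refine ⟨f1, fun c => ?_, fun c => ?_⟩
  · have : EE x = ⊤ := eq_top_iff.2 fun a _ => mem_EE.2 (by rw [c, one_mul])
    rw [f2, this, finrank_top, Module.finrank_self]; ring
  · have : EE x = ⊥ := eq_bot_iff.2 fun a ha => by
      have := mem_EE.1 ha
      exact (mul_eq_zero.1 (show (1 - x) * a = 0 by linear_combination this)).resolve_left
        (sub_ne_zero.2 c.symm)
    rw [f2, this, finrank_bot]; ring

end Vale.Agent.P022D.L2c
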