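import Vale.Agent.P022D.L2c.Defs2

/-!
# P022, block L2c: the ring of integers of a 2-adic field
-/

set_option linter.all false

noncomputable section

namespace Vale.Agent.P022D.L2c

namespace Locu2

theorem n2 : ‖(2 : ℚ_[2])‖ = 2⁻¹ := by
  have := Padic.norm_p (p := 2)
  exact_mod_cast this

theorem core (K : Type) [NormedField K] [NormedAlgebra ℚ_[2] K] [FiniteDimensional ℚ_[2] K]
    (hu : ∀ x y : K, ‖x + y‖ ≤ max ‖x‖ ‖y‖) (hi : ∀ (t : K ≃ₐ[ℚ_[2]] K) (x : K), ‖t x‖ = ‖x‖) :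
    ∃ OO : Subring K, (∀ t : K ≃ₐ[ℚ_[2]] K, Intg (t : K →+* K) OO) ∧
      (∀ c : ℤ_[2], algebraMap ℚ_[2] K c ∈ OO) ∧
      ∀ l : K →ₗ[ℚ_[2]] ℚ_[2], ∃ n : ℕ, ∀ x ∈ OO, ‖2 ^ n * l x‖ ≤ 1 := by
  haveI : ProperSpace K := FiniteDimensional.proper ℚ_[2] K
  have h2 : ‖(2 : K)‖ = 2⁻¹ := by
    rw [← map_ofNat (algebraMap ℚ_[2] K) 2, norm_algebraMap', n2]
  have h0 : (2 : K) ≠ 0 := fun h => by rw [h, norm_zero] at h2; norm_num at h2
  let OO : Subring K :=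
    { carrier := {x | ‖x‖ ≤ 1}
      mul_mem' := fun {a b} ha hb => by
        show ‖a * b‖ ≤ 1
        rw [norm_mul]
        exact mul_le_one₀ ha (norm_nonneg _) hb
      one_mem' := norm_one.le
      add_mem' := fun {a b} ha hb => (hu a b).trans (max_le ha hb)
      zero_mem' := norm_zero.le.trans zero_le_one
      neg_mem' := fun {a} ha => (norm_neg a).le.trans ha }
  have mem : ∀ x : K, x ∈ OO ↔ ‖x‖ ≤ 1 := fun x => Iff.rfl
  have pw : ∀ C : ℝ, ∃ n : ℕ, (2⁻¹ : ℝ) ^ n * C ≤ 1 := fun C => by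
    obtain ⟨n, hn⟩ := pow_unbounded_of_one_lt C (one_lt_two (α := ℝ))
    refine ⟨n, ?_⟩
    rw [inv_pow, inv_mul_le_iff₀ (by positivity), mul_one]
    exact hn.le
  refine ⟨OO, fun t => ⟨fun x => ?_, fun x hx => (hi t x).le.trans hx, ?_, fun x => ?_,
    fun n => ?_, fun y hy => ?_⟩, fun c => ?_, fun l => ?_⟩
  · rcases le_total ‖x‖ 1 with h | h
    · exact Or.inl h
    · refine Or.inr ((mem _).mpr ?_)
      rw [norm_inv]
      exact inv_le_one_of_one_le₀ h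
  · rw [mem, norm_inv, h2]
    norm_num
  · obtain ⟨n, hn⟩ := pw ‖x‖
    exact ⟨n, by rwa [mem, norm_mul, norm_pow, h2]⟩
  · obtain ⟨T, hT, hc⟩ := Metric.totallyBounded_iff.mp
      (isCompact_closedBall (0 : K) 1).totallyBounded (2⁻¹ ^ n) (by positivity)
    refine ⟨hT.toFinset, fun x hx => ?_⟩
    obtain ⟨y, hy, h⟩ := Set.mem_iUnion₂.mp (hc (mem_closedBall_zero_iff.mpr hx))
    refine ⟨y, hT.mem_toFinset.mpr hy, (x - y) / 2 ^ n, ?_, ?_⟩
    · rw [mem, norm_div, norm_pow, h2, div_le_one (by positivity)]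
      exact (mem_ball_iff_norm.mp h).le
    · field_simp
      ring
  · obtain ⟨z, hz, hm⟩ := (isCompact_closedBall (0 : K) 1).exists_isMinOn
      ⟨0, Metric.mem_closedBall_self zero_le_one⟩
      (f := fun z => ‖z + 2 * z ^ 2 - y‖) (by fun_prop)
    have z1 : z ∈ OO := mem_closedBall_zero_iff.mp hz
    have t1 : (2 : K) ∈ OO := by rw [mem, h2]; norm_num
    have w1 : y - 2 * z ^ 2 ∈ OO := OO.sub_mem hy (OO.mul_mem t1 (OO.pow_mem z1 2))
    have k : ‖z + 2 * z ^ 2 - y‖ ≤ ‖(y - 2 * z ^ 2) + 2 * (y - 2 * z ^ 2) ^ 2 - y‖ :=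
      hm (mem_closedBall_zero_iff.mpr w1)
    have e : (y - 2 * z ^ 2) + 2 * (y - 2 * z ^ 2) ^ 2 - y =
        -(2 * (z + 2 * z ^ 2 - y) * ((y - 2 * z ^ 2) + z)) := by ring
    rw [e, norm_neg, norm_mul, norm_mul, h2] at k
    have k2 : ‖(y - 2 * z ^ 2) + z‖ ≤ 1 := OO.add_mem w1 z1
    refine ⟨z, z1, sub_eq_zero.mp (norm_le_zero_iff.mp ?_)⟩
    nlinarith [norm_nonneg (z + 2 * z ^ 2 - y)]
  · rw [mem, norm_algebraMap']
    exact c.2
  · obtain ⟨n, hn⟩ := pw ‖LinearMap.toContinuousLinearMap l‖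
    refine ⟨n, fun x hx => ?_⟩
    rw [norm_mul, norm_pow, n2]
    exact (mul_le_mul_of_nonneg_left
      ((LinearMap.toContinuousLinearMap l).unit_le_opNorm x hx) (by positivity)).trans hn

end Locu2

theorem locu2 : LOCU2 := by
  intro K _ _ _
  letI := spectralNorm.normedField ℚ_[2] K
  letI := spectralNorm.normedAlgebra ℚ_[2] K
  exact Locu2.core K (fun x y => isNonarchimedean_spectralNorm (K := ℚ_[2]) x y)
    fun t x => (spectralNorm_eq_of_equiv t x).symm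

end Vale.Agent.P022D.L2c
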