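import Vale.Agent.P022D.L2c.Defs2

/-! # P022, block L2c: the ring of integers and the lattice of a basis -/

set_option linter.all false

noncomputable section

namespace Vale.Agent.P022D.L2c

namespace Locu3

variable {F : Type} [Field F] [CharP F 2]

theorem add_z2 (l : ℤ_[2] →+ F) (c : ℤ_[2]) : l c = up F (PadicInt.toZMod c) * l 1 := by
  have h := PadicInt.toZMod_spec c
  rw [PadicInt.maximalIdeal_eq_span_p, Ideal.mem_span_singleton] at h
  obtain ⟨d, hd⟩ := h
  have e : c = (PadicInt.toZMod c).val • (1 : ℤ_[2]) + (d + d) := by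
    rw [nsmul_eq_mul, mul_one, ZMod.natCast_val]
    push_cast at hd
    linear_combination hd
  have e2 : up F (PadicInt.toZMod c) = ((PadicInt.toZMod c).val : F) := by
    rw [up, ZMod.castHom_apply, ZMod.natCast_val]
  rw [e2]
  conv_lhs => rw [e]
  rw [map_add, map_add, CharTwo.add_self_eq_zero, add_zero, map_nsmul, nsmul_eq_mul]

variable {K : Type} [Field K] [Algebra ℚ_[2] K] {ι : Type} [Fintype ι]

/-- the lattice of a basis -/
def La (e : Module.Basis ι ℚ_[2] K) : AddSubgroup K where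
  carrier := {x | ∀ i, ‖e.repr x i‖ ≤ 1}
  add_mem' {a b} ha hb i := by
    rw [map_add, Finsupp.add_apply]
    exact (IsUltrametricDist.norm_add_le_max _ _).trans (max_le (ha i) (hb i))
  zero_mem' i := by simp
  neg_mem' {a} ha i := by
    rw [map_neg, Finsupp.neg_apply, norm_neg]
    exact ha i

variable (e : Module.Basis ι ℚ_[2] K)

theorem sm_mem (i : ι) (c : ℤ_[2]) : (c : ℚ_[2]) • e i ∈ La e := by
  classical
  intro j
  rw [map_smul, Finsupp.smul_apply, e.repr_self, Finsupp.single_apply, smul_eq_mul]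
  split_ifs
  · rw [mul_one]; exact c.2
  · simp

/-- multiples of a basis vector -/
def sm (i : ι) : ℤ_[2] →+ La e where
  toFun c := ⟨(c : ℚ_[2]) • e i, sm_mem e i c⟩
  map_zero' := Subtype.ext (by simp)
  map_add' a b := Subtype.ext (by simp [add_smul])

/-- coordinates -/
def co (i : ι) : La e →+ ℤ_[2] where
  toFun y := ⟨e.repr y i, y.2 i⟩
  map_zero' := Subtype.ext (by simp)
  map_add' a b := Subtype.ext (by
    change e.repr ((a : K) + b) i = e.repr a i + e.repr b i
    rw [map_add, Finsupp.add_apply])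

theorem sum_sm (y : La e) : y = ∑ i, sm e i (co e i y) := by
  apply Subtype.ext
  rw [AddSubgroup.val_finsetSum]
  exact (e.sum_repr y).symm

theorem co_sm [DecidableEq ι] (i j : ι) : co e i (sm e j 1) = if j = i then 1 else 0 := by
  apply Subtype.ext
  change e.repr (((1 : ℤ_[2]) : ℚ_[2]) • e j) i = _
  rw [PadicInt.coe_one, one_smul, e.repr_self, Finsupp.single_apply]
  split_ifs <;> rfl

theorem l_sm (l : La e →+ F) (i : ι) (c : ℤ_[2]) :
    l (sm e i c) = up F (PadicInt.toZMod c) * l (sm e i 1) := add_z2 (l.comp (sm e i)) c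

variable (F) in
/-- evaluation at the basis -/
def ev : (La e →+ F) →ₗ[F] (ι → F) where
  toFun l i := l (sm e i 1)
  map_add' _ _ := rfl
  map_smul' _ _ := rfl

theorem l_eq (l : La e →+ F) (y : La e) :
    l y = ∑ i, up F (PadicInt.toZMod (co e i y)) * ev F e l i := by
  conv_lhs => rw [sum_sm e y]
  rw [map_sum]
  exact Finset.sum_congr rfl fun i _ => l_sm e l i _

theorem ev_bij : Function.Bijective (ev F e) := by
  classical
  refine ⟨fun l k h => AddMonoidHom.ext fun y => by rw [l_eq, l_eq e k, h], fun a => ?_⟩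
  refine ⟨⟨⟨fun y => ∑ i, up F (PadicInt.toZMod (co e i y)) * a i, by simp⟩, fun y z => ?_⟩, ?_⟩
  · simp only [map_add, add_mul, Finset.sum_add_distrib]
  · funext j
    change ∑ i, up F (PadicInt.toZMod (co e i (sm e j 1))) * a i = a j
    rw [Finset.sum_eq_single j]
    · rw [co_sm, if_pos rfl, map_one, map_one, one_mul]
    · intro i _ hi
      rw [co_sm, if_neg (Ne.symm hi), map_zero, map_zero, zero_mul]
    · exact fun h => absurd (Finset.mem_univ j) h

variable {e} {t : K ≃ₐ[ℚ_[2]] K} {π : ι → ι}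

theorem t_eq (he : ∀ i, t (e i) = e (π i)) (y : La e) :
    t y = ((∑ i, sm e (π i) (co e i y) : La e) : K) := by
  rw [AddSubgroup.val_finsetSum]
  conv_lhs => rw [← e.sum_repr y]
  rw [map_sum]
  refine Finset.sum_congr rfl fun i _ => ?_
  rw [map_smul, he]
  rfl

theorem rank_la (he : ∀ i, t (e i) = e (π i)) (x : F) :
    Module.finrank F (Xe F (t : K →+* K).toAddMonoidHom x (La e)) =
      Module.finrank F (Ef F π x) := by
  let E := LinearEquiv.ofBijective (ev F e) (ev_bij e)
  have key : ∀ l, l ∈ Xe F (t : K →+* K).toAddMonoidHom x (La e) ↔ ev F e l ∈ Ef F π x := by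
    intro l
    constructor
    · intro h i
      refine h (sm e i 1) (sm e (π i) 1) ?_
      change ((1 : ℤ_[2]) : ℚ_[2]) • e (π i) = t (((1 : ℤ_[2]) : ℚ_[2]) • e i)
      rw [map_smul, he]
    · intro h y y' hy
      have e1 : y' = ∑ i, sm e (π i) (co e i y) := Subtype.ext (hy.trans (t_eq he y))
      rw [e1, map_sum, l_eq e l y, Finset.mul_sum]
      refine Finset.sum_congr rfl fun i _ => ?_
      have e2 : l (sm e (π i) 1) = x * ev F e l i := h i
      rw [l_sm, e2]
      ring
  have h : (Xe F (t : K →+* K).toAddMonoidHom x (La e)).map (E : _ →ₗ[F] _) = Ef F π x := by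
    ext a
    rw [Submodule.mem_map]
    constructor
    · rintro ⟨l, hl, rfl⟩
      exact (key l).1 hl
    · intro ha
      obtain ⟨l, rfl⟩ := (ev_bij e).2 a
      exact ⟨l, (key l).2 ha, rfl⟩
  rw [← h, LinearEquiv.finrank_map_eq]

theorem pow_mem {OO : Subring K} {y : K} {n N : ℕ} (h : 2 ^ n * y ∈ OO) (hn : n ≤ N) :
    2 ^ N * y ∈ OO := by
  obtain ⟨k, rfl⟩ := Nat.exists_eq_add_of_le hn
  have h2 : (2 : K) ∈ OO := by
    have := OO.add_mem OO.one_mem OO.one_mem
    rwa [one_add_one_eq_two] at this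
  rw [pow_add, mul_comm (2 ^ n), mul_assoc]
  exact OO.mul_mem (OO.pow_mem h2 k) h

theorem main (hH : HERB) {m : ℕ} (hm : Odd m) (ht : t ^ m = 1) {OO : Subring K}
    (I : Intg (t : K →+* K) OO) (hc : ∀ c : ℤ_[2], algebraMap ℚ_[2] K c ∈ OO)
    (hb : ∀ l : K →ₗ[ℚ_[2]] ℚ_[2], ∃ n : ℕ, ∀ x ∈ OO, ‖2 ^ n * l x‖ ≤ 1)
    (he : ∀ i, t (e i) = e (π i)) (hO : ∀ i, e i ∈ OO) (x : F) :
    Module.finrank F (Xe F (t : K →+* K).toAddMonoidHom x OO.toAddSubgroup) =
      Module.finrank F (Ef F π x) := by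
  classical
  haveI : CharZero K := charZero_of_injective_algebraMap (algebraMap ℚ_[2] K).injective
  have htor : tor K = ⊥ := by
    rw [eq_bot_iff]
    intro y hy
    have h : 2 • y = 0 := hy
    rw [AddSubgroup.mem_bot]
    exact (smul_eq_zero.1 h).resolve_left (by norm_num)
  have hle : La e ≤ OO.toAddSubgroup := by
    intro y hy
    rw [← e.sum_repr y]
    refine OO.sum_mem fun i _ => ?_
    rw [Algebra.smul_def]
    exact OO.mul_mem (hc ⟨_, hy i⟩) (hO i)
  choose n hn using fun i => hb (e.coord i)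
  have hN : ∀ z ∈ OO, 2 ^ (Finset.univ.sup n) * z ∈ La e := by
    intro z hz i
    obtain ⟨k, hk⟩ := Nat.exists_eq_add_of_le (Finset.le_sup (f := n) (Finset.mem_univ i))
    have e1 : (2 : K) ^ (Finset.univ.sup n) * z = ((2 : ℚ_[2]) ^ (Finset.univ.sup n)) • z := by
      rw [Algebra.smul_def, map_pow, map_ofNat]
    have h2 : ‖(2 : ℚ_[2])‖ ≤ 1 := by
      have := Padic.norm_int_le_one (p := 2) 2
      exact_mod_cast this
    rw [e1, map_smul, Finsupp.smul_apply, smul_eq_mul, hk, pow_add, mul_comm (2 ^ n i), mul_assoc,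
      norm_mul, norm_pow]
    exact mul_le_one₀ (pow_le_one₀ (norm_nonneg _) h2) (norm_nonneg _) (hn i z hz)
  have hidx : (La e).relIndex OO.toAddSubgroup ≠ 0 := by
    obtain ⟨T, hT⟩ := I.fin (Finset.univ.sup n)
    choose y hy z hz hyz using fun a : OO.toAddSubgroup => hT a a.2
    haveI : Finite (OO.toAddSubgroup ⧸ (La e).addSubgroupOf OO.toAddSubgroup) := by
      refine Finite.of_injective (fun q => (⟨y q.out, hy q.out⟩ : T)) fun q q' h => ?_
      have h1 : y q.out = y q'.out := congrArg Subtype.val h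
      rw [← q.out_eq, ← q'.out_eq]
      refine QuotientAddGroup.eq.2 ?_
      rw [AddSubgroup.mem_addSubgroupOf]
      have h2 : ((-q.out + q'.out : OO.toAddSubgroup) : K) =
          2 ^ (Finset.univ.sup n) * (z q'.out - z q.out) := by
        rw [AddSubgroup.coe_add, AddSubgroup.coe_neg, hyz q.out, hyz q'.out, h1]
        ring
      rw [h2]
      exact hN _ (OO.sub_mem (hz _) (hz _))
    exact AddSubgroup.index_ne_zero_of_finite
  have hfin : Module.Finite F (La e →+ F) :=
    Module.Finite.of_injective (ev F e) (ev_bij e).1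
  have h := (hH F K (t : K →+* K).toAddMonoidHom m hm (fun y => ?_) x (La e) OO.toAddSubgroup hle
    (fun y hy => ?_) (fun y hy => I.stab y hy) hidx hfin (by rw [htor, inf_bot_eq]; infer_instance)).2
  · rw [htor, inf_bot_eq, inf_bot_eq, rank_la he] at h
    exact Nat.add_right_cancel h
  · have h1 : (t ^ m) y = y := by rw [ht]; rfl
    rw [AlgEquiv.coe_pow] at h1
    exact h1
  · have h1 := t_eq he ⟨y, hy⟩
    have h2 : t y ∈ La e := by
      rw [show t y = _ from h1]
      exact Subtype.property _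
    exact h2

end Locu3

theorem locu3 (hH : HERB) : LOCU3 := by
  intro F _ _ K _ _ t m hm ht OO I hc hb ι _ e π he x
  classical
  choose n hn using fun i => I.arch (e i)
  have hu : ∀ _ : ι, IsUnit ((2 : ℚ_[2]) ^ (Finset.univ.sup n)) := fun _ =>
    (pow_ne_zero _ two_ne_zero).isUnit
  refine Locu3.main (e := e.isUnitSMul hu) hH hm ht I hc hb (fun i => ?_) (fun i => ?_) x
  · rw [Module.Basis.isUnitSMul_apply, Module.Basis.isUnitSMul_apply, map_smul, he]
  · rw [Module.Basis.isUnitSMul_apply, Algebra.smul_def, map_pow, map_ofNat]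
    exact Locu3.pow_mem (hn i) (Finset.le_sup (f := n) (Finset.mem_univ i))

end Vale.Agent.P022D.L2c
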