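import Mathlib

/-!
# P022, block L2c: the norm index from the ranks (definition free core)
-/

set_option linter.all false

noncomputable section

namespace Vale.Agent.P022D.L2c

namespace Nir

/-- locally constant characters of order two -/
def Ch (X : Type) [Group X] [TopologicalSpace X] : AddSubgroup (X → ZMod 2) where
  carrier := {b | IsLocallyConstant b ∧ ∀ x y, b (x * y) = b x + b y}
  add_mem' h k := ⟨h.1.add k.1, fun x y => by
    simp only [Pi.add_apply, h.2, k.2]; ring⟩
  zero_mem' := ⟨IsLocallyConstant.const 0, fun _ _ => (add_zero _).symm⟩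
  neg_mem' h := ⟨h.1.neg, fun x y => by simp only [Pi.neg_apply, h.2]; ring⟩

variable {X : Type} [Group X] [TopologicalSpace X] [IsTopologicalGroup X]

/-- the cochains whose coboundary is a cup product with `a` -/
def Zc (a : X → ZMod 2) (s : X) : AddSubgroup (X → ZMod 2) where
  carrier := {z | IsLocallyConstant z ∧
    ∀ x y, z (x * y) = z x + z y + a x * (z (s * y) - z s - z y)}
  add_mem' h k := ⟨h.1.add k.1, fun x y => by
    rw [Pi.add_apply, h.2, k.2]; simp only [Pi.add_apply]; ring⟩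
  zero_mem' := ⟨IsLocallyConstant.const 0, fun _ _ => by simp⟩
  neg_mem' h := ⟨h.1.neg, fun x y => by
    rw [Pi.neg_apply, h.2]; simp only [Pi.neg_apply]; ring⟩

theorem z2 (a : ZMod 2) : a = 0 ∨ a = 1 := by revert a; decide

theorem idx {a : X → ZMod 2} (ha : a ∈ Ch X) {s : X} (hs : a s = 1) (H : Subgroup X)
    (hH : ∀ x, x ∈ H ↔ a x = 0) (c0 : Nat.card (Ch X) ≠ 0)
    (c : Nat.card (Ch X) ^ 2 = 4 * Nat.card (Ch H)) :
    ∃ N : AddSubgroup (Ch X), N.index = 2 ∧ ∀ b : Ch X, b ∈ N ↔ ∃ z : X → ZMod 2,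
      IsLocallyConstant z ∧ ∀ x y, z (x * y) = z x + z y + a x * b.1 y := by
  classical
  have a1 : a 1 = 0 := (hH 1).1 H.one_mem
  have out : ∀ x, a x = 1 → x * s⁻¹ ∈ H := fun x hx => (hH _).2 (by
    have := ha.2 (x * s⁻¹) s
    rwa [inv_mul_cancel_right, hx, hs, eq_comm, add_eq_right] at this)
  let ρ : Zc a s →+ Ch H :=
    { toFun := fun z => ⟨fun u => z.1 u, z.2.1.comp_continuous continuous_subtype_val,
        fun u v => by
          have := z.2.2 u v
          rwa [(hH u).1 u.2, zero_mul, add_zero] at this⟩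
      map_zero' := rfl
      map_add' := fun _ _ => rfl }
  let δ : Zc a s →+ Ch X :=
    { toFun := fun z => ⟨fun y => z.1 (s * y) - z.1 s - z.1 y,
        ((z.2.1.comp_continuous (continuous_const_mul s)).sub (IsLocallyConstant.const _)).sub
          z.2.1, fun x y => by
          have e := z.2.2 (s * x) y
          rw [ha.2, hs, mul_assoc] at e
          linear_combination e - z.2.2 x y⟩
      map_zero' := Subtype.ext (funext fun _ => by simp)
      map_add' := fun _ _ => Subtype.ext (funext fun _ => by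
        simp only [AddSubgroup.coe_add, Pi.add_apply]; ring) }
  have sub : ∀ b : Ch X, b.1 ∈ Zc a s := fun b => ⟨b.2.1, fun x y => by
    rw [b.2.2, b.2.2]; ring⟩
  have k1 : Nat.card δ.ker = Nat.card (Ch X) := Nat.card_congr
    { toFun := fun z => ⟨z.1.1, z.1.2.1, fun x y => by
        have e : z.1.1 (s * y) - z.1.1 s - z.1.1 y = 0 := congrFun (congrArg Subtype.val z.2) y
        rw [z.1.2.2, e, mul_zero, add_zero]⟩
      invFun := fun b => ⟨⟨b.1, sub b⟩, Subtype.ext (funext fun y => by
        show b.1 (s * y) - b.1 s - b.1 y = 0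
        rw [b.2.2]; ring)⟩
      left_inv := fun _ => rfl
      right_inv := fun _ => rfl }
  have k2 : Nat.card ρ.ker = 2 := by
    refine Nat.card_eq_two_iff.2 ⟨0, ⟨⟨a, sub ⟨a, ha⟩⟩, Subtype.ext (funext fun u =>
      (hH u).1 u.2)⟩, fun h => ?_, Set.eq_univ_of_forall fun z => ?_⟩
    · have : (0 : ZMod 2) = a s := congrFun (congrArg (fun z => z.1.1) h) s
      rw [hs] at this
      exact zero_ne_one this
    have z0 : ∀ x ∈ H, z.1.1 x = 0 := fun x hx => congrFun (congrArg Subtype.val z.2) ⟨x, hx⟩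
    have z1 : ∀ x, z.1.1 x = z.1.1 s * a x := fun x => by
      rcases z2 (a x) with h | h
      · rw [z0 x ((hH x).2 h), h, mul_zero]
      · have := z.1.2.2 (x * s⁻¹) s
        rwa [inv_mul_cancel_right, z0 _ (out x h), (hH _).1 (out x h), zero_mul, zero_add, add_zero,
          ← mul_one (z.1.1 s), ← h] at this
    rcases z2 (z.1.1 s) with h | h
    · exact Or.inl (Subtype.ext (Subtype.ext (funext fun x => by rw [z1, h, zero_mul]; rfl)))
    · exact Or.inr (Subtype.ext (Subtype.ext (funext fun x => by rw [z1, h, one_mul])))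
  have sur : ρ.range = ⊤ := by
    refine AddMonoidHom.range_eq_top.2 fun β => ?_
    let z : X → ZMod 2 := fun x => if h : a x = 0 then β.1 ⟨x, (hH x).2 h⟩ else
      β.1 ⟨x * s⁻¹, out x ((z2 _).resolve_left h)⟩
    have zH : ∀ u : H, z u = β.1 u := fun u => dif_pos ((hH u).1 u.2)
    have zm : ∀ (u : H) y, z (u * y) = β.1 u + z y := fun u y => by
      have e : a (u * y) = a y := by rw [ha.2, (hH u).1 u.2, zero_add]
      by_cases h : a y = 0
      · rw [show z y = _ from dif_pos h, show z (u * y) = _ from dif_pos (e.trans h), ← β.2.2]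
        rfl
      · rw [show z y = _ from dif_neg h, show z (u * y) = _ from dif_neg (e ▸ h), ← β.2.2]
        exact congrArg β.1 (Subtype.ext (mul_assoc _ _ _))
    have op : IsOpen (H : Set X) := by
      rw [show (H : Set X) = a ⁻¹' {0} from Set.ext hH]
      exact ha.1 _
    have b1 : β.1 1 = 0 := by simpa using β.2.2 1 1
    refine ⟨⟨z, (IsLocallyConstant.iff_exists_open _).2 fun y => ⟨(fun x => x * y⁻¹) ⁻¹'
      (Subtype.val '' (β.1 ⁻¹' {0})), (op.isOpenMap_subtype_val _ (β.2.1 _)).preimage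
        (by fun_prop), ⟨1, b1, by simp⟩, fun x ⟨u, h1, h2⟩ => ?_⟩, fun x y => ?_⟩,
      Subtype.ext (funext zH)⟩
    · have := zm u y
      rwa [h2, inv_mul_cancel_right, show β.1 u = 0 from h1, zero_add] at this
    rcases z2 (a x) with h | h
    · rw [h, zero_mul, add_zero, zm ⟨x, (hH x).2 h⟩, ← zH]
    · have e1 := zm ⟨_, out x h⟩ (s * y)
      have e2 := zm ⟨_, out x h⟩ s
      simp only [inv_mul_cancel_right, mul_assoc, inv_mul_cancel_left, inv_mul_cancel,
        mul_one] at e1 e2
      rw [h]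
      linear_combination e1 - e2
  have m1 := ρ.ker.card_mul_index
  have m2 := δ.ker.card_mul_index
  have m3 := δ.range.card_mul_index
  rw [AddSubgroup.index_ker, k2, sur, AddSubgroup.card_top] at m1
  rw [AddSubgroup.index_ker, k1, ← m1] at m2
  have m4 : Nat.card δ.range * 2 = Nat.card (Ch X) :=
    Nat.eq_of_mul_eq_mul_left (Nat.pos_of_ne_zero c0) (by linarith)
  refine ⟨δ.range, Nat.eq_of_mul_eq_mul_left (Nat.pos_of_ne_zero fun h => c0 (by
    rw [← m4, h, zero_mul])) (m3.trans m4.symm), fun b => ⟨?_, fun ⟨z, h1, h2⟩ => ?_⟩⟩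
  · rintro ⟨z, rfl⟩
    exact ⟨z.1, z.2⟩
  have e : ∀ y, z (s * y) - z s - z y = b.1 y := fun y => by rw [h2, hs]; ring
  exact ⟨⟨z, h1, fun x y => by rw [e, h2]⟩, Subtype.ext (funext e)⟩

end Nir

end Vale.Agent.P022D.L2c
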