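import Vale.Agent.P022D.L2c.Defs
import Vale.Agent.P022D.L2c.Nir0

/-!
# P022, block L2c: the norm index from the ranks (row NIR)
-/

set_option linter.all false

noncomputable section

namespace Vale.Agent.P022D.L2c

namespace Nir

theorem ni {X : Type} [Group X] [TopologicalSpace X] [IsTopologicalGroup X] (n : ℕ)
    (c1 : Nat.card (Hm (ZMod 2) X) = 2 ^ (n + 2))
    (c2 : ∀ H : Subgroup X, IsOpen (H : Set X) → H.index = 2 →
      Nat.card (Hm (ZMod 2) H) = 2 ^ (2 * n + 2)) : NI X := by
  intro a ha a0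
  obtain ⟨s, hs⟩ := Function.ne_iff.1 a0
  have hs : a s = 1 := (z2 _).resolve_left hs
  have a1 : a 1 = 0 := by simpa using ha.2 1 1
  let H : Subgroup X :=
    { carrier := a ⁻¹' {0}
      mul_mem' := fun {x y} hx hy => by
        have := ha.2 x y
        rwa [show a x = 0 from hx, show a y = 0 from hy, add_zero] at this
      one_mem' := a1
      inv_mem' := fun {x} hx => by
        have := ha.2 x x⁻¹
        rwa [mul_inv_cancel, a1, show a x = 0 from hx, zero_add, eq_comm] at this }
  have hi : H.index = 2 := Subgroup.index_eq_two_iff.2 ⟨s, fun b => by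
    show Xor (a (b * s) = 0) (a b = 0)
    rw [ha.2, hs]
    generalize a b = u
    revert u
    decide⟩
  have d1 : Nat.card (Ch X) = 2 ^ (n + 2) := c1
  have d2 : Nat.card (Ch H) = 2 ^ (2 * n + 2) := c2 H (ha.1 {0}) hi
  obtain ⟨N, h1, h2⟩ := idx (a := a) ha hs H (fun _ => Iff.rfl) (by rw [d1]; positivity)
    (by rw [d1, d2]; ring)
  refine ⟨?_, fun b hb b' hb' k k' => ?_⟩
  swap
  · have := (h2 ((⟨b, hb⟩ : Ch X) + (⟨b', hb'⟩ : Ch X))).1
      ((AddSubgroup.add_mem_iff_of_index_two h1).2
        (iff_of_false (fun h => k ((h2 ⟨b, hb⟩).1 h)) fun h => k' ((h2 ⟨b', hb'⟩).1 h)))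
    exact this
  by_contra! h
  rw [(AddSubgroup.eq_top_iff' N).2 fun b => (h2 b).2 (h b.1 b.2), AddSubgroup.index_top] at h1
  exact absurd h1 (by norm_num)

theorem card_eq {X Y : Type} [Group X] [TopologicalSpace X] [Group Y] [TopologicalSpace Y]
    (e : X ≃ₜ* Y) : Nat.card (Hm (ZMod 2) X) = Nat.card (Hm (ZMod 2) Y) := Nat.card_congr
  { toFun := fun b => ⟨fun y => b.1 (e.symm y), b.2.1.comp_continuous e.symm.continuous,
      fun x y => by simp only [map_mul, b.2.2]⟩
    invFun := fun b => ⟨fun x => b.1 (e x), b.2.1.comp_continuous e.continuous,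
      fun x y => by simp only [map_mul, b.2.2]⟩
    left_inv := fun b => Subtype.ext (funext fun x => congrArg b.1 (e.symm_apply_apply x))
    right_inv := fun b => Subtype.ext (funext fun y => congrArg b.1 (e.apply_symm_apply y)) }

end Nir

theorem nir : NIR := by
  intro G _ _ _ _ h
  refine ⟨Nir.ni 1 h.1 fun H o i => by rw [h.2 H o, i], fun V hV =>
    Nir.ni V.index (h.2 V hV) fun H o i => ?_⟩
  have := Nir.card_eq (Subgroup.subgroupOfContinuousMulEquivOfLe (Subgroup.map_subtype_le H))
  rw [h.2 _ (hV.isOpenMap_subtype_val _ o), Subgroup.index_map_subtype, i,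
    show (H.map V.subtype).subgroupOf V = H from
      Subgroup.comap_map_eq_self_of_injective V.subtype_injective H] at this
  exact this

end Vale.Agent.P022D.L2c
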