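import Mathlib

/-!
# P022: restriction to an open subgroup of odd index is injective on classes of degree two
-/

set_option linter.all false

noncomputable section

namespace Vale.Agent.P022D.L2c

namespace Odd

variable {X F : Type} [Group X] [Field F] [CharP F 2]

/-- the transfer cocycle -/
def tau (H : Subgroup X) (q : X ⧸ H) (g : X) : H :=
  ⟨q.out⁻¹ * g * (g⁻¹ • q).out, by
    have h : ((g⁻¹ * q.out : X) : X ⧸ H) = ((g⁻¹ • q).out : X) := by
      rw [QuotientGroup.out_eq', ← smul_eq_mul, MulAction.Quotient.coe_smul_out]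
    have := QuotientGroup.eq.1 h
    simpa [mul_assoc] using this⟩

theorem tau_val (H : Subgroup X) (q : X ⧸ H) (g : X) :
    q.out * tau H q g = g * (g⁻¹ • q).out := by
  simp [tau, mul_assoc]

theorem tau_mul (H : Subgroup X) (q : X ⧸ H) (g h : X) :
    tau H q (g * h) = tau H q g * tau H (g⁻¹ • q) h := by
  apply Subtype.ext
  simp [tau, mul_assoc, mul_smul]

theorem alg (H : Subgroup X) [Fintype (X ⧸ H)] (hi : Odd (Fintype.card (X ⧸ H)))
    (y : X → X → F) (hy : ∀ g h k, y g h + y (g * h) k = y g (h * k) + y h k)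
    (z : H → F) (hz : ∀ a b : H, y a b = z a + z b + z (a * b)) (w : X → F)
    (hw : ∀ g, w g = ∑ q : X ⧸ H, (y q.out (tau H q g) + y g (g⁻¹ • q).out + z (tau H q g)))
    (g h : X) : y g h = w g + w h + w (g * h) := by
  have two : (2 : F) = 0 := CharP.cast_eq_zero F 2
  have c : (Fintype.card (X ⧸ H) : F) = 1 := by
    obtain ⟨k, hk⟩ := hi
    rw [hk]; push_cast; rw [two]; simp
  rw [hw g, hw h, hw (g * h), ← Equiv.sum_comp (MulAction.toPerm g⁻¹ : (X ⧸ H) ≃ (X ⧸ H))
    (fun q => y q.out (tau H q h) + y h (h⁻¹ • q).out + z (tau H q h)),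
    ← Finset.sum_add_distrib, ← Finset.sum_add_distrib, ← one_mul (y g h), ← c, ← nsmul_eq_mul,
    ← Finset.card_univ, ← Finset.sum_const]
  refine Finset.sum_congr rfl fun q _ => ?_
  simp only [MulAction.toPerm_apply, tau_mul, mul_inv_rev, mul_smul]
  have e1 := hy q.out (tau H q g) (tau H (g⁻¹ • q) h)
  have e2 := hy g (g⁻¹ • q).out (tau H (g⁻¹ • q) h)
  have e3 := hy g h (h⁻¹ • g⁻¹ • q).out
  have e4 := hz (tau H q g) (tau H (g⁻¹ • q) h)
  rw [tau_val] at e1 e2
  rw [Subgroup.coe_mul]
  linear_combination e3 - e1 - e2 - e4 + (y (g * (g⁻¹ • q).out) (tau H (g⁻¹ • q) h) - z (tau H q g)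
    - y (g⁻¹ • q).out (tau H (g⁻¹ • q) h) - z (tau H (g⁻¹ • q) h)
    - y q.out (tau H q g * tau H (g⁻¹ • q) h) - y (g * h) (h⁻¹ • g⁻¹ • q).out
    - z (tau H q g * tau H (g⁻¹ • q) h)) * two

variable [TopologicalSpace X] [IsTopologicalGroup X]

theorem lc_act (H : Subgroup X) (ho : IsOpen (H : Set X)) (q : X ⧸ H) :
    IsLocallyConstant fun g : X => g⁻¹ • q := by
  haveI := QuotientGroup.discreteTopology ho
  exact (IsLocallyConstant.iff_continuous _).2 (continuous_inv.smul continuous_const)

theorem cont_out (H : Subgroup X) (ho : IsOpen (H : Set X)) (q : X ⧸ H) :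
    Continuous fun g : X => (g⁻¹ • q).out := ((lc_act H ho q).comp Quotient.out).continuous

theorem cont_tau (H : Subgroup X) (ho : IsOpen (H : Set X)) (q : X ⧸ H) :
    Continuous (tau H q) :=
  Continuous.subtype_mk ((continuous_const.mul continuous_id).mul (cont_out H ho q)) _

theorem core (H : Subgroup X) (ho : IsOpen (H : Set X)) (hi : Odd H.index)
    (y : X → X → F) (hl : IsLocallyConstant fun p : X × X => y p.1 p.2)
    (hy : ∀ g h k, y g h + y (g * h) k = y g (h * k) + y h k)
    (z : H → F) (zl : IsLocallyConstant z) (hz : ∀ a b : H, y a b = z a + z b + z (a * b)) :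
    ∃ w : X → F, IsLocallyConstant w ∧ ∀ g h, y g h = w g + w h + w (g * h) := by
  haveI : Fintype (X ⧸ H) := Subgroup.fintypeOfIndexNeZero hi.pos.ne'
  refine ⟨_, ?_, alg H (by rwa [← Nat.card_eq_fintype_card]) y hy z hz _ fun _ => rfl⟩
  letI : TopologicalSpace F := ⊥
  haveI : DiscreteTopology F := ⟨rfl⟩
  rw [IsLocallyConstant.iff_continuous]
  refine continuous_finset_sum _ fun q _ => (Continuous.add ?_ ?_).add ?_
  · exact hl.continuous.comp
      (continuous_const.prodMk (continuous_subtype_val.comp (cont_tau H ho q)))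
  · exact hl.continuous.comp (continuous_id.prodMk (cont_out H ho q))
  · exact zl.continuous.comp (cont_tau H ho q)

end Odd

end Vale.Agent.P022D.L2c
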