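import Vale.Agent.P022D.L2c.Defs
import Vale.Agent.P022D.L2c.Odd0

/-!
# P022, block L2c: row ODD
-/

set_option linter.all false

namespace Vale.Agent.P022D.L2c

theorem odd : ODD := by
  rintro F _ _ X _ _ _ H ho hi y hy ⟨z, zl, hz⟩
  have two : (2 : F) = 0 := CharP.cast_eq_zero F 2
  obtain ⟨w, h1, h2⟩ := Odd.core H ho hi y hy.1
    (fun g h k => by linear_combination -hy.2 g h k) z zl
    fun a b => by linear_combination hz a b + (y a b - z (a * b)) * two
  exact ⟨w, h1, fun a b => by linear_combination h2 a b + (w (a * b) - y a b) * two⟩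

end Vale.Agent.P022D.L2c
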