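import Vale.Agent.P022D.L2c.Pol1

/-!
# P022, block L2c: the polar form of the obstruction is not zero (row POL)
-/

set_option linter.all false

noncomputable section

namespace Vale.Agent.P022D.L2c

namespace PolP

variable {F : Type} [Field F] {G : Type} [Group G] [TopologicalSpace G]

/-- conjugation -/
def act (rb : G →* M2 F) (g : G) : M2 F →+ M2 F :=
  (AddMonoidHom.mulRight (rb g⁻¹)).comp (AddMonoidHom.mulLeft (rb g))

theorem act_apply (rb : G →* M2 F) (g : G) (X : M2 F) : act rb g X = rb g * X * rb g⁻¹ := rfl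

theorem act_mul (rb : G →* M2 F) (g h : G) (X : M2 F) :
    act rb (g * h) X = act rb g (act rb h X) := by
  simp only [act_apply, mul_inv_rev, map_mul, mul_assoc]

theorem act_one (rb : G →* M2 F) (X : M2 F) : act rb 1 X = X := by
  simp only [act_apply, inv_one, map_one, one_mul, mul_one]

theorem act_trace (rb : G →* M2 F) (g : G) (X : M2 F) : (act rb g X).trace = X.trace := by
  rw [act_apply, Matrix.trace_mul_cycle, ← map_mul, inv_mul_cancel, map_one, one_mul]

theorem act_ent (rb : G →* M2 F) (g : G) (X : M2 F) (i j : Fin 2) : act rb g X i j =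
    (rb g i 0 * X 0 0 + rb g i 1 * X 1 0) * rb g⁻¹ 0 j +
      (rb g i 0 * X 0 1 + rb g i 1 * X 1 1) * rb g⁻¹ 1 j := by
  simp only [act_apply, Matrix.mul_apply, Fin.sum_univ_two]

theorem inv_ent (rb : G →* M2 F) (g : G) (i : Fin 2) :
    rb g i 0 * rb g⁻¹ 0 i + rb g i 1 * rb g⁻¹ 1 i = 1 := by
  have : (rb g * rb g⁻¹) i i = 1 := by
    rw [← map_mul, mul_inv_cancel, map_one, Matrix.one_apply_eq]
  simpa only [Matrix.mul_apply, Fin.sum_univ_two] using this

variable {rb : G →* M2 F} {U V : Subgroup G} {t : G}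

theorem in0 (h : Dih0 rb U) {g : G} (hg : g ∈ U) :
    rb g 0 0 * rb g⁻¹ 0 0 = 1 ∧ rb g 1 1 * rb g⁻¹ 1 1 = 1 := by
  have a := inv_ent rb g 0
  have b := inv_ent rb g 1
  rw [(h.dg g hg).1] at a
  rw [(h.dg g hg).2] at b
  exact ⟨by linear_combination a, by linear_combination b⟩

theorem out0 (h : Dih0 rb U) {g : G} (hg : g ∉ U) :
    rb g 0 1 * rb g⁻¹ 1 0 = 1 ∧ rb g 1 0 * rb g⁻¹ 0 1 = 1 := by
  have a := inv_ent rb g 0
  have b := inv_ent rb g 1
  rw [(h.ad g hg).1] at a
  rw [(h.ad g hg).2] at b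
  exact ⟨by linear_combination a, by linear_combination b⟩

theorem act_in (h : Dih0 rb U) {g : G} (hg : g ∈ U) (X : M2 F) :
    act rb g X 0 0 = X 0 0 ∧ act rb g X 1 1 = X 1 1 ∧ act rb g X 0 1 = th rb g * X 0 1 ∧
      act rb g X 1 0 = (th rb g)⁻¹ * X 1 0 := by
  have i := h.dg g⁻¹ (inv_mem hg)
  have d := h.dg g hg
  have o := in0 h hg
  have e : (th rb g)⁻¹ = rb g 1 1 * rb g⁻¹ 0 0 := inv_eq_of_mul_eq_one_right (by
    rw [th]; linear_combination (rb g 1 1 * rb g⁻¹ 1 1) * o.1 + o.2)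
  rw [e, th]
  simp only [act_ent, i.1, i.2, d.1, d.2]
  exact ⟨by linear_combination X 0 0 * o.1, by linear_combination X 1 1 * o.2, by ring, by ring⟩

theorem act_out (h : Dih0 rb U) {g : G} (hg : g ∉ U) (X : M2 F) :
    act rb g X 0 0 = X 1 1 ∧ act rb g X 1 1 = X 0 0 ∧
      act rb g X 0 1 = rb g 0 1 * rb g⁻¹ 0 1 * X 1 0 ∧
      act rb g X 1 0 = rb g 1 0 * rb g⁻¹ 1 0 * X 0 1 := by
  have i := h.ad g⁻¹ fun k => hg (by simpa using inv_mem k)
  have d := h.ad g hg
  have o := out0 h hg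
  simp only [act_ent, i.1, i.2, d.1, d.2]
  exact ⟨by linear_combination X 1 1 * o.1, by linear_combination X 0 0 * o.2, by ring, by ring⟩

theorem act_off (h : Dih0 rb U) (g : G) {X : M2 F} (h0 : X 0 0 = 0) (h1 : X 1 1 = 0) :
    act rb g X 0 0 = 0 ∧ act rb g X 1 1 = 0 := by
  by_cases hg : g ∈ U
  · rw [(act_in h hg X).1, (act_in h hg X).2.1]; exact ⟨h0, h1⟩
  · rw [(act_out h hg X).1, (act_out h hg X).2.1]; exact ⟨h1, h0⟩

theorem th_mul (h : Dih0 rb U) {u u' : G} (hu : u ∈ U) (hu' : u' ∈ U) :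
    th rb (u * u') = th rb u * th rb u' := by
  simp only [th, mul_inv_rev, map_mul, Matrix.mul_apply, Fin.sum_univ_two, (h.dg u hu).1,
    (h.dg _ (inv_mem hu)).1]
  ring

theorem th_V (h : Dih rb U V t) {v : G} (hv : v ∈ V) : th rb v = 1 := by
  have := (h.sc v).1 hv
  rw [th, this.2, (in0 h.toDih0 this.1).2]

theorem lc_rb [IsTopologicalGroup G] (h : IsOpen {g | rb g = 1}) : IsLocallyConstant rb :=
  (IsLocallyConstant.iff_exists_open _).2 fun g => ⟨{x | rb (g⁻¹ * x) = 1},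
    h.preimage (continuous_const.mul continuous_id), by
      show rb (g⁻¹ * g) = 1
      rw [inv_mul_cancel, map_one], fun x hx => by
      have : rb (g * (g⁻¹ * x)) = rb g := by rw [map_mul, hx, mul_one]
      rwa [mul_inv_cancel_left] at this⟩

theorem lc_act [IsTopologicalGroup G] (h : IsOpen {g | rb g = 1}) {X : Type} [TopologicalSpace X]
    {f : X → G} (hf : Continuous f) {y : X → M2 F} (hy : IsLocallyConstant y) :
    IsLocallyConstant fun x => act rb (f x) (y x) :=
  (((lc_rb h).comp_continuous hf).mul hy).mul ((lc_rb h).comp_continuous hf.inv)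

/-- the two invariant forms -/
def BB (r : ZMod 2) : M2 F →+ M2 F →+ F :=
  AddMonoidHom.mk' (fun X => AddMonoidHom.mk'
    (fun Y => up' r * (X 1 0 * Y 0 1) + (1 - up' r) * (X 0 1 * Y 1 0)) fun Y Y' => by
      simp only [Matrix.add_apply]; ring) fun X X' => by
    ext Y
    simp only [Matrix.add_apply, AddMonoidHom.mk'_apply, AddMonoidHom.add_apply]; ring
where up' (r : ZMod 2) : F := (r.val : F)

theorem BB0 (X Y : M2 F) : BB 0 X Y = X 0 1 * Y 1 0 := by
  simp [BB, BB.up']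

theorem BB1 (X Y : M2 F) : BB 1 X Y = X 1 0 * Y 0 1 := by
  simp [BB, BB.up', ZMod.val_one]

theorem BB_act (h : Dih0 rb U) {e : G → ZMod 2} (hU : ∀ g, g ∈ U ↔ e g = 0) (r : ZMod 2) (g : G)
    (X Y : M2 F) : BB r (act rb g X) (act rb g Y) = BB (r + e g) X Y := by
  by_cases hg : g ∈ U
  · have n : th rb g * (th rb g)⁻¹ = 1 := mul_inv_cancel₀ (by
      have o := in0 h hg
      exact mul_ne_zero (left_ne_zero_of_mul_eq_one o.1) (right_ne_zero_of_mul_eq_one o.2))
    have a := act_in h hg X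
    have b := act_in h hg Y
    rw [(hU g).1 hg, add_zero]
    rcases z2 r with rfl | rfl
    · rw [BB0, BB0, a.2.2.1, b.2.2.2]; linear_combination (X 0 1 * Y 1 0) * n
    · rw [BB1, BB1, a.2.2.2, b.2.2.1]; linear_combination (X 1 0 * Y 0 1) * n
  · have o := out0 h hg
    have a := act_out h hg X
    have b := act_out h hg Y
    rw [(z2 (e g)).resolve_left fun k => hg ((hU g).2 k)]
    rcases z2 r with rfl | rfl
    · rw [zero_add, BB0, BB1, a.2.2.1, b.2.2.2]
      linear_combination (X 1 0 * Y 0 1 * (rb g 1 0 * rb g⁻¹ 0 1)) * o.1 + (X 1 0 * Y 0 1) * o.2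
    · rw [show (1 : ZMod 2) + 1 = 0 from rfl, BB0, BB1, a.2.2.2, b.2.2.1]
      linear_combination (X 0 1 * Y 1 0 * (rb g 1 0 * rb g⁻¹ 0 1)) * o.1 + (X 0 1 * Y 1 0) * o.2

theorem eps_eq [CharP F 2] (h : Dih0 rb U) {e : G → ZMod 2} (hU : ∀ g, g ∈ U ↔ e g = 0) (g : G) :
    eps rb g = up F (e g) := by
  by_cases hg : g ∈ U
  · rw [(hU g).1 hg, map_zero, eps, (h.dg g hg).1, zero_mul]
  · rw [(z2 (e g)).resolve_left fun k => hg ((hU g).2 k), map_one, eps, (out0 h hg).1]

theorem exists_e [IsTopologicalGroup G] (hU : IsOpen (U : Set G)) (h2 : U.index = 2) :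
    ∃ e ∈ Hm (ZMod 2) G, ∀ g, g ∈ U ↔ e g = 0 := by
  classical
  have hm : ∀ x y, (if x * y ∈ U then 0 else 1 : ZMod 2) =
      (if x ∈ U then 0 else 1) + if y ∈ U then 0 else 1 := fun x y => by
    have := Subgroup.mul_mem_iff_of_index_two h2 (a := x) (b := y)
    by_cases hx : x ∈ U <;> by_cases hy : y ∈ U <;> simp [this, hx, hy]
    rfl
  refine ⟨fun g => if g ∈ U then 0 else 1, ⟨(IsLocallyConstant.iff_exists_open _).2 fun g =>
    ⟨{x | g⁻¹ * x ∈ U}, hU.preimage (continuous_const.mul continuous_id), by simp [one_mem],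
      fun x hx => ?_⟩, hm⟩, fun g => by by_cases hg : g ∈ U <;> simp [hg]⟩
  have := hm g (g⁻¹ * x)
  rw [mul_inv_cancel_left, if_pos (show g⁻¹ * x ∈ U from hx), add_zero] at this
  exact this

/-- the polar form and the corestriction -/
theorem polar [IsTopologicalGroup G] [CharP F 2] (h : Dih0 rb U) {e : G → ZMod 2} {σ : G}
    (he : e ∈ Hm (ZMod 2) G) (hσ : e σ = 1) (hU : ∀ g, g ∈ U ↔ e g = 0) {w w' : G → M2 F}
    (hw : w ∈ Zad rb) (hw' : w' ∈ Zad rb)
    (hd : ∀ g, w g 0 0 = 0 ∧ w g 1 1 = 0 ∧ w' g 0 0 = 0 ∧ w' g 1 1 = 0) :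
    bil rb w w' + bil rb w' w - cor e σ (fun g k => BB 0 (w g) (act rb g (w' k))) ∈ Cob F G := by
  have two : (2 : F) = 0 := CharTwo.two_eq_zero
  have c : ∀ g k, w (g * k) = w g + act rb g (w k) := hw.2.2
  have c' : ∀ g k, w' (g * k) = w' g + act rb g (w' k) := hw'.2.2
  have key := corid (σ := σ) (act rb) (act_mul rb) he BB (BB_act h hU) w w' c c' _ fun _ => rfl
  have l1 : ∀ r, IsLocallyConstant fun g => act rb g (w' (rep σ (r + e g))) := fun r =>
    lc_act h.opn continuous_id (he.1.comp fun c => w' (rep σ (r + c)))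
  refine ⟨fun g => (∑ r, (BB r (w (rep σ r))
      (w' g + act rb g (w' (rep σ (r + e g))) - w' (rep σ r)) -
      BB r (w g) (act rb g (w' (rep σ (r + e g)))))) + BB 0 (w' g) (w g),
    (lc_sum _ fun r => ((((hw'.1.add (l1 r)).sub (IsLocallyConstant.const _)).comp _).sub
      (hw.1.comp₂ (l1 r) fun X Y => BB r X Y))).add
      (hw'.1.comp₂ hw.1 fun X Y => BB 0 X Y), fun g k => ?_⟩
  have k1 := key g k
  have k2 : ∀ r X Y, BB r (act rb (rep σ r) X) (act rb (rep σ r) Y) = BB 0 X Y := fun r X Y => by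
    rw [BB_act h hU, e_rep he hσ, CharTwo.add_self_eq_zero]
  simp only [k2] at k1
  have k3 : BB 0 (act rb g (w' k)) (act rb g (w k)) = BB 0 (w' k) (w k) +
      eps rb g * (w' k 1 0 * w k 0 1 - w' k 0 1 * w k 1 0) := by
    rw [BB_act h hU, zero_add, eps_eq h hU]
    rcases z2 (e g) with q | q
    · rw [q, map_zero, zero_mul, add_zero]
    · rw [q, map_one, BB0, BB1]; ring
  have k4 : BB 0 (w' (g * k)) (w (g * k)) = BB 0 (w' g) (w g) + BB 0 (w' g) (act rb g (w k)) +
      BB 0 (act rb g (w' k)) (w g) + BB 0 (act rb g (w' k)) (act rb g (w k)) := by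
    rw [c, c']
    simp only [map_add, AddMonoidHom.add_apply]
    ring
  have k5 : ∀ v v' : G → M2 F, v g 0 0 = 0 → v k 0 0 = 0 → bil rb v v' g k =
      -(eps rb g * (v k 0 1 * v' k 1 0)) + v g 0 1 * act rb g (v' k) 1 0 := fun v v' a b => by
    rw [bil, ← act_apply, Matrix.mul_apply, Fin.sum_univ_two, a, b]; ring
  simp only [Pi.sub_apply, Pi.add_apply, cor]
  rw [k1, k4, k3, k5 w w' (hd g).1 (hd k).1, k5 w' w (hd g).2.2.1 (hd k).2.2.1,
    sum2' fun r => BB r (w g) (act rb g (w' k))]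
  simp only [BB0, BB1]
  linear_combination (eps rb g * (w' k 1 0 * w k 0 1) + act rb g (w' k) 0 1 * w g 1 0) * two

/-- corestriction of a cocycle -/
theorem corz [IsTopologicalGroup G] (h : Dih0 rb U) {e : G → ZMod 2} {σ : G}
    (he : e ∈ Hm (ZMod 2) G) (hσ : e σ = 1) (hU : ∀ g, g ∈ U ↔ e g = 0) (x : U → M2 F)
    (hx : IsLocallyConstant x) (hc : ∀ u u' : U, x (u * u') = x u + act rb u (x u'))
    (hd : ∀ u, x u 0 0 = 0 ∧ x u 1 1 = 0) :
    ∃ w ∈ Zad rb, (∀ g, w g 0 0 = 0 ∧ w g 1 1 = 0) ∧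
      ∀ u : U, ∃ u' : U, w u = x u + act rb σ (x u') := by
  let T : ZMod 2 → G → U := fun r g => ⟨tau e σ r g, (hU _).2 (e_tau he hσ r g)⟩
  have d : ∀ g, (∑ r, act rb (rep σ r) (x (T r g))) 0 0 = 0 ∧
      (∑ r, act rb (rep σ r) (x (T r g))) 1 1 = 0 := fun g => by
    have a := fun r => act_off h (rep σ r) (hd (T r g)).1 (hd (T r g)).2
    rw [sum2', Matrix.add_apply, Matrix.add_apply, (a 0).1, (a 0).2, (a 1).1, (a 1).2, add_zero]
    exact ⟨rfl, rfl⟩
  refine ⟨fun g => ∑ r, act rb (rep σ r) (x (T r g)), ⟨lc_sum _ fun r =>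
    (hx.comp_continuous ((tau_cont he r).subtype_mk _)).comp _, fun g => by
      beta_reduce
      rw [Matrix.trace_fin_two, (d g).1, (d g).2, add_zero], fun g k => ?_⟩, d,
    fun u => ⟨T 1 u, ?_⟩⟩
  · rw [← act_apply, map_sum, ← sum2 (fun r => act rb g (act rb (rep σ r) (x (T r k)))) (e g),
      ← Finset.sum_add_distrib]
    refine Finset.sum_congr rfl fun r _ => ?_
    rw [show T r (g * k) = T r g * T (r + e g) k from Subtype.ext (tau_mul he r g k), hc, map_add,
      ← act_mul, ← act_mul]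
    congr 3
    show rep σ r * tau e σ r g = _
    simp only [tau, mul_assoc, mul_inv_cancel_left]
  · have : T 0 u = u := Subtype.ext (by
      show tau e σ 0 u = u
      rw [tau, (hU _).1 u.2, add_zero, rep0, inv_one, one_mul, mul_one])
    show ∑ r, act rb (rep σ r) (x (T r u)) = _
    rw [sum2', this, rep0, rep1, act_one]

theorem exists_x (hc : Nat.card (Hm (ZMod 2) G) = 8) (hN : NI G) {e : G → ZMod 2}
    (he : e ∈ Hm (ZMod 2) G) (h0 : e ≠ 0) :
    ∃ x ∈ Hm (ZMod 2) G, x ≠ 0 ∧ cup e x ∈ Cob (ZMod 2) G := by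
  have : Finite (Hm (ZMod 2) G) := Nat.finite_of_card_ne_zero (by rw [hc]; norm_num)
  have ne : ∀ p q : Hm (ZMod 2) G, p ≠ q → p.1 + q.1 ≠ 0 := fun p q n k =>
    n (Subtype.ext (funext fun g => by
      have := congrFun k g
      rw [Pi.add_apply, Pi.zero_apply, CharTwo.add_eq_zero] at this
      exact this))
  by_contra n
  push Not at n
  have := Fintype.ofFinite (Hm (ZMod 2) G)
  obtain ⟨p, q, r, h1, h2, h3⟩ := (Fintype.two_lt_card_iff (α := Hm (ZMod 2) G)).1 (by
    rw [← Nat.card_eq_fintype_card, hc]; norm_num)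
  have k : ∀ p q : Hm (ZMod 2) G, p ≠ q → p.1 = 0 ∨ q.1 = 0 := fun p q d => by
    by_contra c
    push Not at c
    exact n _ (add_mem p.2 q.2) (ne p q d)
      ((hN e he h0).2 _ p.2 _ q.2 (n _ p.2 c.1) (n _ q.2 c.2))
  rcases k p q h1 with a | a <;> rcases k p r h2 with b | b <;> rcases k q r h3 with c | c
  all_goals first
    | exact h1 (Subtype.ext (a.trans c.symm))
    | exact h1 (Subtype.ext (b.trans a.symm))
    | exact h2 (Subtype.ext (a.trans c.symm))
    | exact h2 (Subtype.ext (a.trans b.symm))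
    | exact h3 (Subtype.ext (a.trans b.symm))
    | exact h3 (Subtype.ext (a.trans c.symm))
    | exact h2 (Subtype.ext (b.trans c.symm))

end PolP

open PolP

theorem pol (s0 : SYM0) (s1 : SYM1) (s2 : SYM2) (hO : ODD) (hE : EXT) : POL := by
  intro F _ _ _ G _ _ _ rb U V t h hc nG nV ne
  have h0 := h.toDih0
  have le : V ≤ U := fun g hg => ((h.sc g).1 hg).1
  obtain ⟨b, hb, b0⟩ := Submodule.exists_mem_ne_zero_of_ne_bot ne
  obtain ⟨c, hc', bc⟩ := s1 F G V h.nrm nV t _ _ h.odd h.tpow h.pow b hb b0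
  obtain ⟨β, lβ, mβ, rβ⟩ := hE F G U V t (th rb) h.nrm h.opV le h.tU h.gen
    (fun u hu u' hu' => th_mul h0 hu hu') (fun v hv => th_V h hv) h.ne b hb
  obtain ⟨γ, lγ, mγ, rγ⟩ := hE F G U V t (fun g => (th rb g)⁻¹) h.nrm h.opV le h.tU h.gen
    (fun u hu u' hu' => by rw [th_mul h0 hu hu', mul_inv]) (fun v hv => by
      rw [th_V h hv, inv_one]) (fun k => h.ne (inv_eq_one.1 k)) c hc'
  let x : U → M2 F := fun u => !![0, β u; 0, 0]
  let x' : U → M2 F := fun u => !![0, 0; γ u, 0]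
  have lx : IsLocallyConstant x := lβ.comp fun s => !![0, s; 0, 0]
  have lx' : IsLocallyConstant x' := lγ.comp fun s => !![0, 0; s, 0]
  have cx : ∀ u u' : U, x (u * u') = x u + act rb u (x u') := fun u u' => by
    have a := act_in h0 u.2 (x u')
    ext i j
    fin_cases i <;> fin_cases j <;>
      simp only [Fin.zero_eta, Fin.mk_one, Matrix.add_apply, a.1, a.2.1, a.2.2.1, a.2.2.2] <;>
      simp [x, mβ]
  have cx' : ∀ u u' : U, x' (u * u') = x' u + act rb u (x' u') := fun u u' => by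
    have a := act_in h0 u.2 (x' u')
    ext i j
    fin_cases i <;> fin_cases j <;>
      simp only [Fin.zero_eta, Fin.mk_one, Matrix.add_apply, a.1, a.2.1, a.2.2.1, a.2.2.2] <;>
      simp [x', mγ]
  have res : ∀ w w' : G → M2 F, (∀ u : U, w u 0 1 = β u) → (∀ u : U, w' u 1 0 = γ u) →
      rs V (fun g k => BB 0 (w g) (act rb g (w' k))) = cup b c := fun w w' a a' => by
    funext v v'
    show BB 0 (w v) (act rb v (w' v')) = b v * c v'
    rw [BB0, (act_in h0 (le v.2) _).2.2.2, th_V h v.2, inv_one, one_mul, a ⟨v, le v.2⟩,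
      a' ⟨v', le v'.2⟩, rβ v _ rfl, rγ v' _ rfl]
  rcases h.idx with hU | hU
  · have m : ∀ g, g ∈ U := fun g => hU ▸ Subgroup.mem_top g
    have ct : Continuous fun g => (⟨g, m g⟩ : U) := continuous_id.subtype_mk _
    refine ⟨fun g => x ⟨g, m g⟩, ⟨lx.comp_continuous ct, fun g => by simp [x],
      fun g k => cx ⟨g, m g⟩ ⟨k, m k⟩⟩, fun g => x' ⟨g, m g⟩, ⟨lx'.comp_continuous ct,
      fun g => by simp [x'], fun g k => cx' ⟨g, m g⟩ ⟨k, m k⟩⟩, fun g => by simp [x, x'], ?_⟩
    rintro ⟨z, lz, hz⟩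
    refine bc ⟨fun v => z v, lz.comp_continuous continuous_subtype_val, fun v v' => ?_⟩
    rw [← res (fun g => x ⟨g, m g⟩) (fun g => x' ⟨g, m g⟩) (fun u => by simp [x])
      fun u => by simp [x']]
    show z (v * v') = _
    rw [hz, Pi.add_apply, Pi.add_apply, bil, bil, eps, (h0.dg _ (m v)).1, ← act_apply, ← act_apply,
      Matrix.mul_apply, Matrix.mul_apply, Fin.sum_univ_two, Fin.sum_univ_two, rs, BB0]
    simp [x, x']
  · obtain ⟨e, he, hUe⟩ := exists_e h.opU hU
    obtain ⟨σ, hσ⟩ : ∃ σ, σ ∉ U := by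
      by_contra k
      push Not at k
      rw [(Subgroup.eq_top_iff' U).2 k, Subgroup.index_top] at hU
      exact absurd hU (by norm_num)
    have eσ : e σ = 1 := (z2 _).resolve_left fun k => hσ ((hUe σ).2 k)
    obtain ⟨w, hw, dw, rw1⟩ := corz h0 he eσ hUe x lx cx fun u => by simp [x]
    obtain ⟨w', hw', dw', rw2⟩ := corz h0 he eσ hUe x' lx' cx' fun u => by simp [x']
    have hd : ∀ g, w g 0 0 = 0 ∧ w g 1 1 = 0 ∧ w' g 0 0 = 0 ∧ w' g 1 1 = 0 := fun g =>
      ⟨(dw g).1, (dw g).2, dw' g⟩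
    refine ⟨w, hw, w', hw', hd, fun hp => ?_⟩
    set y : G → G → F := fun g k => BB 0 (w g) (act rb g (w' k)) with hy
    have cy : cor e σ y ∈ Cob F G := by
      have := sub_mem hp (polar h0 he eσ hUe hw hw' hd)
      rwa [sub_sub_cancel] at this
    have ry : rs V y = cup b c := res w w' (fun u => by
      obtain ⟨u', k⟩ := rw1 u
      rw [k, Matrix.add_apply, (act_out h0 hσ _).2.2.1]
      simp [x]) fun u => by
      obtain ⟨u', k⟩ := rw2 u
      rw [k, Matrix.add_apply, (act_out h0 hσ _).2.2.2]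
      simp [x']
    obtain ⟨x0, hx0, x00, z, lz, hz⟩ := exists_x hc nG he fun k => by
      rw [k] at eσ
      exact zero_ne_one eσ
    obtain ⟨⟨a, ha, xa⟩, -⟩ := nG x0 hx0 x00
    have upH : ∀ a ∈ Hm (ZMod 2) G, (fun g => up F (a g)) ∈ Hm F G := fun a ha =>
      ⟨ha.1.comp _, fun g k => by beta_reduce; rw [ha.2, map_add]⟩
    set s : G → G → F := cup (fun g => up F (z g)) fun g => up F (a g) with hs
    have cs : cor e σ s ∉ Cob F G := fun k => xa (s0 F G _ (by
      have := sub_mem k (proj he eσ (z := fun g => up F (z g)) (lz.comp (up F)) (upH x0 hx0) (upH a ha) fun g k => by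
        show up F (z (g * k)) = up F (z g) + up F (z k) + _
        rw [hz, map_add, map_add, cup, map_mul])
      rw [sub_sub_cancel] at this
      simp only [cup, map_mul]
      exact this))
    have zU : ∀ g ∈ U, ∀ k, z (g * k) = z g + z k := fun g hg k => by
      rw [hz, cup, (hUe g).1 hg, zero_mul, add_zero]
    have zs : IsZ2 (rs U s) := ⟨((lz.comp (up F)).comp_continuous
      (continuous_subtype_val.comp continuous_fst)).mul ((ha.1.comp (up F)).comp_continuous
      (continuous_subtype_val.comp continuous_snd)), fun g k l => by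
        simp only [rs, hs, cup, Subgroup.coe_mul, zU g g.2, ha.2, map_add]
        ring⟩
    have zy : ∀ l : F, IsZ2 (rs U (y - l • s)) := fun l => ⟨(((hw.1.comp_continuous
      (continuous_subtype_val.comp continuous_fst)).comp₂ (lc_act h0.opn
        (continuous_subtype_val.comp continuous_fst) (hw'.1.comp_continuous
          (continuous_subtype_val.comp continuous_snd))) fun X Y => BB 0 X Y).sub
      (zs.1.comp (l * ·))), fun g k j => by
        have q := zs.2 g k j
        have q' := BB_act h0 hUe 0 g (w k) (act rb k (w' j))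
        rw [(hUe g).1 g.2, add_zero] at q'
        have c1 : ∀ g k, w (g * k) = w g + act rb g (w k) := hw.2.2
        have c2 : ∀ g k, w' (g * k) = w' g + act rb g (w' k) := hw'.2.2
        simp only [rs, Pi.sub_apply, Pi.smul_apply, smul_eq_mul, hy, Subgroup.coe_mul, c1, c2,
          act_mul, map_add, AddMonoidHom.add_apply] at q ⊢
        linear_combination -q' - l * q⟩
    have sV : rs V s ∉ Cob F V := fun k => cs (cor_cob he eσ hUe (odd' hO h.opV h.odd zs k))
    obtain ⟨l, hl⟩ := s2 F V nV b hb.1 c hc'.1 (fun v => up F (z v))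
      ⟨(lz.comp (up F)).comp_continuous continuous_subtype_val, fun v v' => by
        beta_reduce
        rw [Subgroup.coe_mul, zU _ (le v.2), map_add]⟩ (fun v => up F (a v))
      ⟨(ha.1.comp (up F)).comp_continuous continuous_subtype_val, fun v v' => by
        beta_reduce
        rw [Subgroup.coe_mul, ha.2, map_add]⟩ sV
    have l0 : l ≠ 0 := fun k => bc (by simpa only [k, zero_smul, sub_zero] using hl)
    have k1 := cor_cob he eσ hUe (odd' hO h.opV h.odd (zy l) (by rw [← ry] at hl; exact hl))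
    rw [cor_sub] at k1
    have k2 := sub_mem cy k1
    rw [sub_sub_cancel] at k2
    exact cs ((Submodule.smul_mem_iff _ l0).1 k2)

end Vale.Agent.P022D.L2c
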