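import Vale.Agent.P022D.L2c.Defs

/-!
# P022, block L2c: the symbols span a line; duality of eigenspaces
-/

set_option linter.all false

noncomputable section

namespace Vale.Agent.P022D.L2c

namespace Sym

variable {F : Type} [Field F] [CharP F 2] {X : Type} [Group X] [TopologicalSpace X]

theorem z2 (u : ZMod 2) : u = 0 ∨ u = 1 := by
  revert u
  decide

theorem lin (l : F →+ ZMod 2) (y : F) (u : ZMod 2) : l (y * up F u) = l y * u := by
  rcases z2 u with rfl | rfl
  · rw [map_zero, mul_zero, map_zero, mul_zero]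
  · rw [map_one, mul_one, mul_one]

theorem ex_fun (y : F) (hy : y ≠ 0) : ∃ l : F →+ ZMod 2, l y = 1 := by
  letI : Algebra (ZMod 2) F := ZMod.algebra F 2
  have := (Module.forall_dual_apply_eq_zero_iff (ZMod 2) y).not.2 hy
  obtain ⟨φ, hφ⟩ := not_forall.1 this
  exact ⟨φ.toAddMonoidHom, (z2 _).resolve_left hφ⟩

theorem ex_bas [Finite F] : ∃ (n : ℕ) (e : Fin n → F) (l : Fin n → F →+ ZMod 2),
    ∀ y, y = ∑ i, e i * up F (l i y) := by
  letI : Algebra (ZMod 2) F := ZMod.algebra F 2
  let B := Module.finBasis (ZMod 2) F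
  refine ⟨_, B, fun i => (B.coord i).toAddMonoidHom, fun y => ?_⟩
  refine (B.sum_repr y).symm.trans (Finset.sum_congr rfl fun i _ => ?_)
  show B.repr y i • B i = B i * up F (B.repr y i)
  rcases z2 (B.repr y i) with h | h
  · rw [h, zero_smul, map_zero, mul_zero]
  · rw [h, one_smul, map_one, mul_one]

theorem cob_map {K : Type} [Field K] {L : Type} [Field L] (l : K →+ L) {f : X → X → K}
    (h : f ∈ Cob K X) : (fun x y => l (f x y)) ∈ Cob L X := by
  obtain ⟨z, hz, h⟩ := h
  exact ⟨fun x => l (z x), hz.comp l, fun x y => by simp only [h, map_add]⟩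

theorem hm_map {K : Type} [Field K] {L : Type} [Field L] (l : K →+ L) {b : X → K}
    (h : b ∈ Hm K X) : (fun x => l (b x)) ∈ Hm L X :=
  ⟨h.1.comp l, fun x y => by simp only [h.2, map_add]⟩

theorem cob_up {f : X → X → ZMod 2} (h : f ∈ Cob (ZMod 2) X) :
    (fun x y => up F (f x y)) ∈ Cob F X := cob_map (up F).toAddMonoidHom h

theorem symm {K : Type} [Field K] {a b : X → K} (ha : a ∈ Hm K X) (hb : b ∈ Hm K X) :
    cup a b + cup b a ∈ Cob K X :=
  ⟨a * b, ha.1.mul hb.1, fun x y => by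
    simp only [Pi.mul_apply, Pi.add_apply, cup, ha.2, hb.2]; ring⟩

theorem cup_add {K : Type} [Field K] (a b c : X → K) : cup a (b + c) = cup a b + cup a c := by
  funext x y
  simp only [cup, Pi.add_apply, mul_add]

theorem cup_ne {K : Type} [Field K] {a b : X → K} (h : cup a b ∉ Cob K X) : a ≠ 0 := by
  rintro rfl
  refine h ?_
  have : cup (0 : X → K) b = 0 := by
    funext x y
    simp only [cup, Pi.zero_apply, zero_mul]
  rw [this]
  exact zero_mem _

theorem tr {f g h : X → X → ZMod 2} (a : f + g ∈ Cob (ZMod 2) X) (b : g + h ∈ Cob (ZMod 2) X) :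
    f + h ∈ Cob (ZMod 2) X := by
  have e : f + h = (f + g) + (g + h) := by
    funext x y
    simp only [Pi.add_apply]
    generalize f x y = p
    generalize g x y = q
    generalize h x y = r
    revert p q r
    decide
  rw [e]
  exact add_mem a b

/-- all non zero symbols agree -/
theorem agree (hN : NI X) {a b a' b' : X → ZMod 2} (ha : a ∈ Hm (ZMod 2) X)
    (hb : b ∈ Hm (ZMod 2) X) (ha' : a' ∈ Hm (ZMod 2) X) (hb' : b' ∈ Hm (ZMod 2) X)
    (h : cup a b ∉ Cob (ZMod 2) X) (h' : cup a' b' ∉ Cob (ZMod 2) X) :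
    cup a b + cup a' b' ∈ Cob (ZMod 2) X := by
  obtain ⟨c, hc, h1, h2⟩ : ∃ c ∈ Hm (ZMod 2) X, cup a c ∉ Cob (ZMod 2) X ∧
      cup a' c ∉ Cob (ZMod 2) X := by
    by_cases k : cup a' b ∈ Cob (ZMod 2) X
    · by_cases k' : cup a b' ∈ Cob (ZMod 2) X
      · refine ⟨b + b', add_mem hb hb', ?_, ?_⟩
        · rw [cup_add]
          exact fun m => h ((Submodule.add_mem_iff_left _ k').1 m)
        · rw [cup_add]
          exact fun m => h' ((Submodule.add_mem_iff_right _ k).1 m)
      · exact ⟨b', hb', k', h'⟩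
    · exact ⟨b, hb, h, k⟩
  have h3 : cup c a ∉ Cob (ZMod 2) X := fun m =>
    h1 ((Submodule.add_mem_iff_left _ m).1 (symm ha hc))
  have h4 : cup c a' ∉ Cob (ZMod 2) X := fun m =>
    h2 ((Submodule.add_mem_iff_left _ m).1 (symm ha' hc))
  have s1 := (hN a ha (cup_ne h)).2 b hb c hc h h1
  have s2 := (hN c hc (cup_ne h3)).2 a ha a' ha' h3 h4
  have s3 := (hN a' ha' (cup_ne h')).2 c hc b' hb' h2 h'
  rw [cup_add] at s1 s2 s3
  exact tr (tr (tr (tr s1 (symm ha hc)) s2) (symm hc ha')) s3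

theorem up_sub {f g : X → X → ZMod 2} (h : f + g ∈ Cob (ZMod 2) X) :
    (fun x y => up F (f x y)) - (fun x y => up F (g x y)) ∈ Cob F X := by
  have e : (fun x y => up F (f x y)) - (fun x y => up F (g x y)) =
      fun x y => up F ((f + g) x y) := by
    funext x y
    simp only [Pi.sub_apply, Pi.add_apply, map_add, CharTwo.sub_eq_add]
  rw [e]
  exact cob_up h

/-- reduction to the symbols with values in the prime field -/
theorem ind [Finite F] (M : Submodule F (X → X → F))
    (h : ∀ a ∈ Hm (ZMod 2) X, ∀ c ∈ Hm (ZMod 2) X, (fun x y => up F (cup a c x y)) ∈ M)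
    {b c : X → F} (hb : b ∈ Hm F X) (hc : c ∈ Hm F X) : cup b c ∈ M := by
  obtain ⟨n, e, l, he⟩ := ex_bas (F := F)
  have : cup b c = ∑ i, ∑ j, (e i * e j) •
      fun x y => up F (cup (fun x => l i (b x)) (fun x => l j (c x)) x y) := by
    funext x y
    simp only [Finset.sum_apply, Pi.smul_apply, smul_eq_mul, cup, map_mul]
    calc b x * c y = (∑ i, e i * up F (l i (b x))) * ∑ j, e j * up F (l j (c y)) := by
          rw [← he, ← he]
      _ = _ := by
          rw [Finset.sum_mul_sum]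
          exact Finset.sum_congr rfl fun i _ => Finset.sum_congr rfl fun j _ => by ring
  rw [this]
  exact Submodule.sum_mem _ fun i _ => Submodule.sum_mem _ fun j _ =>
    Submodule.smul_mem _ _ (h _ (hm_map _ hb) _ (hm_map _ hc))

theorem cob_comp {K : Type} [Field K] {φ : X → X} (hc : Continuous φ)
    (hm : ∀ x y, φ (x * y) = φ x * φ y) {f : X → X → K} (h : f ∈ Cob K X) :
    (fun x y => f (φ x) (φ y)) ∈ Cob K X := by
  obtain ⟨z, hz, h⟩ := h
  exact ⟨fun x => z (φ x), hz.comp_continuous hc, fun x y => by simp only [hm, h]⟩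

theorem hm_comp {K : Type} [Field K] {φ : X → X} (hc : Continuous φ)
    (hm : ∀ x y, φ (x * y) = φ x * φ y) {b : X → K} (h : b ∈ Hm K X) :
    (fun x => b (φ x)) ∈ Hm K X :=
  ⟨h.1.comp_continuous hc, fun x y => by simp only [hm, h.2]⟩

/-- automorphisms act trivially on the symbols -/
theorem aut [Finite F] (hN : NI X) {φ ψ : X → X} (hc : Continuous φ)
    (hm : ∀ x y, φ (x * y) = φ x * φ y) (hc' : Continuous ψ)
    (hm' : ∀ x y, ψ (x * y) = ψ x * ψ y) (hi : ∀ x, φ (ψ x) = x) {b c : X → F}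
    (hb : b ∈ Hm F X) (hc₁ : c ∈ Hm F X) :
    (fun x y => cup b c (φ x) (φ y)) - cup b c ∈ Cob F X := by
  let D : (X → X → F) →ₗ[F] (X → X → F) :=
    { toFun := fun f => (fun x y => f (φ x) (φ y)) - f
      map_add' := fun f g => by
        funext x y
        simp only [Pi.sub_apply, Pi.add_apply]
        ring
      map_smul' := fun r f => by
        funext x y
        simp only [Pi.sub_apply, Pi.smul_apply, smul_eq_mul, RingHom.id_apply]
        ring }
  refine ind ((Cob F X).comap D) (fun a ha c hc₂ => ?_) hb hc₁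
  refine up_sub (f := fun x y => cup a c (φ x) (φ y)) (g := cup a c) ?_
  by_cases k : cup a c ∈ Cob (ZMod 2) X
  · exact add_mem (cob_comp hc hm k) k
  · refine agree hN (hm_comp hc hm ha) (hm_comp hc hm hc₂) ha hc₂ (fun m => k ?_) k
    have := cob_comp hc' hm' m
    simp only [cup, hi] at this
    exact this

variable {G : Type} [Group G] [TopologicalSpace G] [IsTopologicalGroup G] {V : Subgroup G}

/-- conjugation -/
def cj (hV : V.Normal) (g : G) (v : V) : V := ⟨g * v * g⁻¹, hV.conj_mem v v.2 g⟩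

theorem cj_cont (hV : V.Normal) (g : G) : Continuous (cj hV g) :=
  Continuous.subtype_mk
    ((continuous_const.mul continuous_subtype_val).mul continuous_const) _

theorem cj_mul (hV : V.Normal) (g : G) (x y : V) : cj hV g (x * y) = cj hV g x * cj hV g y :=
  Subtype.ext (by
    show g * ((x : G) * y) * g⁻¹ = g * x * g⁻¹ * (g * y * g⁻¹)
    group)

theorem cj_cj (hV : V.Normal) (g h : G) (x : V) : cj hV g (cj hV h x) = cj hV (g * h) x :=
  Subtype.ext (by
    show g * (h * (x : G) * h⁻¹) * g⁻¹ = g * h * x * (g * h)⁻¹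
    group)

theorem cj_one (hV : V.Normal) (x : V) : cj hV 1 x = x :=
  Subtype.ext (by
    show 1 * (x : G) * 1⁻¹ = x
    group)

theorem cj_in (hV : V.Normal) {K : Type} [Field K] {c : V → K} (hc : c ∈ Hm K V) {g : G}
    (hg : g ∈ V) (x : V) : c (cj hV g x) = c x := by
  have e : cj hV g x * ⟨g, hg⟩ = ⟨g, hg⟩ * x := Subtype.ext (by
    show g * (x : G) * g⁻¹ * g = g * x
    group)
  have := congrArg c e
  rw [hc.2, hc.2, add_comm] at this
  exact add_left_cancel this

end Sym

open Sym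

theorem sym0 : SYM0 := by
  intro F _ _ X _ _ f h
  obtain ⟨l, hl⟩ := ex_fun (1 : F) one_ne_zero
  have := cob_map l h
  have e : (fun x y => l (up F (f x y))) = f := by
    funext x y
    rw [← one_mul (up F (f x y)), lin, hl, one_mul]
  rwa [e] at this

theorem sym2 : SYM2 := by
  intro F _ _ _ X _ _ hN b hb c hc b' hb' c' hc' h
  by_cases k : ∀ a ∈ Hm (ZMod 2) X, ∀ c ∈ Hm (ZMod 2) X, cup a c ∈ Cob (ZMod 2) X
  · exact absurd (ind (Cob F X) (fun a ha c hc => cob_up (k a ha c hc)) hb' hc') h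
  simp only [not_forall] at k
  obtain ⟨a₀, ha₀, c₀, hc₀, k⟩ := k
  have key : ∀ b ∈ Hm F X, ∀ c ∈ Hm F X, cup b c ∈
      Cob F X ⊔ Submodule.span F {fun x y => up F (cup a₀ c₀ x y)} := by
    intro b hb c hc
    refine ind _ (fun a ha c hc => ?_) hb hc
    by_cases k' : cup a c ∈ Cob (ZMod 2) X
    · exact Submodule.mem_sup_left (cob_up k')
    · rw [← sub_add_cancel (fun x y => up F (cup a c x y)) fun x y => up F (cup a₀ c₀ x y)]
      exact Submodule.add_mem_sup (up_sub (agree hN ha hc ha₀ hc₀ k' k))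
        (Submodule.mem_span_singleton_self _)
  obtain ⟨y, hy, s, hs, e⟩ := Submodule.mem_sup.1 (key b hb c hc)
  obtain ⟨y', hy', s', hs', e'⟩ := Submodule.mem_sup.1 (key b' hb' c' hc')
  obtain ⟨l, rfl⟩ := Submodule.mem_span_singleton.1 hs
  obtain ⟨l', rfl⟩ := Submodule.mem_span_singleton.1 hs'
  have hl : l' ≠ 0 := by
    rintro rfl
    rw [zero_smul, add_zero] at e'
    exact h (e' ▸ hy')
  refine ⟨l / l', ?_⟩
  rw [← e, ← e', smul_add, smul_smul, div_mul_cancel₀ _ hl, add_sub_add_right_eq_sub]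
  exact sub_mem hy (Submodule.smul_mem _ _ hy')

theorem sym1 : SYM1 := by
  intro F _ _ _ G _ _ _ V hV hN t x m hm ht hx b hb h0
  have hx0 : x ≠ 0 := by
    rintro rfl
    rw [zero_pow hm.pos.ne'] at hx
    exact zero_ne_one hx
  obtain ⟨v₀, hv₀⟩ := Function.ne_iff.1 h0
  obtain ⟨l, hl⟩ := ex_fun (b v₀) hv₀
  obtain ⟨c₀, hc₀, k⟩ := (hN _ (hm_map l hb.1) (Function.ne_iff.2 ⟨v₀, by
    show l (b v₀) ≠ 0
    rw [hl]
    exact one_ne_zero⟩)).1
  have hc₁ : (fun v => up F (c₀ v)) ∈ Hm F V := hm_map (up F).toAddMonoidHom hc₀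
  set c₁ : V → F := fun v => up F (c₀ v) with hc₁d
  have k₁ : cup b c₁ ∉ Cob F V := fun h => k (by
    have := cob_map l h
    simp only [cup, hc₁d, lin] at this
    exact this)
  have hbi : ∀ (i : ℕ) v, b (cj hV (t ^ i) v) = x ^ i * b v := by
    intro i
    induction i with
    | zero => intro v; rw [pow_zero, cj_one, pow_zero, one_mul]
    | succ i ih =>
      intro v
      rw [pow_succ, ← cj_cj, ih, hb.2 v (cj hV t v) rfl, pow_succ, mul_assoc]
  refine ⟨∑ i ∈ Finset.range m, x ^ i • fun v => c₁ (cj hV (t ^ i) v), ⟨?_, fun v v' e => ?_⟩,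
    fun h => k₁ ?_⟩
  · exact Submodule.sum_mem _ fun i _ => Submodule.smul_mem _ _
      (hm_comp (cj_cont hV _) (cj_mul hV _) hc₁)
  · have e' : v' = cj hV t v := Subtype.ext e
    simp only [Finset.sum_apply, Pi.smul_apply, smul_eq_mul, e', cj_cj, ← pow_succ]
    have a := Finset.sum_range_succ' (fun i => x ^ i * c₁ (cj hV (t ^ i) v)) m
    rw [Finset.sum_range_succ, hx, cj_in hV hc₁ ht, pow_zero, pow_zero, cj_one,
      add_left_inj] at a
    rw [a, Finset.mul_sum]
    refine Finset.sum_congr rfl fun i _ => ?_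
    rw [pow_succ x, mul_comm (x ^ i) x, mul_assoc, inv_mul_cancel_left₀ hx0]
  · have e : cup b (∑ i ∈ Finset.range m, x ^ i • fun v => c₁ (cj hV (t ^ i) v)) =
        ∑ i ∈ Finset.range m,
          ((fun v w => cup b c₁ (cj hV (t ^ i) v) (cj hV (t ^ i) w)) - cup b c₁) + cup b c₁ := by
      funext v w
      obtain ⟨j, rfl⟩ := hm
      simp only [Finset.sum_apply, Pi.smul_apply, smul_eq_mul, cup, Pi.add_apply, Pi.sub_apply,
        hbi, Finset.mul_sum]
      rw [Finset.sum_sub_distrib, Finset.sum_const, Finset.card_range, nsmul_eq_mul]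
      have h2 : ((2 * j + 1 : ℕ) : F) = 1 := by
        rw [Nat.cast_add, Nat.cast_mul, Nat.cast_one, CharP.cast_eq_zero F 2, zero_mul, zero_add]
      rw [h2, one_mul, sub_add_cancel]
      exact Finset.sum_congr rfl fun i _ => by ring
    rw [e] at h
    refine (Submodule.add_mem_iff_right _ (Submodule.sum_mem _ fun i _ => ?_)).1 h
    exact aut hN (cj_cont hV _) (cj_mul hV _) (cj_cont hV (t ^ i)⁻¹) (cj_mul hV _)
      (fun v => by rw [cj_cj, mul_inv_cancel, cj_one]) hb.1 hc₁

end Vale.Agent.P022D.L2c
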