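import Vale.Agent.P022D.L2c.Defs

/-!
# P022, block L2c: seven coordinates on the tangent space
-/

set_option linter.all false

noncomputable section

namespace Vale.Agent.P022D.L2c

theorem pick {F I : Type} [Field F] [Nonempty I] (n : ℕ) : ∀ (V : Type) [AddCommGroup V]
    [Module F V] [Module.Finite F V], Module.finrank F V ≤ n → ∀ ev : I → Module.Dual F V,
    (∀ v, (∀ i, ev i v = 0) → v = 0) → ∃ g : Fin n → I, ∀ v, (∀ j, ev (g j) v = 0) → v = 0 := by
  induction n with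
  | zero =>
    intro V _ _ _ h ev _
    haveI : Subsingleton V := Module.finrank_zero_iff.1 (Nat.le_zero.1 h)
    exact ⟨Fin.elim0, fun v _ => Subsingleton.elim _ _⟩
  | succ n ih =>
    intro V _ _ _ h ev H
    by_cases h0 : ∀ i, ev i = 0
    · exact ⟨fun _ => Classical.arbitrary I, fun v _ => H v fun i => by rw [h0 i]; rfl⟩
    push Not at h0
    obtain ⟨i, hi⟩ := h0
    have h1 : Module.finrank F (LinearMap.ker (ev i)) < Module.finrank F V :=
      Submodule.finrank_lt fun e => hi (LinearMap.ker_eq_top.1 e)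
    obtain ⟨g, hg⟩ := ih (LinearMap.ker (ev i)) (by omega)
      (fun k => (ev k).comp (LinearMap.ker (ev i)).subtype)
      (fun v hv => Subtype.ext (H v.1 hv))
    refine ⟨Fin.cons i g, fun v hv => ?_⟩
    exact congrArg Subtype.val (hg ⟨v, hv 0⟩ fun j => hv j.succ)

theorem pickS {F I : Type} [Field F] [Nonempty I] (n : ℕ) (hn : n ≠ 0) (S : Submodule F (I → F))
    (h : Module.finrank F S = n) : ∃ g : Fin n → I, ∀ b ∈ S, (∀ j, b (g j) = 0) → b = 0 := by
  haveI : Module.Finite F S := Module.finite_of_finrank_pos (by omega)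
  obtain ⟨g, hg⟩ := pick n S h.le (fun i => (LinearMap.proj i).comp S.subtype)
    fun v hv => Subtype.ext (funext hv)
  exact ⟨g, fun b hb h0 => congrArg Subtype.val (hg ⟨b, hb⟩ h0)⟩

theorem pickH (F G : Type) [Field F] [CharP F 2] [Group G] [TopologicalSpace G]
    (h : Nat.card (Hm (ZMod 2) G) = 8) :
    ∃ g : Fin 3 → G, ∀ b ∈ Hm F G, (∀ j, b (g j) = 0) → b = 0 := by
  haveI : Finite (Hm (ZMod 2) G) := Nat.finite_of_card_ne_zero (by rw [h]; norm_num)
  haveI : Module.Finite (ZMod 2) (Hm (ZMod 2) G) := Module.Finite.of_finite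
  have hr : Module.finrank (ZMod 2) (Hm (ZMod 2) G) = 3 := by
    have h2 := Module.natCard_eq_pow_finrank (K := ZMod 2) (V := Hm (ZMod 2) G)
    rw [h, Nat.card_zmod] at h2
    exact (Nat.pow_right_injective (le_refl 2) (show 2 ^ 3 = _ from h2)).symm
  obtain ⟨g, hg⟩ := pickS 3 (by norm_num) _ hr
  refine ⟨g, fun b hb h0 => funext fun x => ?_⟩
  letI : Algebra (ZMod 2) F := ZMod.algebra F 2
  show b x = 0
  rw [← Module.forall_dual_apply_eq_zero_iff (ZMod 2)]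
  intro l
  exact congrFun (hg (fun y => l (b y)) ⟨hb.1.comp l, fun y z =>
    (congrArg l (hb.2 y z)).trans (map_add l _ _)⟩
    fun j => by rw [h0, map_zero]) x

section

variable {F G : Type} [Field F] [Group G] [TopologicalSpace G] {rb : G →* M2 F}
  {U V : Subgroup G} {t : G}

theorem inv_ent (rb : G →* M2 F) (g : G) (i j : Fin 2) :
    rb g i 0 * rb g⁻¹ 0 j + rb g i 1 * rb g⁻¹ 1 j = (1 : M2 F) i j := by
  rw [← map_one rb, ← mul_inv_cancel g, map_mul, Matrix.mul_apply, Fin.sum_univ_two]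

theorem cj_U (D : Dih0 rb U) {g : G} (hg : g ∈ U) (X : M2 F) :
    (rb g * X * rb g⁻¹) 0 0 = X 0 0 ∧ (rb g * X * rb g⁻¹) 0 1 = th rb g * X 0 1 ∧
      th rb g * (rb g * X * rb g⁻¹) 1 0 = X 1 0 ∧ th rb g ≠ 0 := by
  obtain ⟨a, b⟩ := D.dg g hg
  obtain ⟨c, d⟩ := D.dg g⁻¹ (U.inv_mem hg)
  have e0 := inv_ent rb g 0 0
  have e1 := inv_ent rb g 1 1
  simp only [a, b, c, d, mul_zero, add_zero, zero_add, Matrix.one_apply_eq] at e0 e1
  simp only [Matrix.mul_apply, Fin.sum_univ_two, a, b, c, d, th, mul_zero, zero_mul, add_zero,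
    zero_add]
  refine ⟨by linear_combination X 0 0 * e0, by ring, by
    linear_combination (X 1 0 * rb g 1 1 * rb g⁻¹ 1 1) * e0 + X 1 0 * e1,
    mul_ne_zero (left_ne_zero_of_mul_eq_one e0) (right_ne_zero_of_mul_eq_one e1)⟩

theorem cj_N (D : Dih0 rb U) {g : G} (hg : g ∉ U) (X : M2 F) :
    (rb g * X * rb g⁻¹) 0 0 = X 1 1 ∧ (rb g * X * rb g⁻¹) 0 1 = rb g 0 1 * rb g⁻¹ 0 1 * X 1 0 ∧
      rb g 0 1 * rb g⁻¹ 0 1 ≠ 0 := by
  obtain ⟨a, b⟩ := D.ad g hg
  obtain ⟨c, d⟩ := D.ad g⁻¹ fun h => hg (by simpa using U.inv_mem h)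
  have e0 := inv_ent rb g 0 0
  have e1 := inv_ent rb g 1 1
  simp only [a, b, c, d, mul_zero, add_zero, zero_add, Matrix.one_apply_eq] at e0 e1
  simp only [Matrix.mul_apply, Fin.sum_univ_two, a, b, c, d, mul_zero, zero_mul, add_zero,
    zero_add]
  exact ⟨by linear_combination X 1 1 * e0, by ring,
    mul_ne_zero (left_ne_zero_of_mul_eq_one e0) (right_ne_zero_of_mul_eq_one e1)⟩

theorem th_V (D : Dih rb U V t) {v : G} (hv : v ∈ V) : th rb v = 1 := by
  obtain ⟨h1, h2⟩ := (D.sc v).1 hv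
  have e1 := inv_ent rb v 1 1
  rw [(D.dg v h1).2, zero_mul, zero_add, Matrix.one_apply_eq] at e1
  rw [th, h2, e1]

theorem th_mul (D : Dih0 rb U) {g h : G} (hg : g ∈ U) (hh : h ∈ U) :
    th rb (g * h) = th rb g * th rb h := by
  simp only [th, mul_inv_rev, map_mul, Matrix.mul_apply, Fin.sum_univ_two, (D.dg g hg).1,
    (D.dg _ (U.inv_mem hh)).2, zero_mul, add_zero, zero_add]
  ring

theorem tr11 [CharP F 2] {c : G → M2 F} (hc : c ∈ Zad rb) (g : G) : c g 1 1 = c g 0 0 := by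
  have := hc.2.1 g
  rw [Matrix.trace_fin_two] at this
  have h2 : (2 : F) = 0 := by exact_mod_cast CharP.cast_eq_zero F 2
  linear_combination this - c g 0 0 * h2

theorem lc_ent {c : G → M2 F} (hc : c ∈ Zad rb) (i j : Fin 2) :
    IsLocallyConstant fun g => c g i j := hc.1.comp fun X => X i j

theorem z00 [CharP F 2] (D : Dih0 rb U) {c : G → M2 F} (hc : c ∈ Zad rb) :
    (fun g => c g 0 0) ∈ Hm F G := by
  refine ⟨lc_ent hc 0 0, fun x y => ?_⟩
  show c (x * y) 0 0 = c x 0 0 + c y 0 0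
  rw [hc.2.2, Matrix.add_apply]
  by_cases hx : x ∈ U
  · rw [(cj_U D hx _).1]
  · rw [(cj_N D hx _).1, tr11 hc]

theorem cj_V (D : Dih rb U V t) {v : G} (hv : v ∈ V) (X : M2 F) :
    (rb v * X * rb v⁻¹) 0 1 = X 0 1 ∧ (rb v * X * rb v⁻¹) 1 0 = X 1 0 := by
  have h := cj_U D.toDih0 ((D.sc v).1 hv).1 X
  rw [th_V D hv, one_mul, one_mul] at h
  exact ⟨h.2.1, h.2.2.1⟩

theorem zcj (D : Dih rb U V t) {c : G → M2 F} (hc : c ∈ Zad rb) {v' s v : G} (hv : v' ∈ V)
    (h : v' = s * v * s⁻¹) : c v' 0 1 = (rb s * c v * rb s⁻¹) 0 1 ∧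
      c v' 1 0 = (rb s * c v * rb s⁻¹) 1 0 := by
  have e : c v' + rb v' * c s * rb v'⁻¹ = c s + rb s * c v * rb s⁻¹ := by
    rw [← hc.2.2, ← hc.2.2, h, inv_mul_cancel_right]
  have e1 := congrFun (congrFun e 0) 1
  have e2 := congrFun (congrFun e 1) 0
  rw [Matrix.add_apply, Matrix.add_apply] at e1 e2
  rw [(cj_V D hv _).1] at e1
  rw [(cj_V D hv _).2] at e2
  exact ⟨by linear_combination e1, by linear_combination e2⟩

theorem z01 (D : Dih rb U V t) {c : G → M2 F} (hc : c ∈ Zad rb) :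
    (fun v : V => c v 0 1) ∈ Eg F V t (th rb t) ∧ (fun v : V => c v 1 0) ∈ Eg F V t (th rb t)⁻¹ := by
  refine ⟨⟨⟨(lc_ent hc 0 1).comp_continuous continuous_subtype_val, fun x y => ?_⟩,
    fun v v' h => ?_⟩, ⟨⟨(lc_ent hc 1 0).comp_continuous continuous_subtype_val, fun x y => ?_⟩,
    fun v v' h => ?_⟩⟩
  · show c (x * y) 0 1 = c x 0 1 + c y 0 1
    rw [hc.2.2, Matrix.add_apply, (cj_V D x.2 _).1]
  · show c v' 0 1 = _ * c v 0 1
    rw [(zcj D hc v'.2 h).1, (cj_U D.toDih0 D.tU _).2.1]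
  · show c (x * y) 1 0 = c x 1 0 + c y 1 0
    rw [hc.2.2, Matrix.add_apply, (cj_V D x.2 _).2]
  · show c v' 1 0 = _ * c v 1 0
    have := cj_U D.toDih0 D.tU (c v)
    rw [(zcj D hc v'.2 h).2, ← this.2.2.1, inv_mul_cancel_left₀ this.2.2.2]

theorem zinj [CharP F 2] (D : Dih rb U V t) {c : G → M2 F} (hc : c ∈ Zad rb)
    (h0 : ∀ g, c g 0 0 = 0) (h1 : ∀ v ∈ V, c v 0 1 = 0) (h2 : ∀ v ∈ V, c v 1 0 = 0)
    (h3 : c t 0 1 = 0) (h4 : c t 1 0 = 0) : c = 0 := by
  have ez : ∀ g, c g 0 1 = 0 → c g 1 0 = 0 → c g = 0 := fun g a b => by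
    ext i j
    fin_cases i <;> fin_cases j
    exacts [h0 g, a, b, (tr11 hc g).trans (h0 g)]
  have mz : ∀ g h, c g = 0 → c h = 0 → c (g * h) = 0 := fun g h a b => by
    rw [hc.2.2, a, b, mul_zero, zero_mul, add_zero]
  have vz : ∀ v ∈ V, c v = 0 := fun v hv => ez v (h1 v hv) (h2 v hv)
  have tz : ∀ i : ℕ, c (t ^ i) = 0 := fun i => by
    induction i with
    | zero => rw [pow_zero]; exact vz 1 V.one_mem
    | succ i ih => rw [pow_succ]; exact mz _ _ ih (ez t h3 h4)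
  have uz : ∀ u ∈ U, c u = 0 := fun u hu => by
    obtain ⟨i, hi⟩ := D.gen u hu
    have := mz _ _ (tz i) (vz _ hi)
    rwa [mul_inv_cancel_left] at this
  funext s
  by_cases hs : s ∈ U
  · exact uz s hs
  have i1 := D.inv s hs
  have i2 : s * t * s⁻¹ ∈ U := by
    simpa using U.mul_mem ((D.sc _).1 i1).1 (U.inv_mem D.tU)
  have n1 : th rb (s * t * s⁻¹) ≠ 1 := fun e => D.ne (by
    have := th_V D i1
    rwa [th_mul D.toDih0 i2 D.tU, e, one_mul] at this)
  have e : rb (s * t * s⁻¹) * c s * rb (s * t * s⁻¹)⁻¹ = c s := by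
    have a := hc.2.2 (s * t * s⁻¹) s
    rw [inv_mul_cancel_right, hc.2.2 s t, uz t D.tU, uz _ i2, mul_zero, zero_mul, add_zero,
      zero_add] at a
    exact a.symm
  have k := cj_U D.toDih0 i2 (c s)
  rw [e] at k
  refine ez s ?_ ?_
  · exact (mul_eq_zero.1 (show (th rb (s * t * s⁻¹) - 1) * c s 0 1 = 0 by
      linear_combination -k.2.1)).resolve_left (sub_ne_zero.2 n1)
  · exact (mul_eq_zero.1 (show (th rb (s * t * s⁻¹) - 1) * c s 1 0 = 0 by
      linear_combination k.2.2.1)).resolve_left (sub_ne_zero.2 n1)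

end

theorem tan : TAN := by
  intro F _ _ _ G _ _ _ rb U V t D h8 e1 e2
  obtain ⟨g, hg⟩ := pickH F G h8
  rcases D.idx with k | k
  · rw [k, Subgroup.index_top] at e1 e2
    obtain ⟨v, hv⟩ := pickS 1 one_ne_zero _ e1
    obtain ⟨w, hw⟩ := pickS 1 one_ne_zero _ e2
    refine ⟨![g 0, g 1, g 2, v 0, w 0, t, t],
      ![(0, 0), (0, 0), (0, 0), (0, 1), (1, 0), (0, 1), (1, 0)], fun c hc h => ?_⟩
    refine zinj D hc (congrFun (hg _ (z00 D.toDih0 hc) fun j => ?_))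
      (fun x hx => congrFun (hv _ (z01 D hc).1 fun j => ?_) ⟨x, hx⟩)
      (fun x hx => congrFun (hw _ (z01 D hc).2 fun j => ?_) ⟨x, hx⟩) (h 5) (h 6)
    · fin_cases j
      exacts [h 0, h 1, h 2]
    · fin_cases j
      exact h 3
    · fin_cases j
      exact h 4
  · rw [k] at e1
    obtain ⟨v, hv⟩ := pickS 2 two_ne_zero _ e1
    refine ⟨![g 0, g 1, g 2, v 0, v 1, t, t],
      ![(0, 0), (0, 0), (0, 0), (0, 1), (0, 1), (0, 1), (1, 0)], fun c hc h => ?_⟩
    have h1 : ∀ x ∈ V, c x 0 1 = 0 := fun x hx => congrFun (hv _ (z01 D hc).1 fun j => by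
      fin_cases j
      exacts [h 3, h 4]) ⟨x, hx⟩
    obtain ⟨s, hs⟩ : ∃ s, s ∉ U := by
      by_contra hn
      push Not at hn
      rw [(Subgroup.eq_top_iff' U).2 hn, Subgroup.index_top] at k
      exact absurd k (by norm_num)
    refine zinj D hc (congrFun (hg _ (z00 D.toDih0 hc) fun j => ?_)) h1 (fun x hx => ?_) (h 5) (h 6)
    · fin_cases j
      exacts [h 0, h 1, h 2]
    · have m := D.nrm.conj_mem x hx s
      have a := (zcj D hc m rfl).1
      have b := cj_N D.toDih0 hs (c x)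
      rw [h1 _ m, b.2.1] at a
      exact (mul_eq_zero.1 a.symm).resolve_left b.2.2

end Vale.Agent.P022D.L2c
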