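import Vale.Agent.P022D.L2c.Glue
import Vale.Agent.P022D.L2c.Kum
import Vale.Agent.P022D.L2c.Defs2
import Vale.Agent.P022D.L2c.Dih
import Vale.Agent.P022D.L2c.Eta
import Vale.Agent.P022D.L2c.Locu1
import Vale.Agent.P022D.L2c.Locu2
import Vale.Agent.P022D.L2c.Locu3
import Vale.Agent.P022D.L2c.Nir
import Vale.Agent.P022D.L2c.Odd
import Vale.Agent.P022D.L2c.Pol
import Vale.Agent.P022D.L2c.Sym
import Vale.Agent.P022D.L2c.Tan
import Vale.Agent.P022D.L2b.Shell
import Vale.Agent.P022D.Loc2.Uni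

/-! P022: the place 2, from the Herbrand quotient row. -/

namespace Vale.Agent.P022D.L2c

theorem cases_of (h : HERB) : L2b.CaseA ∧ L2b.CaseB :=
  cases nir dih tan (pol sym0 sym1 sym2 odd ext) sym0 (kum (locu (locu1 h) locu2 (locu3 h))) eta

theorem two2_of (h : HERB) : Loc2.Two2 := Loc2.two2 L2b.shell (cases_of h).1 (cases_of h).2

end Vale.Agent.P022D.L2c
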