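import Vale.Agent.P022D.CA.BlkDefs

/-!
# P022, block L2c (local ring at 2, the residual representation is not a twist of a unipotent
one): definitions and statements
-/

set_option linter.all false

noncomputable section

namespace Vale.Agent.P022D.L2c

open IsLocalRing MvPowerSeries

/-- `2 × 2` matrices -/
abbrev M2 (A : Type) : Type := Matrix (Fin 2) (Fin 2) A

/-- the absolute Galois group of `ℚ₂` -/
abbrev G2 : Type := Gal(AlgebraicClosure ℚ_[2] / ℚ_[2])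

section grp

variable (F : Type) [Field F] (X : Type) [Group X] [TopologicalSpace X]

/-- locally constant additive characters -/
def Hm : Submodule F (X → F) where
  carrier := {b | IsLocallyConstant b ∧ ∀ x y, b (x * y) = b x + b y}
  add_mem' {a b} ha hb := ⟨ha.1.add hb.1, fun x y => by
    rw [Pi.add_apply, Pi.add_apply, Pi.add_apply, ha.2, hb.2]; ring⟩
  zero_mem' := ⟨IsLocallyConstant.const 0, fun _ _ => (add_zero _).symm⟩
  smul_mem' c a ha := ⟨ha.1.comp (c * ·), fun x y => by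
    rw [Pi.smul_apply, Pi.smul_apply, Pi.smul_apply, ha.2, smul_add]⟩

/-- coboundaries of locally constant functions -/
def Cob : Submodule F (X → X → F) where
  carrier := {f | ∃ z : X → F, IsLocallyConstant z ∧ ∀ x y, z (x * y) = z x + z y + f x y}
  add_mem' := by
    rintro a b ⟨z, hz, h⟩ ⟨w, hw, k⟩
    refine ⟨z + w, hz.add hw, fun x y => ?_⟩
    simp only [Pi.add_apply, h, k]; ring
  zero_mem' := ⟨0, IsLocallyConstant.const 0, fun _ _ => by simp⟩
  smul_mem' := by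
    rintro c a ⟨z, hz, h⟩
    refine ⟨c • z, hz.comp (c * ·), fun x y => ?_⟩
    simp only [Pi.smul_apply, h, smul_eq_mul]; ring

variable {F X}

/-- locally constant two cocycles -/
def IsZ2 (y : X → X → F) : Prop :=
  IsLocallyConstant (fun p : X × X => y p.1 p.2) ∧
    ∀ g h k, y h k + y g (h * k) = y (g * h) k + y g h

/-- cup product -/
def cup (a b : X → F) : X → X → F := fun x y => a x * b y

/-- the embedding of `ZMod 2` -/
def up (F : Type) [Field F] [CharP F 2] : ZMod 2 →+* F := ZMod.castHom (dvd_refl 2) F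

variable (X) in
/-- the norm index theorem: the characters orthogonal to `a ≠ 0` form a subgroup of index two -/
def NI : Prop := ∀ a ∈ Hm (ZMod 2) X, a ≠ 0 →
  (∃ b ∈ Hm (ZMod 2) X, cup a b ∉ Cob (ZMod 2) X) ∧
    ∀ b ∈ Hm (ZMod 2) X, ∀ b' ∈ Hm (ZMod 2) X, cup a b ∉ Cob (ZMod 2) X →
      cup a b' ∉ Cob (ZMod 2) X → cup a (b + b') ∈ Cob (ZMod 2) X

variable (X) in
/-- the number of quadratic characters of the open subgroups -/
def RANK : Prop := Nat.card (Hm (ZMod 2) X) = 8 ∧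
  ∀ H : Subgroup X, IsOpen (H : Set X) → Nat.card (Hm (ZMod 2) H) = 2 ^ (H.index + 2)

variable (F) in
/-- the characters of `V` on which conjugation by `t` acts by `x` -/
def Eg (V : Subgroup X) (t : X) (x : F) : Submodule F (V → F) where
  carrier := {b | b ∈ Hm F V ∧ ∀ v v' : V, (v' : X) = t * v * t⁻¹ → b v' = x * b v}
  add_mem' {a b} ha hb := ⟨add_mem ha.1 hb.1, fun v v' h => by
    rw [Pi.add_apply, Pi.add_apply, ha.2 v v' h, hb.2 v v' h, mul_add]⟩
  zero_mem' := ⟨zero_mem _, fun _ _ _ => by simp⟩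
  smul_mem' c a ha := ⟨Submodule.smul_mem _ c ha.1, fun v v' h => by
    rw [Pi.smul_apply, Pi.smul_apply, ha.2 v v' h, smul_eq_mul, smul_eq_mul]; ring⟩

variable (X) in
/-- the Euler characteristic of a non trivial character of odd order of `U` with kernel `V` -/
def EUL : Prop := ∀ (F : Type) [Field F] [Finite F] [CharP F 2] (U V : Subgroup X) (t : X) (x : F),
  V.Normal → IsOpen (V : Set X) → V ≤ U → t ∈ U → (∀ u ∈ U, ∃ i : ℕ, (t ^ i)⁻¹ * u ∈ V) →
  Odd (V.relIndex U) → x ≠ 1 → x ^ V.relIndex U = 1 →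
  Module.finrank F (Eg F V t x) = U.index

variable (X) in
/-- the character `η` of `-1`; its kernel is not the rotation subgroup of a dihedral quotient -/
def ETA : Prop := ∃ η ∈ Hm (ZMod 2) X, η ≠ 0 ∧
  (∀ a ∈ Hm (ZMod 2) X, cup (η + a) a ∈ Cob (ZMod 2) X) ∧
  ∀ (U V : Subgroup X) (t σ : X), V.Normal → IsOpen (V : Set X) → V ≤ U → t ∈ U → t ∉ V →
    (∀ u ∈ U, ∃ i : ℕ, (t ^ i)⁻¹ * u ∈ V) → Odd (V.relIndex U) → U.index = 2 → σ ∉ U →
    σ * t * σ⁻¹ * t ∈ V → ¬ ∀ g, η g = 0 ↔ g ∈ U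

/-- ratio of the diagonal entries -/
def th (rb : X →* M2 F) (g : X) : F := rb g 0 0 * rb g⁻¹ 1 1

/-- `0` on diagonal, `1` on antidiagonal matrices -/
def eps (rb : X →* M2 F) (g : X) : F := rb g 0 1 * rb g⁻¹ 1 0

/-- **the hypothesis of the block**: diagonal on `U`, antidiagonal outside, not scalar on `U` -/
structure Dih0 (rb : X →* M2 F) (U : Subgroup X) : Prop where
  dg : ∀ g ∈ U, rb g 0 1 = 0 ∧ rb g 1 0 = 0
  ad : ∀ g ∉ U, rb g 0 0 = 0 ∧ rb g 1 1 = 0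
  opn : IsOpen {g | rb g = 1}
  irr : ∃ g ∈ U, rb g 0 0 ≠ rb g 1 1

/-- the same with its consequences: `V` = scalars, `t` generates `U / V` -/
structure Dih (rb : X →* M2 F) (U V : Subgroup X) (t : X) : Prop extends Dih0 rb U where
  sc : ∀ g, g ∈ V ↔ g ∈ U ∧ rb g 0 0 = rb g 1 1
  nrm : V.Normal
  opV : IsOpen (V : Set X)
  opU : IsOpen (U : Set X)
  tU : t ∈ U
  tV : t ∉ V
  gen : ∀ u ∈ U, ∃ i : ℕ, (t ^ i)⁻¹ * u ∈ V
  odd : Odd (V.relIndex U)
  ne : th rb t ≠ 1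
  pow : th rb t ^ V.relIndex U = 1
  tpow : t ^ V.relIndex U ∈ V
  idx : U = ⊤ ∨ U.index = 2
  inv : ∀ σ ∉ U, σ * t * σ⁻¹ * t ∈ V

/-- the tangent space: trace zero cocycles -/
def Zad (rb : X →* M2 F) : Submodule F (X → M2 F) where
  carrier := {c | IsLocallyConstant c ∧ (∀ g, (c g).trace = 0) ∧
    ∀ g h, c (g * h) = c g + rb g * c h * rb g⁻¹}
  add_mem' {a b} ha hb := ⟨ha.1.add hb.1, fun g => by
    rw [Pi.add_apply, Matrix.trace_add, ha.2.1, hb.2.1, add_zero], fun g h => by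
    rw [Pi.add_apply, Pi.add_apply, Pi.add_apply, ha.2.2, hb.2.2, mul_add, add_mul]; abel⟩
  zero_mem' := ⟨IsLocallyConstant.const 0, fun _ => by simp, fun _ _ => by simp⟩
  smul_mem' r a ha := ⟨ha.1.comp (r • ·), fun g => by
    rw [Pi.smul_apply, Matrix.trace_smul, ha.2.1, smul_zero], fun g h => by
    rw [Pi.smul_apply, Pi.smul_apply, Pi.smul_apply, ha.2.2, smul_add, mul_smul_comm,
      smul_mul_assoc]⟩

/-- the second order obstruction, as a bilinear expression -/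
def bil (rb : X →* M2 F) (c c' : X → M2 F) : X → X → F := fun g h =>
  eps rb g * (c h 0 0 * c' h 1 1 - c h 0 1 * c' h 1 0) + (c g * (rb g * c' h * rb g⁻¹)) 0 0

/-- seven matrix entries are coordinates on the tangent space -/
def Crd (rb : X →* M2 F) (g : Fin 7 → X) (p : Fin 7 → Fin 2 × Fin 2) : Prop :=
  ∀ c ∈ Zad rb, (∀ i, c (g i) (p i).1 (p i).2 = 0) → c = 0

/-- the obstruction is a quadratic form of rank at least three -/
def Qd (rb : X →* M2 F) : Prop :=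
  ∃ inv : (X → X → F) →ₗ[F] F, (∀ f ∈ Cob F X, inv f = 0) ∧
    ∃ a ∈ Zad rb, ∃ w ∈ Zad rb, ∃ w' ∈ Zad rb, inv (bil rb a a) ≠ 0 ∧
      inv (bil rb a w) + inv (bil rb w a) = 0 ∧ inv (bil rb a w') + inv (bil rb w' a) = 0 ∧
      inv (bil rb w w') + inv (bil rb w' w) ≠ 0

end grp

section lift

variable {X O F : Type} [Group X] [TopologicalSpace X] [CommRing O] [Field F]

/-- the reduction of `ρ₀` -/
def red (ψ : O →+* F) (ρ₀ : X →* M2 O) : X →* M2 F :=
  (RingHom.mapMatrix ψ : M2 O →+* M2 F).toMonoidHom.comp ρ₀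

/-- a coordinate of a lift: an entry of `ρ g * (ρ₀ g)⁻¹ - 1` -/
def ka (ρ₀ : X →* M2 O) {A : Type} [CommRing A] [Algebra O A] (ρ : X →* M2 A) (g : X)
    (p : Fin 2 × Fin 2) : A :=
  (ρ g * (ρ₀ g⁻¹).map (algebraMap O A) - 1) p.1 p.2

/-- `ρ` is a lift of the reduction of `ρ₀`, with the determinant of `ρ₀` -/
structure Lift (ψ : O →+* F) (ρ₀ : X →* M2 O) {A : Type} [CommRing A] [Algebra O A]
    (π : A →+* F) (ρ : X →* M2 A) : Prop where
  res : ∀ o, π (algebraMap O A o) = ψ o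
  red : ∀ g, (ρ g).map π = (ρ₀ g).map ψ
  det : ∀ g, (ρ g).det = algebraMap O A (ρ₀ g).det
  opn : IsOpen {g | ρ g = 1}

/-- `φ` is the point of the power series ring given by the coordinates of `ρ` -/
structure Pt (ρ₀ : X →* M2 O) (g : Fin 7 → X) (p : Fin 7 → Fin 2 × Fin 2) {A : Type} [CommRing A]
    [Algebra O A] (ρ : X →* M2 A) (φ : MvPowerSeries (Fin 7) O →+* A) : Prop where
  cst : ∀ o, φ (C o) = algebraMap O A o
  var : ∀ i, φ (MvPowerSeries.X i) = ka ρ₀ ρ (g i) (p i)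

/-- **the output of the block**: seven coordinates, one equation -/
structure Out (ψ : O →+* F) (ρ₀ : X →* M2 O) (g : Fin 7 → X) (p : Fin 7 → Fin 2 × Fin 2)
    (f : MvPowerSeries (Fin 7) O) : Prop where
  crd : Crd (red ψ ρ₀) g p
  ev : ∀ (A : Type) [CommRing A] [IsLocalRing A] [Finite A] [Algebra O A] (π : A →+* F)
    (ρ : X →* M2 A), Lift ψ ρ₀ π ρ → ∀ φ, Pt ρ₀ g p ρ φ → φ f = 0
  cst : constantCoeff (MvPowerSeries.map ψ f) = 0
  blk : CA.BlkPt fun _ : Unit => MvPowerSeries.map ψ f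

end lift

/-! ### rows: groups -/

/-- row NIR -/
def NIR : Prop := ∀ (G : Type) [Group G] [TopologicalSpace G] [IsTopologicalGroup G]
  [CompactSpace G], RANK G → NI G ∧ ∀ V : Subgroup G, IsOpen (V : Set G) → NI V

/-- row SYM, descent of coefficients -/
def SYM0 : Prop := ∀ (F : Type) [Field F] [CharP F 2] (X : Type) [Group X] [TopologicalSpace X]
  (f : X → X → ZMod 2), (fun x y => up F (f x y)) ∈ Cob F X → f ∈ Cob (ZMod 2) X

/-- row SYM, duality of eigenspaces -/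
def SYM1 : Prop := ∀ (F : Type) [Field F] [Finite F] [CharP F 2] (G : Type) [Group G]
  [TopologicalSpace G] [IsTopologicalGroup G] (V : Subgroup G), V.Normal → NI V →
  ∀ (t : G) (x : F) (m : ℕ), Odd m → t ^ m ∈ V → x ^ m = 1 → ∀ b ∈ Eg F V t x, b ≠ 0 →
    ∃ c ∈ Eg F V t x⁻¹, cup b c ∉ Cob F V

/-- row SYM, the symbols span a line -/
def SYM2 : Prop := ∀ (F : Type) [Field F] [Finite F] [CharP F 2] (X : Type) [Group X]
  [TopologicalSpace X], NI X → ∀ b ∈ Hm F X, ∀ c ∈ Hm F X, ∀ b' ∈ Hm F X, ∀ c' ∈ Hm F X,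
  cup b' c' ∉ Cob F X → ∃ l : F, cup b c - l • cup b' c' ∈ Cob F X

/-- row ODD -/
def ODD : Prop := ∀ (F : Type) [Field F] [CharP F 2] (X : Type) [Group X] [TopologicalSpace X]
  [IsTopologicalGroup X] (H : Subgroup X), IsOpen (H : Set X) → Odd H.index →
  ∀ y : X → X → F, IsZ2 y → (fun a b : H => y a b) ∈ Cob F H → y ∈ Cob F X

/-- row DIH -/
def DIH : Prop := ∀ (F : Type) [Field F] [Finite F] [CharP F 2] (G : Type) [Group G]
  [TopologicalSpace G] [IsTopologicalGroup G] (rb : G →* M2 F) (U : Subgroup G), Dih0 rb U →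
  ∃ V t, Dih rb U V t

/-- row TAN -/
def TAN : Prop := ∀ (F : Type) [Field F] [Finite F] [CharP F 2] (G : Type) [Group G]
  [TopologicalSpace G] [IsTopologicalGroup G] (rb : G →* M2 F) (U V : Subgroup G) (t : G),
  Dih rb U V t → Nat.card (Hm (ZMod 2) G) = 8 →
  Module.finrank F (Eg F V t (th rb t)) = U.index →
  Module.finrank F (Eg F V t (th rb t)⁻¹) = U.index → ∃ g p, Crd rb g p

/-- row EXT: an eigencharacter of `V` extends to a twisted cocycle on `U` -/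
def EXT : Prop := ∀ (F : Type) [Field F] (G : Type) [Group G] [TopologicalSpace G]
  [IsTopologicalGroup G] (U V : Subgroup G) (t : G) (θ : G → F), V.Normal → IsOpen (V : Set G) →
  V ≤ U → t ∈ U → (∀ u ∈ U, ∃ i : ℕ, (t ^ i)⁻¹ * u ∈ V) →
  (∀ u ∈ U, ∀ u' ∈ U, θ (u * u') = θ u * θ u') → (∀ v ∈ V, θ v = 1) → θ t ≠ 1 →
  ∀ b ∈ Eg F V t (θ t), ∃ β : U → F, IsLocallyConstant β ∧
    (∀ u u' : U, β (u * u') = β u + θ u * β u') ∧ ∀ (v : V) (u : U), (u : G) = v → β u = b v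

/-- row POL: the polar form is not zero -/
def POL : Prop := ∀ (F : Type) [Field F] [Finite F] [CharP F 2] (G : Type) [Group G]
  [TopologicalSpace G] [IsTopologicalGroup G] (rb : G →* M2 F) (U V : Subgroup G) (t : G),
  Dih rb U V t → Nat.card (Hm (ZMod 2) G) = 8 → NI G → NI V → Eg F V t (th rb t) ≠ ⊥ →
  ∃ w ∈ Zad rb, ∃ w' ∈ Zad rb, (∀ g, w g 0 0 = 0 ∧ w g 1 1 = 0 ∧ w' g 0 0 = 0 ∧ w' g 1 1 = 0) ∧
    bil rb w w' + bil rb w' w ∉ Cob F G

/-- row QDA -/
def QDA : Prop := ∀ (F : Type) [Field F] [Finite F] [CharP F 2] (G : Type) [Group G]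
  [TopologicalSpace G] [IsTopologicalGroup G] (rb : G →* M2 F) (U V : Subgroup G) (t : G),
  Dih rb U V t → NI G → ETA G →
  (∃ w ∈ Zad rb, ∃ w' ∈ Zad rb, (∀ g, w g 0 0 = 0 ∧ w g 1 1 = 0 ∧ w' g 0 0 = 0 ∧ w' g 1 1 = 0) ∧
    bil rb w w' + bil rb w' w ∉ Cob F G) → Qd rb

/-! ### rows: rings -/

/-- row GEN: the coordinates generate -/
def GEN : Prop := ∀ (X O F : Type) [Group X] [TopologicalSpace X] [IsTopologicalGroup X]
  [CommRing O] [IsLocalRing O] [Field F] (ψ : O →+* F), Function.Surjective ψ →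
  ∀ (ρ₀ : X →* M2 O) (g : Fin 7 → X) (p : Fin 7 → Fin 2 × Fin 2), Crd (red ψ ρ₀) g p →
  ∀ (A : Type) [CommRing A] [IsLocalRing A] [Finite A] [Algebra O A] (π : A →+* F)
    (ρ : X →* M2 A), Lift ψ ρ₀ π ρ → ∀ φ, Pt ρ₀ g p ρ φ → ∀ x i j, ρ x i j ∈ φ.range

/-- row SEC: the relation of the second order -/
def SEC : Prop := ∀ (X O F : Type) [Group X] [TopologicalSpace X] [IsTopologicalGroup X]
  [CommRing O] [IsLocalRing O] [Field F] [CharP F 2] (ψ : O →+* F), Function.Surjective ψ →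
  ∀ (ρ₀ : X →* M2 O) (U : Subgroup X), Dih0 (red ψ ρ₀) U →
  ∀ (g : Fin 7 → X) (p : Fin 7 → Fin 2 × Fin 2) (c : Fin 7 → X → M2 F),
  (∀ z ∈ Zad (red ψ ρ₀), z = ∑ i, z (g i) (p i).1 (p i).2 • c i) →
  ∀ inv : (X → X → F) →ₗ[F] F, (∀ f ∈ Cob F X, inv f = 0) →
  ∀ β : Fin 7 → Fin 7 → O, (∀ i j, ψ (β i j) = inv (bil (red ψ ρ₀) (c i) (c j))) →
  ∀ (A : Type) [CommRing A] [IsLocalRing A] [Finite A] [Algebra O A] (π : A →+* F)
    (ρ : X →* M2 A), Lift ψ ρ₀ π ρ → (∀ o, ψ o = 0 → algebraMap O A o = 0) →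
    maximalIdeal A ^ 3 = ⊥ →
    ∑ i, ∑ j, algebraMap O A (β i j) * ka ρ₀ ρ (g i) (p i) * ka ρ₀ ρ (g j) (p j) = 0

/-- row LIM: compactness -/
def LIM : Prop := ∀ (O : Type) [CommRing O] [IsLocalRing O] [IsNoetherianRing O]
  [IsAdicComplete (maximalIdeal O) O] [Finite (ResidueField O)] (σ : Type) [Finite σ]
  (S : Set (Ideal (MvPowerSeries σ O))), S.Nonempty → (∀ I ∈ S, ∀ J ∈ S, I ⊓ J ∈ S) →
  ∀ k : ℕ, ∃ I ∈ S, I ≤ sInf S ⊔ maximalIdeal (MvPowerSeries σ O) ^ k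

/-- row HYP: a hypersurface whose initial form is a quadric of rank at least three -/
def HYP : Prop := ∀ (F : Type) [Field F] [Finite F] [CharP F 2] (σ : Type) [Fintype σ]
  (f : MvPowerSeries σ F) (β : σ → σ → F),
  f - ∑ i, ∑ j, C (β i j) * MvPowerSeries.X i * MvPowerSeries.X j ∈
    maximalIdeal (MvPowerSeries σ F) ^ 3 →
  ∀ (q : (σ → F) → (σ → F) → F), (∀ u v, q u v = ∑ i, ∑ j, β i j * u i * v j) →
  ∀ a w w' : σ → F, q a a ≠ 0 → q a w + q w a = 0 → q a w' + q w' a = 0 → q w w' + q w' w ≠ 0 →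
  CA.BlkPt fun _ : Unit => f

/-- row SHELL -/
def SHELL : Prop := ∀ (X O F : Type) [Group X] [TopologicalSpace X] [IsTopologicalGroup X]
  [CommRing O] [IsLocalRing O] [IsNoetherianRing O] [IsAdicComplete (maximalIdeal O) O]
  [Field F] [Finite F] [CharP F 2] (ψ : O →+* F), Function.Surjective ψ →
  ∀ (ρ₀ : X →* M2 O) (U : Subgroup X), Dih0 (red ψ ρ₀) U → Qd (red ψ ρ₀) →
  ∀ g p, Crd (red ψ ρ₀) g p → ∃ f, Out ψ ρ₀ g p f

/-! ### rows: fields -/

/-- the additive maps on `S` on which `t` acts by `x` -/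
def Xe (F : Type) [Field F] {Y : Type} [AddCommGroup Y] (t : Y →+ Y) (x : F) (S : AddSubgroup Y) :
    Submodule F (S →+ F) where
  carrier := {l | ∀ a a' : S, (a' : Y) = t a → l a' = x * l a}
  add_mem' {l k} hl hk a a' h := by
    rw [AddMonoidHom.add_apply, AddMonoidHom.add_apply, hl a a' h, hk a a' h, mul_add]
  zero_mem' a a' h := by simp
  smul_mem' c l hl a a' h := by
    rw [AddMonoidHom.smul_apply, AddMonoidHom.smul_apply, hl a a' h, smul_eq_mul, smul_eq_mul]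
    ring

/-- the elements killed by two -/
def tor (Y : Type) [AddCommGroup Y] : AddSubgroup Y := (nsmulAddMonoidHom 2 : Y →+ Y).ker

/-- row HERB: the Herbrand quotient of an eigenspace does not see finite index -/
def HERB : Prop := ∀ (F : Type) [Field F] [CharP F 2] (Y : Type) [AddCommGroup Y] (t : Y →+ Y)
  (m : ℕ), Odd m → (∀ y, t^[m] y = y) → ∀ (x : F) (S' S : AddSubgroup Y), S' ≤ S →
  (∀ y ∈ S', t y ∈ S') → (∀ y ∈ S, t y ∈ S) → S'.relIndex S ≠ 0 → Module.Finite F (S' →+ F) →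
  Finite (S ⊓ tor Y : AddSubgroup Y) →
  Module.Finite F (S →+ F) ∧
    Module.finrank F (Xe F t x S) + Module.finrank F (Xe F t x (S' ⊓ tor Y)) =
      Module.finrank F (Xe F t x S') + Module.finrank F (Xe F t x (S ⊓ tor Y))

/-- the functions on which `π` acts by `x` -/
def Ef (F : Type) [Field F] {ι : Type} (π : ι → ι) (x : F) : Submodule F (ι → F) where
  carrier := {a | ∀ i, a (π i) = x * a i}
  add_mem' {a b} ha hb i := by rw [Pi.add_apply, Pi.add_apply, ha i, hb i, mul_add]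
  zero_mem' i := by simp
  smul_mem' c a ha i := by
    rw [Pi.smul_apply, Pi.smul_apply, ha i, smul_eq_mul, smul_eq_mul]; ring

/-- the action of an automorphism on the multiplicative group, written additively -/
def ut {k K : Type} [Field k] [Field K] [Algebra k K] (t : K ≃ₐ[k] K) :
    Additive Kˣ →+ Additive Kˣ :=
  MonoidHom.toAdditive (Units.map (t : K →* K))

/-- row LOCU: the multiplicative group of a 2-adic field modulo squares -/
def LOCU : Prop := ∀ (F : Type) [Field F] [CharP F 2] (K : Type) [Field K] [Algebra ℚ_[2] K]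
  [FiniteDimensional ℚ_[2] K] (t : K ≃ₐ[ℚ_[2]] K) (m : ℕ), Odd m → t ^ m = 1 →
  ∀ (ι : Type) [Fintype ι] (e : Module.Basis ι ℚ_[2] K) (π : ι → ι), (∀ i, t (e i) = e (π i)) →
  ∀ x : F, Module.Finite F ((⊤ : AddSubgroup (Additive Kˣ)) →+ F) ∧
    (x = 1 → Module.finrank F (Xe F (ut t) x ⊤) = 2 + Module.finrank F (Ef F π x)) ∧
    (x ≠ 1 → Module.finrank F (Xe F (ut t) x ⊤) = Module.finrank F (Ef F π x))

/-- row KUM -/
def KUM : Prop := RANK G2 ∧ EUL G2

/-- **the block** -/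
def OUT : Prop := ∀ (O F : Type) [CommRing O] [IsLocalRing O] [IsNoetherianRing O]
  [IsAdicComplete (maximalIdeal O) O] [Field F] [Finite F] [CharP F 2] (ψ : O →+* F),
  Function.Surjective ψ → ∀ (ρ₀ : G2 →* M2 O) (U : Subgroup G2), Dih0 (red ψ ρ₀) U →
  ∃ g p f, Out ψ ρ₀ g p f

theorem out (h1 : NIR) (h2 : DIH) (h3 : TAN) (h4 : POL) (h5 : QDA) (h6 : SHELL) (h7 : KUM)
    (h8 : ETA G2) : OUT := by
  intro O F _ _ _ _ _ _ _ ψ hψ ρ₀ U hD
  obtain ⟨V, t, h⟩ := h2 F G2 _ U hD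
  obtain ⟨n1, n2⟩ := h1 G2 h7.1
  have le : V ≤ U := fun g hg => ((h.sc g).1 hg).1
  have e1 := h7.2 F U V t _ h.nrm h.opV le h.tU h.gen h.odd h.ne h.pow
  have e2 := h7.2 F U V t (th (red ψ ρ₀) t)⁻¹ h.nrm h.opV le h.tU h.gen h.odd
    (fun e => h.ne (inv_eq_one.1 e)) (by rw [inv_pow, h.pow, inv_one])
  obtain ⟨g, p, hc⟩ := h3 F G2 _ U V t h h7.1.1 e1 e2
  have ne : Eg F V t (th (red ψ ρ₀) t) ≠ ⊥ := fun e => by
    rw [e, finrank_bot] at e1
    rcases h.idx with k | k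
    · rw [k, Subgroup.index_top] at e1; exact absurd e1 (by norm_num)
    · rw [k] at e1; exact absurd e1 (by norm_num)
  obtain ⟨f, hf⟩ := h6 G2 O F ψ hψ ρ₀ U hD
    (h5 F G2 _ U V t h n1 h8 (h4 F G2 _ U V t h h7.1.1 n1 (n2 V h.opV) ne)) g p hc
  exact ⟨g, p, f, hf⟩

end Vale.Agent.P022D.L2c
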