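import Vale.Agent.P022D.L2c.Defs

/-!
# P022, block L2c: duality of eigenspaces
-/

set_option linter.all false

noncomputable section

namespace Vale.Agent.P022D.L2c

open Module

namespace Du

theorem ker_dual {F H : Type} [Field F] [AddCommGroup H] [Module F H] [FiniteDimensional F H]
    (T : H →ₗ[F] H) : finrank F (LinearMap.ker T.dualMap) = finrank F (LinearMap.ker T) := by
  have a := T.finrank_range_add_finrank_ker
  have b := T.dualMap.finrank_range_add_finrank_ker
  rw [LinearMap.finrank_range_dualMap_eq_finrank_range, Subspace.dual_finrank_eq] at b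
  omega

variable {F : Type} [Field F] [CharP F 2] {X : Type} [Group X] [TopologicalSpace X]

/-- extension of the values -/
def upH (F : Type) [Field F] [CharP F 2] (X : Type) [Group X] [TopologicalSpace X] :
    Hm (ZMod 2) X →+ Hm F X :=
  AddMonoidHom.mk' (fun a => ⟨fun g => up F (a.1 g), a.2.1.comp _, fun g k => by
    beta_reduce
    rw [a.2.2, map_add]⟩) fun a b => Subtype.ext (funext fun g => map_add (up F) _ _)

theorem upH_apply (a : Hm (ZMod 2) X) (g : X) : (upH F X a).1 g = up F (a.1 g) := rfl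

/-- linear forms on the characters with values in `F` are additive maps on the quadratic
characters -/
theorem res_bij [Finite F] : Function.Bijective
    fun l : Dual F (Hm F X) => l.toAddMonoidHom.comp (upH F X) := by
  classical
  letI : Algebra (ZMod 2) F := ZMod.algebra F 2
  have hup : ∀ c, up F c = algebraMap (ZMod 2) F c := fun _ => rfl
  let e := Module.finBasis (ZMod 2) F
  let co : Fin (finrank (ZMod 2) F) → Hm F X →+ Hm (ZMod 2) X := fun i =>
    AddMonoidHom.mk' (fun b => ⟨fun g => e.repr (b.1 g) i, b.2.1.comp fun y => e.repr y i,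
      fun g k => by
        beta_reduce
        rw [b.2.2, map_add, Finsupp.add_apply]⟩) fun a b => Subtype.ext (funext fun g => by
      show e.repr (a.1 g + b.1 g) i = _
      rw [map_add, Finsupp.add_apply]; rfl)
  have h1 : ∀ b : Hm F X, b = ∑ i, e i • upH F X (co i b) := fun b => Subtype.ext (funext fun g => by
    rw [Submodule.coe_sum, Finset.sum_apply]
    conv_lhs => rw [← e.sum_repr (b.1 g)]
    refine Finset.sum_congr rfl fun i _ => ?_
    show _ = e i * up F (e.repr (b.1 g) i)
    rw [Algebra.smul_def, hup, mul_comm])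
  refine ⟨fun l l' h => LinearMap.ext fun b => ?_, fun m => ?_⟩
  · rw [h1 b, map_sum, map_sum]
    refine Finset.sum_congr rfl fun i _ => ?_
    rw [map_smul, map_smul]
    exact congrArg _ (DFunLike.congr_fun h (co i b))
  · have hm : ∀ (c : ZMod 2) a, m (c • a) = c • m a := fun c a => ZMod.map_smul m c a
    have h2 : ∀ (y : F) (a : Hm (ZMod 2) X), ∑ i, e i * m (co i (y • upH F X a)) = y * m a :=
      fun y a => by
      conv_rhs => rw [← e.sum_repr y, Finset.sum_mul]
      refine Finset.sum_congr rfl fun i _ => ?_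
      have : co i (y • upH F X a) = e.repr y i • a := Subtype.ext (funext fun g => by
        show e.repr (y * up F (a.1 g)) i = e.repr y i * a.1 g
        rw [hup, mul_comm y, ← Algebra.smul_def, map_smul, Finsupp.smul_apply, smul_eq_mul,
          mul_comm])
      rw [this, hm, smul_mul_assoc, mul_smul_comm]
    let M : Hm F X →+ F := ∑ i, (AddMonoidHom.mulLeft (e i)).comp (m.comp (co i))
    have hM : ∀ b, M b = ∑ i, e i * m (co i b) := fun b => AddMonoidHom.finset_sum_apply _ _ _
    refine ⟨{ M with map_smul' := fun y b => ?_ }, AddMonoidHom.ext fun a => ?_⟩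
    · show M (y • b) = y * M b
      rw [h1 b, Finset.smul_sum, map_sum, map_sum, Finset.mul_sum]
      refine Finset.sum_congr rfl fun i _ => ?_
      rw [smul_smul, hM, hM, h2, h2, mul_assoc]
    · show M (upH F X a) = m a
      rw [hM, ← one_mul (m a), ← h2, one_smul]

end Du

open Du

theorem dual {F : Type} [Field F] [Finite F] [CharP F 2] {G : Type} [Group G] [TopologicalSpace G]
    [IsTopologicalGroup G] (V : Subgroup G) (hV : V.Normal) (t : G) (x : F) {A : Type}
    [AddCommGroup A] (s : A →+ A) (ka : A →+ Hm (ZMod 2) V) (sur : Function.Surjective ka)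
    (ker : ∀ a, ka a = 0 → ∃ b, a = b + b)
    (eqv : ∀ a (v v' : V), (v' : G) = t * v * t⁻¹ → (ka (s a)).1 v = (ka a).1 v')
    (fin : Module.Finite F ((⊤ : AddSubgroup A) →+ F)) :
    finrank F (Eg F V t x) = finrank F (Xe F s x ⊤) := by
  let c : V → V := fun v => ⟨t * v * t⁻¹, hV.conj_mem _ v.2 t⟩
  have cc : Continuous c :=
    ((continuous_const.mul continuous_subtype_val).mul continuous_const).subtype_mk _
  have cm : ∀ v w, c (v * w) = c v * c w := fun v w => Subtype.ext (by
    show t * (v * w) * t⁻¹ = t * v * t⁻¹ * (t * w * t⁻¹)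
    group)
  let T : Hm F V →ₗ[F] Hm F V :=
    { toFun := fun b => ⟨fun v => b.1 (c v), b.2.1.comp_continuous cc, fun v w => by
        beta_reduce
        rw [cm, b.2.2]⟩
      map_add' := fun _ _ => rfl
      map_smul' := fun _ _ => rfl }
  let R : Dual F (Hm F V) →ₗ[F] ((⊤ : AddSubgroup A) →+ F) :=
    { toFun := fun l => (l.toAddMonoidHom.comp (upH F V)).comp (ka.comp (⊤ : AddSubgroup A).subtype)
      map_add' := fun _ _ => rfl
      map_smul' := fun _ _ => rfl }
  have Rv : ∀ l a, R l a = l (upH F V (ka a.1)) := fun _ _ => rfl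
  have Ri : Function.Injective R := fun l l' h => res_bij.1 (AddMonoidHom.ext fun b => by
    obtain ⟨a, rfl⟩ := sur b
    exact DFunLike.congr_fun h ⟨a, trivial⟩)
  have Rs : Function.Surjective R := fun m => by
    choose σ hσ using sur
    have k : ∀ a a' : A, ka a = ka a' → m ⟨a, trivial⟩ = m ⟨a', trivial⟩ := fun a a' h => by
      obtain ⟨b, hb⟩ := ker (a - a') (by rw [map_sub, h, sub_self])
      rw [show (⟨a, trivial⟩ : (⊤ : AddSubgroup A)) = ⟨a', trivial⟩ + (⟨b, trivial⟩ + ⟨b, trivial⟩)
        from Subtype.ext (by show a = a' + (b + b); rw [← hb]; abel), map_add, map_add,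
        CharTwo.add_self_eq_zero, add_zero]
    obtain ⟨l, hl⟩ := (res_bij (F := F) (X := V)).2 (AddMonoidHom.mk' (fun b => m ⟨σ b, trivial⟩)
      fun b b' => by
        rw [← map_add]
        exact k _ _ (by
          show _ = ka (σ b + σ b')
          rw [map_add, hσ, hσ, hσ]))
    exact ⟨l, AddMonoidHom.ext fun a => (DFunLike.congr_fun hl (ka a.1)).trans (k _ _ (hσ _))⟩
  have : Module.Finite F (Dual F (Hm F V)) := Module.Finite.of_injective R Ri
  have : FiniteDimensional F (Hm F V) := (Module.finite_dual_iff F).1 this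
  have Tk : ∀ a, T (upH F V (ka a)) = upH F V (ka (s a)) := fun a =>
    Subtype.ext (funext fun v => congrArg (up F) (eqv a v (c v) rfl).symm)
  have e1 : Eg F V t x = (LinearMap.ker (T - x • LinearMap.id)).map (Hm F V).subtype := by
    ext b
    rw [Submodule.mem_map]
    refine ⟨fun hb => ⟨⟨b, hb.1⟩, Subtype.ext (funext fun v => ?_), rfl⟩, ?_⟩
    · exact sub_eq_zero.2 (hb.2 v (c v) rfl)
    · rintro ⟨b, hb, rfl⟩
      refine ⟨b.2, fun v v' h => ?_⟩
      rw [show v' = c v from Subtype.ext h]
      exact sub_eq_zero.1 (congrFun (congrArg Subtype.val hb) v)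
  have e2 : Xe F s x ⊤ = (LinearMap.ker (T - x • LinearMap.id).dualMap).map R := by
    ext m
    obtain ⟨l, rfl⟩ := Rs m
    rw [Submodule.mem_map]
    have q : ∀ a, (T - x • LinearMap.id).dualMap l (upH F V (ka a)) =
        l (upH F V (ka (s a))) - x * l (upH F V (ka a)) := fun a => by
      rw [LinearMap.dualMap_apply, LinearMap.sub_apply, map_sub, Tk, LinearMap.smul_apply,
        map_smul]
      rfl
    refine ⟨fun hl => ⟨l, Ri (AddMonoidHom.ext fun a => ?_), rfl⟩, fun ⟨l', hl', e⟩ a a' h => ?_⟩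
    · rw [Rv, q, map_zero]
      exact sub_eq_zero.2 (hl a ⟨s a, trivial⟩ rfl)
    · obtain rfl := Ri e
      have := q a.1
      rw [LinearMap.mem_ker.1 hl', LinearMap.zero_apply] at this
      rw [Rv, Rv, h]
      exact (sub_eq_zero.1 this.symm)
  rw [e1, e2, ← (Submodule.equivMapOfInjective _ (Hm F V).injective_subtype _).finrank_eq,
    ← (Submodule.equivMapOfInjective _ Ri _).finrank_eq, ker_dual]

theorem ef_rank {F : Type} [Field F] {Γ : Type} [Group Γ] [Finite Γ] (c : Γ) (x : F)
    (hx : x ^ orderOf c = 1) :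
    finrank F (Ef F (fun g : Γ => c * g) x) = (Subgroup.zpowers c).index := by
  classical
  have x0 : x ≠ 0 := fun h => by
    rw [h, zero_pow (orderOf_pos c).ne'] at hx
    exact zero_ne_one hx
  have pw : ∀ a ∈ Ef F (fun g : Γ => c * g) x, ∀ (n : ℕ) g, a (c ^ n * g) = x ^ n * a g :=
    fun a ha n g => by
    induction n with
    | zero => simp
    | succ n ih => rw [pow_succ', mul_assoc, ha, ih, pow_succ', mul_assoc]
  have ex : ∀ g : Γ, ∃ n : ℕ, g = c ^ n * ((g⁻¹ : Γ) : Γ ⧸ Subgroup.zpowers c).out⁻¹ := fun g => by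
    obtain ⟨h, e⟩ := QuotientGroup.mk_out_eq_mul (Subgroup.zpowers c) g⁻¹
    obtain ⟨n, hn⟩ := (mem_powers_iff_mem_zpowers.2 h.2 : (h : Γ) ∈ Submonoid.powers c)
    exact ⟨n, by rw [e, ← hn]; group⟩
  choose n hn using ex
  let L : Ef F (fun g : Γ => c * g) x →ₗ[F] (Γ ⧸ Subgroup.zpowers c → F) :=
    { toFun := fun a q => a.1 q.out⁻¹
      map_add' := fun _ _ => rfl
      map_smul' := fun _ _ => rfl }
  have xe : ∀ i j : ℕ, c ^ i = c ^ j → x ^ i = x ^ j := fun i j h => by
    rw [pow_eq_pow_iff_modEq] at h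
    rw [← Nat.mod_add_div i (orderOf c), ← Nat.mod_add_div j (orderOf c), h, pow_add, pow_add,
      pow_mul, pow_mul, hx, one_pow, one_pow]
  have := Fintype.ofFinite (Γ ⧸ Subgroup.zpowers c)
  rw [(LinearEquiv.ofBijective L ⟨fun a b h => Subtype.ext (funext fun g => ?_), fun f => ⟨⟨fun g =>
    x ^ n g * f (g⁻¹ : Γ), fun g => ?_⟩, funext fun q => ?_⟩⟩).finrank_eq, Module.finrank_pi,
    Subgroup.index, Nat.card_eq_fintype_card]
  · rw [hn g, pw _ a.2, pw _ b.2]
    exact congrArg _ (congrFun h _)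
  · have e : (((c * g)⁻¹ : Γ) : Γ ⧸ Subgroup.zpowers c) = (g⁻¹ : Γ) :=
      QuotientGroup.eq.2 (by simpa using Subgroup.mem_zpowers c)
    have h1 := hn (c * g)
    rw [e] at h1
    have h2 : c ^ n (c * g) = c ^ (n g + 1) := mul_right_cancel (h1.symm.trans (by
      rw [pow_succ', mul_assoc, ← hn g]))
    beta_reduce
    rw [e, xe _ _ h2, pow_succ', mul_assoc]
  · have h1 := hn q.out⁻¹
    show x ^ n q.out⁻¹ * f (q.out⁻¹⁻¹ : Γ) = f q
    rw [inv_inv, QuotientGroup.out_eq'] at h1 ⊢
    have h2 : c ^ n q.out⁻¹ = c ^ 0 := mul_right_cancel (h1.symm.trans (by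
      rw [pow_zero, one_mul]))
    rw [xe _ _ h2, pow_zero, one_mul]

end Vale.Agent.P022D.L2c
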