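import Vale.Agent.P022D.L2c.Defs
import Vale.Agent.P022D.L2b.Defs

/-! P022, block L2c: the rows give the input of the shell of L2b. -/

set_option linter.all false

noncomputable section

namespace Vale.Agent.P022D.L2c

open L2b (pd Z1 Tn NA NB Inp CaseA CaseB)

namespace Glue

variable {F G : Type} [Field F] [Group G] [TopologicalSpace G] {r : G →* M2 F} {U : Subgroup G}

theorem pd_mul (c c' R : M2 F) : pd (c * R) (c' * R) = pd c c' * R.det := by
  simp only [pd, Matrix.mul_apply, Fin.sum_univ_two, Matrix.det_fin_two]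
  ring

theorem pd_tr (c R : M2 F) : pd R (c * R) = c.trace * R.det := by
  simp only [pd, Matrix.mul_apply, Fin.sum_univ_two, Matrix.det_fin_two, Matrix.trace_fin_two]
  ring

theorem ri (r : G →* M2 F) (x : G) : r x * r x⁻¹ = 1 := by rw [← map_mul, mul_inv_cancel, map_one]

theorem li (r : G →* M2 F) (x : G) : r x⁻¹ * r x = 1 := by rw [← map_mul, inv_mul_cancel, map_one]

theorem det_ne (r : G →* M2 F) (x : G) : (r x).det ≠ 0 :=
  (Matrix.isUnit_det_of_right_inverse (ri r x)).ne_zero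

theorem lc_inv (hr : IsLocallyConstant r) : IsLocallyConstant fun x => r x⁻¹ := by
  have : (fun x => r x⁻¹) = (fun X : M2 F => X⁻¹) ∘ r :=
    funext fun x => (Matrix.inv_eq_right_inv (ri r x)).symm
  rw [this]
  exact hr.comp _

theorem cancel (z : M2 F) (x : G) : z * r x⁻¹ * r x = z := by rw [mul_assoc, li, mul_one]

theorem to_ad (hr : IsLocallyConstant r) {t : G → M2 F} (ht : Z1 r t) :
    (fun x => t x * r x⁻¹) ∈ Zad r := by
  refine ⟨ht.lc.mul (lc_inv hr), fun x => ?_, fun x y => ?_⟩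
  · have := pd_tr (t x * r x⁻¹) (r x)
    rw [cancel, ht.det] at this
    exact (mul_eq_zero.1 this.symm).resolve_right (det_ne r x)
  · simp only [ht.mul, mul_inv_rev, map_mul, add_mul, mul_assoc]
    rw [← mul_assoc (r y), ri, one_mul]

theorem of_ad (hr : IsLocallyConstant r) {w : G → M2 F} (hw : w ∈ Zad r) :
    Z1 r fun x => w x * r x := by
  refine ⟨hw.1.mul hr, fun x y => ?_, fun x => by rw [pd_tr, hw.2.1, zero_mul]⟩
  simp only [hw.2.2, map_mul, add_mul, mul_assoc]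
  rw [← mul_assoc (r x⁻¹), li, one_mul]

theorem e00 (r : G →* M2 F) (x : G) : r x 0 0 * r x⁻¹ 0 0 + r x 0 1 * r x⁻¹ 1 0 = 1 := by
  simpa [Matrix.mul_apply, Fin.sum_univ_two] using congrFun (congrFun (ri r x) 0) 0

theorem eps_in (h : Dih0 r U) {x : G} (hx : x ∈ U) : eps r x = 0 := by
  rw [eps, (h.dg x hx).1, zero_mul]

theorem eps_out (h : Dih0 r U) {x : G} (hx : x ∉ U) : eps r x = 1 := by
  have := e00 r x
  rwa [(h.ad x hx).1, zero_mul, zero_add] at this

theorem cj (h : Dih0 r U) (x : G) (Z : M2 F) :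
    (r x * Z * r x⁻¹) 0 0 = Z 0 0 + eps r x * (Z 1 1 - Z 0 0) := by
  have e := e00 r x
  by_cases hx : x ∈ U
  · have h1 := (h.dg x hx).1
    have h2 := (h.dg _ (U.inv_mem hx)).2
    simp only [eps, Matrix.mul_apply, Fin.sum_univ_two, h1, h2] at e ⊢
    linear_combination Z 0 0 * e
  · have h1 := (h.ad x hx).1
    have h2 := (h.ad x⁻¹ fun k => hx (by simpa using U.inv_mem k)).1
    simp only [eps, Matrix.mul_apply, Fin.sum_univ_two, h1, h2] at e ⊢
    linear_combination Z 0 0 * e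

theorem tn (hr : IsLocallyConstant r) (h : Dih0 r U) {g : Fin 7 → G} {p : Fin 7 → Fin 2 × Fin 2}
    (hc : Crd r g p) : ∃ g p q, Tn r g p q := by
  have h1 : ∀ (x : G) (k : Fin 2), ∃ q, r x k q ≠ 0 ∧
      ∀ (c : M2 F) (i : Fin 2), (c * r x) i q = c i k * r x k q := by
    intro x k
    have hd := det_ne r x
    rw [Matrix.det_fin_two] at hd
    by_cases hx : x ∈ U
    · obtain ⟨a, b⟩ := h.dg x hx
      rw [a, zero_mul, sub_zero, mul_ne_zero_iff] at hd
      fin_cases k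
      · exact ⟨0, hd.1, fun c i => by simp [Matrix.mul_apply, b]⟩
      · exact ⟨1, hd.2, fun c i => by simp [Matrix.mul_apply, a]⟩
    · obtain ⟨a, b⟩ := h.ad x hx
      rw [a, zero_mul, zero_sub, neg_ne_zero, mul_ne_zero_iff] at hd
      fin_cases k
      · exact ⟨1, hd.1, fun c i => by simp [Matrix.mul_apply, b]⟩
      · exact ⟨0, hd.2, fun c i => by simp [Matrix.mul_apply, a]⟩
  choose q hq hq' using h1
  refine ⟨g, fun i => (p i).1, fun i => q (g i) (p i).2, fun t ht h0 x => ?_⟩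
  have h2 := hc _ (to_ad hr ht) fun i => by
    have := hq' (g i) (p i).2 (t (g i) * r (g i)⁻¹) (p i).1
    rw [cancel, h0] at this
    exact (mul_eq_zero.1 this.symm).resolve_right (hq _ _)
  have h3 : t x * r x⁻¹ = 0 := congrFun h2 x
  rw [← cancel (r := r) (t x) x, h3, zero_mul]

variable [CharP F 2]

theorem nb (hr : IsLocallyConstant r) (h : Dih0 r U) {w w' : G → M2 F} (hw : w ∈ Zad r)
    (hw' : w' ∈ Zad r) (hn : bil r w w' + bil r w' w ∉ Cob F G) : NB r := by
  refine ⟨_, _, of_ad hr hw, of_ad hr hw', ?_⟩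
  rintro ⟨z, h1, h2, h3⟩
  have two : (2 : F) = 0 := CharTwo.two_eq_zero
  refine hn ⟨fun x => (z x * r x⁻¹) 0 0, (h1.mul (lc_inv hr)).comp fun X : M2 F => X 0 0,
    fun x y => ?_⟩
  have e : z (x * y) * r (x * y)⁻¹ = z x * r x⁻¹ + r x * (z y * r y⁻¹) * r x⁻¹ +
      (w x * (r x * w' y * r x⁻¹) + w' x * (r x * w y * r x⁻¹)) := by
    simp only [h2, mul_inv_rev, map_mul, add_mul, mul_assoc]
    rw [← mul_assoc (r y), ri, one_mul]
  have e1 := pd_tr (z y * r y⁻¹) (r y)
  have e2 := h3 y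
  rw [cancel] at e1
  rw [e1, pd_mul, ← add_mul, mul_eq_zero, or_iff_left (det_ne r y), Matrix.trace_fin_two] at e2
  simp only [e, Matrix.add_apply, cj h, Pi.add_apply, bil]
  simp only [pd] at e2
  linear_combination eps r x * e2 - eps r x * ((z y * r y⁻¹) 0 0 + (w y 0 0 * w' y 1 1 +
    w y 1 1 * w' y 0 0 - w y 0 1 * w' y 1 0 - w y 1 0 * w' y 0 1)) * two

theorem na (s0 : SYM0) (hr : IsLocallyConstant r) {V : Subgroup G} {t : G} (h : Dih r U V t)
    (hU : IsClosed (U : Set G)) (hN : NI G) (hE : ETA G) : NA r := by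
  classical
  have two : (2 : F) = 0 := CharTwo.two_eq_zero
  obtain ⟨η, hη, hη0, hη1, hη2⟩ := hE
  let ep : G → ZMod 2 := fun x => if x ∈ U then 0 else 1
  have hep : ep ∈ Hm (ZMod 2) G := by
    refine ⟨(IsLocallyConstant.iff_exists_open _).2 fun x => ?_, fun x y => ?_⟩
    · by_cases hx : x ∈ U
      · exact ⟨U, h.opU, hx, fun y hy => (if_pos hy).trans (if_pos hx).symm⟩
      · exact ⟨Uᶜ, hU.isOpen_compl, hx, fun y hy => (if_neg hy).trans (if_neg hx).symm⟩
    · rcases h.idx with k | k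
      · simp [ep, k]
      · simp only [ep, Subgroup.mul_mem_iff_of_index_two k]
        by_cases hx : x ∈ U <;> by_cases hy : y ∈ U <;> simp [hx, hy]
        rfl
  have hne : ep + η ≠ 0 := by
    intro e
    have e' : ∀ x, η x = ep x := fun x => by
      have : ep x + η x = 0 := congrFun e x
      revert this
      generalize ep x = a
      generalize η x = b
      revert a b
      decide
    rcases h.idx with k | k
    · exact hη0 (funext fun x => by simp [e', ep, k])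
    · obtain ⟨σ, hσ⟩ : ∃ σ, σ ∉ U := by
        by_contra hc
        push Not at hc
        rw [(Subgroup.eq_top_iff' U).2 hc, Subgroup.index_top] at k
        exact absurd k (by norm_num)
      refine hη2 U V t σ h.nrm h.opV (fun g hg => ((h.sc g).1 hg).1) h.tU h.tV h.gen h.odd k hσ
        (h.inv σ hσ) fun g => ?_
      by_cases hg : g ∈ U <;> simp [e', ep, hg]
  obtain ⟨a, ha, hc⟩ := (hN _ (add_mem hep hη) hne).1
  refine ⟨fun x => up F (a x), ha.1.comp _, fun x y => by simp only [ha.2, map_add], ?_⟩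
  rintro ⟨z, h1, h2, h3⟩
  have h4 : cup (ep + a) a ∈ Cob (ZMod 2) G := by
    refine s0 F G _ ⟨fun x => (z x * r x⁻¹) 0 0,
      (h1.mul (lc_inv hr)).comp fun X : M2 F => X 0 0, fun x y => ?_⟩
    have e : z (x * y) * r (x * y)⁻¹ = z x * r x⁻¹ + r x * (z y * r y⁻¹) * r x⁻¹ +
        (up F (a x) * up F (a y)) • (1 : M2 F) := by
      rw [h2, add_mul, smul_mul_assoc, ri]
      simp only [mul_inv_rev, map_mul, add_mul, mul_assoc]
      rw [← mul_assoc (r y), ri, one_mul]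
    have e1 := pd_tr (z y * r y⁻¹) (r y)
    have e2 := h3 y
    rw [cancel] at e1
    rw [e1, ← add_mul, mul_eq_zero, or_iff_left (det_ne r y), Matrix.trace_fin_two] at e2
    have e3 : up F (ep x) = eps r x := by
      by_cases hx : x ∈ U
      · rw [eps_in h.toDih0 hx]; simp [ep, hx]
      · rw [eps_out h.toDih0 hx]; simp [ep, hx]
    have e4 : up F (a y) ^ 2 = up F (a y) := by rw [← map_pow, ZMod.pow_card]
    simp only [e, Matrix.add_apply, cj h.toDih0, Pi.add_apply, cup, map_mul, map_add, e3,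
      Matrix.smul_apply, Matrix.one_apply_eq, smul_eq_mul]
    linear_combination eps r x * e2 - eps r x * e4 -
      eps r x * ((z y * r y⁻¹) 0 0 + up F (a y)) * two
  have h5 := add_mem h4 (hη1 a ha)
  refine hc (cast (congrArg (· ∈ Cob (ZMod 2) G) ?_) h5)
  funext x y
  simp only [cup, Pi.add_apply]
  have : (2 : ZMod 2) = 0 := rfl
  linear_combination a x * a y * this

theorem dih0 (hr : IsLocallyConstant r)
    (h : ∀ x, (r x 0 1 = 0 ∧ r x 1 0 = 0) ∨ (r x 0 0 = 0 ∧ r x 1 1 = 0))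
    (h' : ∃ x, r x 0 1 = 0 ∧ r x 0 0 ≠ r x 1 1) : ∃ U, Dih0 r U := by
  refine ⟨{ carrier := {x | r x 0 1 = 0 ∧ r x 1 0 = 0}
            mul_mem' := fun {x y} hx hy => ?_
            one_mem' := by simp
            inv_mem' := fun {x} hx => ?_ }, fun g hg => hg, fun g hg => (h g).resolve_left hg,
    hr.isOpen_fiber 1, ?_⟩
  · simp [Matrix.mul_apply, hx.1, hx.2, hy.1, hy.2]
  · refine (h x⁻¹).resolve_right fun k => ?_
    have := e00 r x
    rw [hx.1, k.1, zero_mul, mul_zero, zero_add] at this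
    exact zero_ne_one this
  · obtain ⟨x, -, h2⟩ := h'
    exact ⟨x, (h x).resolve_right fun k => h2 (k.1.trans k.2.symm), h2⟩

end Glue

open Glue in
theorem inp (h1 : NIR) (h2 : DIH) (h3 : TAN) (h4 : POL) (h5 : SYM0) (h7 : KUM) (h8 : ETA G2)
    (F : Type) [Field F] [Finite F] [CharP F 2] (r : G2 →* M2 F) (hr : IsLocallyConstant r)
    (hd : ∀ x, (r x 0 1 = 0 ∧ r x 1 0 = 0) ∨ (r x 0 0 = 0 ∧ r x 1 1 = 0))
    (hd' : ∃ x, r x 0 1 = 0 ∧ r x 0 0 ≠ r x 1 1) : Inp r := by
  obtain ⟨U, hD⟩ := dih0 hr hd hd'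
  obtain ⟨V, t, h⟩ := h2 F G2 _ U hD
  obtain ⟨n1, n2⟩ := h1 G2 h7.1
  have le : V ≤ U := fun g hg => ((h.sc g).1 hg).1
  have e1 := h7.2 F U V t _ h.nrm h.opV le h.tU h.gen h.odd h.ne h.pow
  have e2 := h7.2 F U V t (th r t)⁻¹ h.nrm h.opV le h.tU h.gen h.odd
    (fun e => h.ne (inv_eq_one.1 e)) (by rw [inv_pow, h.pow, inv_one])
  obtain ⟨g, p, hc⟩ := h3 F G2 _ U V t h h7.1.1 e1 e2
  have ne : Eg F V t (th r t) ≠ ⊥ := fun e => by
    rw [e, finrank_bot] at e1
    rcases h.idx with k | k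
    · rw [k, Subgroup.index_top] at e1; exact absurd e1 (by norm_num)
    · rw [k] at e1; exact absurd e1 (by norm_num)
  obtain ⟨w, hw, w', hw', -, hn⟩ := h4 F G2 _ U V t h h7.1.1 n1 (n2 V h.opV) ne
  exact ⟨tn hr hD hc, na h5 hr h (U.isClosed_of_isOpen h.opU) n1 h8, nb hr hD hw hw' hn⟩

theorem cases (h1 : NIR) (h2 : DIH) (h3 : TAN) (h4 : POL) (h5 : SYM0) (h7 : KUM) (h8 : ETA G2) :
    CaseA ∧ CaseB :=
  ⟨fun F _ _ _ r hr a _ c => inp h1 h2 h3 h4 h5 h7 h8 F r hr a c,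
    fun F _ _ _ r hr a ⟨x, hx⟩ =>
      inp h1 h2 h3 h4 h5 h7 h8 F r hr (fun y => Or.inl (a y)) ⟨x, (a x).1, hx⟩⟩

end Vale.Agent.P022D.L2c
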