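import Vale.Agent.P022D.L2c.Defs

/-!
# P022, block L2c: the Herbrand quotient of an eigenspace (row HERB)
-/

set_option linter.all false

noncomputable section

namespace Vale.Agent.P022D.L2c

open Module

namespace Hb

variable {F : Type} [Field F] [CharP F 2]

section lin

variable {A B C : Type} [AddCommGroup A] [Module F A] [AddCommGroup B] [Module F B]
  [AddCommGroup C] [Module F C]

/-- the eigenspace -/
def Es (T : A →ₗ[F] A) (x : F) : Submodule F A := LinearMap.ker (T - x • LinearMap.id)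

theorem mem_Es {T : A →ₗ[F] A} {x : F} {a : A} : a ∈ Es T x ↔ T a = x • a := by
  rw [Es, LinearMap.mem_ker, LinearMap.sub_apply, sub_eq_zero]; rfl

theorem pow_Es {T : A →ₗ[F] A} {x : F} {a : A} (h : a ∈ Es T x) (i : ℕ) :
    (T ^ i) a = x ^ i • a := by
  induction i with
  | zero => simp
  | succ i ih => rw [pow_succ, Module.End.mul_apply, mem_Es.1 h, map_smul, ih, smul_smul, pow_succ']

theorem avg {m : ℕ} (hm : Odd m) {T : A →ₗ[F] A} {T' : B →ₗ[F] B} (hT : T ^ m = 1)
    (f : A →ₗ[F] B) (hf : ∀ a, f (T a) = T' (f a)) {x : F} {a : A} (h : f a ∈ Es T' x) :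
    ∃ a' ∈ Es T x, f a' = f a := by
  have hp : ∀ (i : ℕ) a, f ((T ^ i) a) = (T' ^ i) (f a) := fun i => by
    induction i with
    | zero => exact fun _ => rfl
    | succ i ih =>
      intro a
      rw [pow_succ, pow_succ, Module.End.mul_apply, Module.End.mul_apply, ih, hf]
  by_cases hx : x ^ m = 1
  · have x0 : x ≠ 0 := fun k => by
      rw [k, zero_pow hm.pos.ne'] at hx
      exact zero_ne_one hx
    refine ⟨∑ i ∈ Finset.range m, x⁻¹ ^ i • (T ^ i) a, mem_Es.2 ?_, ?_⟩
    · have e := Finset.sum_range_succ (fun i => x⁻¹ ^ i • (T ^ i) a) m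
      rw [Finset.sum_range_succ', inv_pow x m, hx, hT, inv_one, pow_zero, pow_zero] at e
      conv_rhs => rw [← add_right_cancel e]
      rw [map_sum, Finset.smul_sum]
      refine Finset.sum_congr rfl fun i _ => ?_
      rw [map_smul, smul_smul, pow_succ' x⁻¹, mul_inv_cancel_left₀ x0, pow_succ' T,
        Module.End.mul_apply]
    · rw [map_sum, Finset.sum_congr rfl (g := fun _ => f a) fun i _ => by
        rw [map_smul, hp, pow_Es h, smul_smul, ← mul_pow, inv_mul_cancel₀ x0, one_pow, one_smul],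
        Finset.sum_const, Finset.card_range, ← Nat.cast_smul_eq_nsmul F,
        show (m : F) = 1 by
          obtain ⟨k, rfl⟩ := hm
          rw [Nat.cast_add, Nat.cast_mul, Nat.cast_ofNat, CharTwo.two_eq_zero, zero_mul, zero_add,
            Nat.cast_one], one_smul]
  · refine ⟨0, zero_mem _, ?_⟩
    have e := pow_Es h m
    rw [← hp, hT, Module.End.one_apply] at e
    have : (1 - x ^ m) • f a = 0 := by rw [sub_smul, one_smul, ← e, sub_self]
    rw [map_zero, (smul_eq_zero.1 this).resolve_left (sub_ne_zero.2 (Ne.symm hx))]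

/-- the rank of the image of an eigenspace -/
def rk (T : A →ₗ[F] A) (x : F) (f : A →ₗ[F] B) : ℕ := finrank F ((Es T x).map f)

theorem step [FiniteDimensional F B] {m : ℕ} (hm : Odd m) {T : A →ₗ[F] A} {T' : B →ₗ[F] B}
    (hT : T ^ m = 1) (f : A →ₗ[F] B) (hf : ∀ a, f (T a) = T' (f a)) (g : B →ₗ[F] C)
    (ex : ∀ b, g b = 0 ↔ ∃ a, f a = b) (x : F) :
    finrank F (Es T' x) = rk T x f + rk T' x g := by
  have e := (g.domRestrict (Es T' x)).finrank_range_add_finrank_ker
  rw [LinearMap.range_domRestrict] at e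
  have e2 : (LinearMap.ker (g.domRestrict (Es T' x))).map (Es T' x).subtype = (Es T x).map f := by
    ext b
    simp only [Submodule.mem_map, LinearMap.mem_ker]
    refine ⟨fun ⟨b', h, k⟩ => ?_, fun ⟨a, h, k⟩ => ⟨⟨b, mem_Es.2 ?_⟩, (ex b).2 ⟨a, k⟩, rfl⟩⟩
    · obtain ⟨a, ha⟩ := (ex b').1 h
      obtain ⟨a', h1, h2⟩ := avg hm hT f hf (a := a) (ha ▸ b'.2)
      exact ⟨a', h1, h2.trans (ha.trans k)⟩
    · rw [← k, ← hf, mem_Es.1 h, map_smul]
  rw [← e, rk, rk, ← e2,
    ← (Submodule.equivMapOfInjective _ (Es T' x).injective_subtype _).finrank_eq, add_comm]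

theorem rk_inj (T : A →ₗ[F] A) (x : F) {f : A →ₗ[F] B} (hf : Function.Injective f) :
    rk T x f = finrank F (Es T x) := (Submodule.equivMapOfInjective _ hf _).finrank_eq.symm

theorem rk_sur {m : ℕ} (hm : Odd m) {T : A →ₗ[F] A} {T' : B →ₗ[F] B}
    (hT : T ^ m = 1) {f : A →ₗ[F] B} (hf : ∀ a, f (T a) = T' (f a)) (hs : Function.Surjective f)
    (x : F) : rk T x f = finrank F (Es T' x) := by
  refine congrArg (fun p : Submodule F B => finrank F p)
    (show (Es T x).map f = Es T' x from Submodule.ext fun b => ?_)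
  refine ⟨fun ⟨a, h, k⟩ => mem_Es.2 ?_, fun h => ?_⟩
  · rw [← k, ← hf, mem_Es.1 h, map_smul]
  · obtain ⟨a, rfl⟩ := hs b
    exact avg hm hT f hf h

end lin

/-- extension of additive maps -/
theorem ext0 {A B : Type} [AddCommGroup A] [AddCommGroup B] (hB : ∀ b : B, 2 • b = 0)
    (φ : A →+ B) (l : A →+ F) (h : ∀ a, φ a = 0 → l a = 0) : ∃ L : B →+ F, ∀ a, L (φ a) = l a := by
  letI : Module (ZMod 2) B := AddCommGroup.zmodModule hB
  letI : Algebra (ZMod 2) F := ZMod.algebra F 2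
  obtain ⟨σ, hσ⟩ := φ.rangeRestrict_surjective.hasRightInverse
  let l0 : φ.range →+ F := φ.rangeRestrict.liftOfRightInverse σ hσ ⟨l, fun a ha =>
    h a (congrArg Subtype.val ha)⟩
  obtain ⟨L, hL⟩ := LinearMap.exists_extend (p := AddSubgroup.toZModSubmodule 2 φ.range)
    (l0.toZModLinearMap 2)
  exact ⟨L.toAddMonoidHom, fun a => (LinearMap.congr_fun hL ⟨φ a, a, rfl⟩).trans
    (φ.rangeRestrict.liftOfRightInverse_comp_apply σ hσ _ a)⟩

/-- the same modulo a subgroup which contains the doubles -/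
theorem ext1 {A B : Type} [AddCommGroup A] [AddCommGroup B] (N : AddSubgroup B)
    (hN : ∀ b : B, 2 • b ∈ N) (φ : A →+ B) (l : A →+ F) (h : ∀ a, φ a ∈ N → l a = 0) :
    ∃ L : B →+ F, (∀ a, L (φ a) = l a) ∧ ∀ b ∈ N, L b = 0 := by
  obtain ⟨L, hL⟩ := ext0 (B := B ⧸ N) (fun b => by
    obtain ⟨b, rfl⟩ := QuotientAddGroup.mk_surjective b
    exact (QuotientAddGroup.eq_zero_iff _).2 (hN b)) ((QuotientAddGroup.mk' N).comp φ) l
    fun a ha => h a ((QuotientAddGroup.eq_zero_iff _).1 ha)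
  exact ⟨L.comp (QuotientAddGroup.mk' N), hL, fun b hb => by
    rw [AddMonoidHom.comp_apply, QuotientAddGroup.mk'_apply,
      (QuotientAddGroup.eq_zero_iff _).2 hb, map_zero]⟩

theorem kill {A : Type} [AddCommGroup A] (l : A →+ F) (a : A) : l (2 • a) = 0 := by
  rw [map_nsmul, two_nsmul, CharTwo.add_self_eq_zero]

variable {Y : Type} [AddCommGroup Y]

/-- composition with an additive map -/
def cm (F : Type) [Field F] {A B : Type} [AddCommGroup A] [AddCommGroup B] (φ : A →+ B) :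
    (B →+ F) →ₗ[F] (A →+ F) where
  toFun l := l.comp φ
  map_add' _ _ := rfl
  map_smul' _ _ := rfl

/-- the restriction of `t` -/
def tr (t : Y →+ Y) {S : AddSubgroup Y} (h : ∀ y ∈ S, t y ∈ S) : S →+ S :=
  (t.comp S.subtype).codRestrict S fun y => h y y.2

theorem xe (t : Y →+ Y) (x : F) {S : AddSubgroup Y} (h : ∀ y ∈ S, t y ∈ S) :
    Xe F t x S = Es (cm F (tr t h)) x := by
  ext l
  rw [mem_Es]
  exact ⟨fun k => AddMonoidHom.ext fun a => k a (tr t h a) rfl, fun k a a' e => by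
    rw [show a' = tr t h a from Subtype.ext e]
    exact DFunLike.congr_fun k a⟩

theorem trp {t : Y →+ Y} {m : ℕ} (ht : ∀ y, t^[m] y = y) {S : AddSubgroup Y}
    (h : ∀ y ∈ S, t y ∈ S) : (cm F (tr t h) : Module.End F _) ^ m = 1 := by
  have : ∀ (i : ℕ) (l : S →+ F) (a a' : S), (a' : Y) = t^[i] a →
      ((cm F (tr t h) : Module.End F _) ^ i) l a = l a' := fun i => by
    induction i with
    | zero => exact fun l a a' e => by rw [show a' = a from Subtype.ext e]; rfl
    | succ i ih =>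
      intro l a a' e
      rw [pow_succ', Module.End.mul_apply]
      exact ih l (tr t h a) a' e
  exact LinearMap.ext fun l => AddMonoidHom.ext fun a => this m l a a (ht a).symm

theorem mem_tor {y : Y} : y ∈ tor Y ↔ 2 • y = 0 := Iff.rfl

theorem st {t : Y →+ Y} {S : AddSubgroup Y} (h : ∀ y ∈ S, t y ∈ S) :
    ∀ y ∈ S ⊓ tor Y, t y ∈ S ⊓ tor Y := fun y hy =>
  ⟨h y hy.1, mem_tor.2 (by rw [← map_nsmul, mem_tor.1 hy.2, map_zero])⟩

theorem finF {A : Type} [AddCommGroup A] [Finite A] : Module.Finite F (A →+ F) :=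
  Module.Finite.of_injective
    ({ toFun := fun l => l, map_add' := fun _ _ => rfl, map_smul' := fun _ _ => rfl } :
      (A →+ F) →ₗ[F] (A → F)) DFunLike.coe_injective

theorem elem {t : Y →+ Y} {m : ℕ} (hm : Odd m) (ht : ∀ y, t^[m] y = y) (x : F)
    {S' S : AddSubgroup Y} (le : S' ≤ S) (h' : ∀ y ∈ S', t y ∈ S') (h : ∀ y ∈ S, t y ∈ S)
    (hi : S'.relIndex S ≠ 0) (f' : Module.Finite F (S' →+ F))
    (ft : Finite (S ⊓ tor Y : AddSubgroup Y)) (h2 : ∀ y ∈ S, 2 • y ∈ S') :
    Module.Finite F (S →+ F) ∧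
      finrank F (Xe F t x S) + finrank F (Xe F t x (S' ⊓ tor Y)) =
        finrank F (Xe F t x S') + finrank F (Xe F t x (S ⊓ tor Y)) := by
  let N := S'.addSubgroupOf S
  have : Finite (S ⧸ N) := Nat.finite_of_card_ne_zero hi
  let tq : S ⧸ N →+ S ⧸ N := QuotientAddGroup.map N N (tr t h) fun y hy => h' _ hy
  have tqp : (cm F tq : Module.End F _) ^ m = 1 := by
    have k : ∀ (i : ℕ) (l : S ⧸ N →+ F), cm F (QuotientAddGroup.mk' N)
        (((cm F tq : Module.End F _) ^ i) l) = ((cm F (tr t h) : Module.End F _) ^ i)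
          (cm F (QuotientAddGroup.mk' N) l) := fun i => by
      induction i with
      | zero => exact fun _ => rfl
      | succ i ih =>
        intro l
        rw [pow_succ', pow_succ', Module.End.mul_apply, Module.End.mul_apply, ← ih]; rfl
    refine LinearMap.ext fun l => AddMonoidHom.ext fun q => ?_
    obtain ⟨a, rfl⟩ := QuotientAddGroup.mk_surjective q
    have := k m l
    rw [trp ht h] at this
    exact DFunLike.congr_fun this a
  have fQ : Module.Finite F (S ⧸ N →+ F) := finF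
  have fT : Module.Finite F ((S ⊓ tor Y : AddSubgroup Y) →+ F) := finF
  let f1 := cm F (QuotientAddGroup.mk' N)
  let f2 := cm F (AddSubgroup.inclusion le)
  let db : S →+ S' := ((nsmulAddMonoidHom 2).comp S.subtype).codRestrict S' fun y => h2 y y.2
  let f3 : (S' →+ F) →ₗ[F] (S ⧸ N →+ F) :=
    { toFun := fun l => QuotientAddGroup.lift N (l.comp db) fun y hy => kill l ⟨y, hy⟩
      map_add' := fun _ _ => QuotientAddGroup.addMonoidHom_ext _ rfl
      map_smul' := fun _ _ => QuotientAddGroup.addMonoidHom_ext _ rfl }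
  let f4 := cm F ((QuotientAddGroup.mk' N).comp (AddSubgroup.inclusion (inf_le_left :
    S ⊓ tor Y ≤ S)))
  let f5 := cm F (AddSubgroup.inclusion (inf_le_inf_right (tor Y) le))
  have i1 : Function.Injective f1 := fun _ _ e => QuotientAddGroup.addMonoidHom_ext _ e
  have e2 : ∀ l, f2 l = 0 ↔ ∃ a, f1 a = l := fun l =>
    ⟨fun k => ⟨QuotientAddGroup.lift N l fun y hy =>
      show l y = 0 from DFunLike.congr_fun k ⟨y, hy⟩, rfl⟩, by
      rintro ⟨a, rfl⟩
      exact AddMonoidHom.ext fun y => (congrArg a ((QuotientAddGroup.eq_zero_iff _).2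
        (show AddSubgroup.inclusion le y ∈ N from y.2))).trans (map_zero a)⟩
  have e3 : ∀ l, f3 l = 0 ↔ ∃ a, f2 a = l := fun l =>
    ⟨fun k => by
      obtain ⟨L, hL, -⟩ := ext1 (nsmulAddMonoidHom 2 : S →+ S).range (fun b => ⟨b, rfl⟩)
        (AddSubgroup.inclusion le) l fun a ⟨b, hb⟩ => by
          rw [show a = db b from Subtype.ext (congrArg Subtype.val hb).symm]
          exact DFunLike.congr_fun k (b : S ⧸ N)
      exact ⟨L, AddMonoidHom.ext hL⟩, by
      rintro ⟨a, rfl⟩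
      exact QuotientAddGroup.addMonoidHom_ext _ (AddMonoidHom.ext fun y => kill a y)⟩
  have e4 : ∀ l, f4 l = 0 ↔ ∃ a, f3 a = l := fun l =>
    ⟨fun k => by
      obtain ⟨L, hL, -⟩ := ext1 (nsmulAddMonoidHom 2 : S' →+ S').range (fun b => ⟨b, rfl⟩) db
        (l.comp (QuotientAddGroup.mk' N)) fun a ⟨b, hb⟩ => by
          have q : (a : Y) - b ∈ S ⊓ tor Y := ⟨S.sub_mem a.2 (le b.2), mem_tor.2 (by
            rw [nsmul_sub, sub_eq_zero]
            exact (congrArg Subtype.val hb).symm)⟩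
          refine Eq.trans (congrArg l (QuotientAddGroup.eq.2 ?_)) (DFunLike.congr_fun k ⟨_, q⟩)
          show -(a : Y) + (a - b) ∈ S'
          rw [show -(a : Y) + (a - b) = -b by abel]
          exact neg_mem b.2
      exact ⟨L, QuotientAddGroup.addMonoidHom_ext _ (AddMonoidHom.ext hL)⟩, by
      rintro ⟨a, rfl⟩
      refine AddMonoidHom.ext fun y => ?_
      show a (db ⟨y, y.2.1⟩) = 0
      rw [show db ⟨y, y.2.1⟩ = 0 from Subtype.ext y.2.2, map_zero]⟩
  have e5 : ∀ l, f5 l = 0 ↔ ∃ a, f4 a = l := fun l =>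
    ⟨fun k => by
      obtain ⟨L, hL, hN⟩ := ext1 N (fun b => h2 b b.2) (AddSubgroup.inclusion (inf_le_left :
        S ⊓ tor Y ≤ S)) l fun a ha => DFunLike.congr_fun k ⟨a, ha, a.2.2⟩
      exact ⟨QuotientAddGroup.lift N L hN, AddMonoidHom.ext hL⟩, by
      rintro ⟨a, rfl⟩
      exact AddMonoidHom.ext fun y => (congrArg a ((QuotientAddGroup.eq_zero_iff _).2
        (show (⟨y, le y.2.1⟩ : S) ∈ N from y.2.1))).trans (map_zero a)⟩
  have s5 : Function.Surjective f5 := fun l => by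
    obtain ⟨L, hL⟩ := ext0 (B := (S ⊓ tor Y : AddSubgroup Y)) (fun b => Subtype.ext b.2.2)
      (AddSubgroup.inclusion (inf_le_inf_right (tor Y) le)) l fun a ha => by
        have e : (a : Y) = 0 := congrArg Subtype.val ha
        rw [show a = 0 from Subtype.ext e, map_zero]
    exact ⟨L, AddMonoidHom.ext hL⟩
  have fS : Module.Finite F (S →+ F) := by
    have k : LinearMap.ker f2 = LinearMap.range f1 := Submodule.ext e2
    refine ⟨Submodule.fg_of_fg_map_of_fg_inf_ker f2 (IsNoetherian.noetherian _) ?_⟩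
    rw [top_inf_eq, k]
    exact Module.Finite.iff_fg.1 inferInstance
  have a1 := step hm tqp f1 (T' := cm F (tr t h)) (fun _ => rfl) f2 e2 x
  have a2 := step hm (trp ht h) f2 (T' := cm F (tr t h')) (fun _ => rfl) f3 e3 x
  have a3 := step hm (trp ht h') f3 (T' := cm F tq) (fun l =>
    QuotientAddGroup.addMonoidHom_ext _ (AddMonoidHom.ext fun y =>
      congrArg l (Subtype.ext (map_nsmul t 2 y.1)))) f4 e4 x
  have a4 := step hm tqp f4 (T' := cm F (tr t (st h))) (fun _ => rfl) f5 e5 x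
  have a5 := rk_sur hm (trp ht (st h)) (T' := cm F (tr t (st h'))) (fun _ => rfl) s5 x
  have a0 := rk_inj (cm F tq) x i1
  rw [xe t x h, xe t x h', xe t x (st h), xe t x (st h')]
  exact ⟨fS, by omega⟩

theorem oddc {t : Y →+ Y} {m : ℕ} (hm : Odd m) (ht : ∀ y, t^[m] y = y) (x : F)
    {S' S : AddSubgroup Y} (le : S' ≤ S) (h' : ∀ y ∈ S', t y ∈ S') (h : ∀ y ∈ S, t y ∈ S)
    (hi : S'.relIndex S ≠ 0) (f' : Module.Finite F (S' →+ F))
    (h2 : ∀ y ∈ S, ∃ a ∈ S', ∃ b ∈ S, y = a + 2 • b) :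
    Module.Finite F (S →+ F) ∧
      finrank F (Xe F t x S) + finrank F (Xe F t x (S' ⊓ tor Y)) =
        finrank F (Xe F t x S') + finrank F (Xe F t x (S ⊓ tor Y)) := by
  let N := S'.addSubgroupOf S
  have : Finite (S ⧸ N) := Nat.finite_of_card_ne_zero hi
  have inj : Function.Injective (nsmulAddMonoidHom 2 : S ⧸ N →+ S ⧸ N) :=
    Finite.injective_iff_surjective.2 fun q => by
      obtain ⟨y, rfl⟩ := QuotientAddGroup.mk_surjective q
      obtain ⟨a, ha, b, hb, e⟩ := h2 y y.2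
      refine ⟨((⟨b, hb⟩ : S) : S ⧸ N), (QuotientAddGroup.eq (a := 2 • (⟨b, hb⟩ : S))).2 ?_⟩
      show -(2 • b) + (y : Y) ∈ S'
      rwa [e, show -(2 • b) + (a + 2 • b) = a by abel]
  have hs : ∀ y ∈ S, 2 • y ∈ S' → y ∈ S' := fun y hy k =>
    (QuotientAddGroup.eq_zero_iff (N := N) ⟨y, hy⟩).1 ((injective_iff_map_eq_zero _).1 inj _
      (show (((2 • ⟨y, hy⟩ : S) : S ⧸ N)) = 0 from (QuotientAddGroup.eq_zero_iff _).2 k))
  let f2 := cm F (AddSubgroup.inclusion le)
  have i2 : Function.Injective f2 := (injective_iff_map_eq_zero _).2 fun l k =>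
    AddMonoidHom.ext fun y => by
      obtain ⟨a, ha, b, hb, e⟩ := h2 y y.2
      rw [show y = AddSubgroup.inclusion le ⟨a, ha⟩ + 2 • ⟨b, hb⟩ from Subtype.ext e, map_add, kill,
        add_zero]
      exact DFunLike.congr_fun k ⟨a, ha⟩
  have s2 : Function.Surjective f2 := fun l => by
    obtain ⟨L, hL, -⟩ := ext1 (nsmulAddMonoidHom 2 : S →+ S).range (fun b => ⟨b, rfl⟩)
      (AddSubgroup.inclusion le) l fun a ⟨b, hb⟩ => by
        have e : 2 • (b : Y) = a := congrArg Subtype.val hb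
        rw [show a = 2 • ⟨b, hs b b.2 (e ▸ a.2)⟩ from Subtype.ext e.symm, kill]
    exact ⟨L, AddMonoidHom.ext hL⟩
  have e : S' ⊓ tor Y = S ⊓ tor Y := le_antisymm (inf_le_inf_right _ le) fun y hy =>
    ⟨hs y hy.1 (by rw [mem_tor.1 hy.2]; exact zero_mem _), hy.2⟩
  rw [e, xe t x h, xe t x h', ← rk_inj _ x i2,
    rk_sur hm (trp ht h) (T' := cm F (tr t h')) (fun _ => rfl) s2 x]
  exact ⟨Module.Finite.of_injective f2 i2, rfl⟩

end Hb

open Hb

theorem herb : HERB := by
  intro F _ _ Y _ t m hm ht x S' S le h' h hi f' ft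
  induction hn : S'.relIndex S using Nat.strong_induction_on generalizing S with
  | _ n ih =>
    let S1 := S' ⊔ S.map (nsmulAddMonoidHom 2)
    have l1 : S' ≤ S1 := le_sup_left
    have l2 : S1 ≤ S := sup_le le fun _ ⟨y, hy, e⟩ => e ▸ nsmul_mem hy 2
    have m1 : ∀ y ∈ S1, ∃ a ∈ S', ∃ b ∈ S, y = a + 2 • b := fun y hy => by
      obtain ⟨a, ha, _, ⟨b, hb, rfl⟩, e⟩ := AddSubgroup.mem_sup.1 hy
      exact ⟨a, ha, b, hb, e.symm⟩
    by_cases c : S ≤ S1
    · exact oddc hm ht x le h' h hi f' fun y hy => m1 y (c hy)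
    · have e := AddSubgroup.relIndex_mul_relIndex S' S1 S l1 l2
      have n1 : S1.relIndex S ≠ 1 := fun k => c (AddSubgroup.relIndex_eq_one.1 k)
      have n2 : S1.relIndex S ≠ 0 := fun k => hi (by rw [← e, k, mul_zero])
      have n3 : S'.relIndex S1 ≠ 0 := fun k => hi (by rw [← e, k, zero_mul])
      have h1 : ∀ y ∈ S1, t y ∈ S1 := fun y hy => by
        obtain ⟨a, ha, b, hb, rfl⟩ := m1 y hy
        rw [map_add, map_nsmul]
        exact add_mem (l1 (h' a ha)) (AddSubgroup.mem_sup_right ⟨t b, h b hb, rfl⟩)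
      obtain ⟨a1, a2⟩ := ih _ (by
        rw [← hn, ← e]
        exact lt_mul_of_one_lt_right (Nat.pos_of_ne_zero n3) (by omega)) S1 l1 h1 n3
        (Finite.of_injective _ (AddSubgroup.inclusion_injective (inf_le_inf_right (tor Y) l2))) rfl
      obtain ⟨b1, b2⟩ := elem hm ht x l2 h1 h n2 a1 ft fun y hy =>
        AddSubgroup.mem_sup_right ⟨y, hy, rfl⟩
      exact ⟨b1, by omega⟩

end Vale.Agent.P022D.L2c
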