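import Vale.Agent.P022D.L2c.Defs

/-!
# P022, block L2c: corestriction from a subgroup of index two
-/

set_option linter.all false

noncomputable section

namespace Vale.Agent.P022D.L2c

namespace PolP

variable {F : Type} [Field F] {G : Type} [Group G] [TopologicalSpace G]

theorem z2 (a : ZMod 2) : a = 0 ∨ a = 1 := by revert a; decide

theorem sum2 {M : Type*} [AddCommMonoid M] (f : ZMod 2 → M) (c : ZMod 2) :
    ∑ r, f (r + c) = ∑ r, f r := Fintype.sum_equiv (Equiv.addRight c) _ _ fun _ => rfl

theorem sum2' {M : Type*} [AddCommMonoid M] (f : ZMod 2 → M) : ∑ r, f r = f 0 + f 1 :=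
  Fin.sum_univ_two f

/-- restriction of a function of two variables -/
def rs (H : Subgroup G) (f : G → G → F) : H → H → F := fun a b => f a b

/-- coset representatives -/
def rep (σ : G) (r : ZMod 2) : G := σ ^ r.val

theorem rep0 (σ : G) : rep σ 0 = 1 := pow_zero σ

theorem rep1 (σ : G) : rep σ 1 = σ := pow_one σ

/-- the transfer functions -/
def tau (e : G → ZMod 2) (σ : G) (r : ZMod 2) (g : G) : G := (rep σ r)⁻¹ * g * rep σ (r + e g)

/-- corestriction of a function of two variables -/
def cor (e : G → ZMod 2) (σ : G) (y : G → G → F) : G → G → F :=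
  fun g h => ∑ r, y (tau e σ r g) (tau e σ (r + e g) h)

variable {e : G → ZMod 2} {σ : G} {U : Subgroup G}

theorem hm_one {K : Type} [Field K] {a : G → K} (ha : a ∈ Hm K G) : a 1 = 0 := by
  simpa using ha.2 1 1

theorem hm_inv {K : Type} [Field K] {a : G → K} (ha : a ∈ Hm K G) (g : G) : a g⁻¹ = -a g := by
  have := ha.2 g g⁻¹
  rw [mul_inv_cancel, hm_one ha] at this
  linear_combination -this

theorem tau_mul (he : e ∈ Hm (ZMod 2) G) (r : ZMod 2) (g h : G) :
    tau e σ r (g * h) = tau e σ r g * tau e σ (r + e g) h := by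
  simp only [tau, he.2, add_assoc, mul_assoc, mul_inv_cancel_left]

theorem e_rep (he : e ∈ Hm (ZMod 2) G) (hσ : e σ = 1) (r : ZMod 2) : e (rep σ r) = r := by
  rcases z2 r with rfl | rfl
  · rw [rep0, hm_one he]
  · rw [rep1, hσ]

theorem hm_tau {K : Type} [Field K] {a : G → K} (ha : a ∈ Hm K G) (r : ZMod 2) (g : G) :
    a (tau e σ r g) = -a (rep σ r) + a g + a (rep σ (r + e g)) := by
  rw [tau, ha.2, ha.2, hm_inv ha]

theorem e_tau (he : e ∈ Hm (ZMod 2) G) (hσ : e σ = 1) (r : ZMod 2) (g : G) :
    e (tau e σ r g) = 0 := by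
  rw [hm_tau he, e_rep he hσ, e_rep he hσ]
  generalize e g = c
  revert r c
  decide

theorem tau_cont [IsTopologicalGroup G] (he : e ∈ Hm (ZMod 2) G) (r : ZMod 2) :
    Continuous (tau e σ r) :=
  (continuous_const.mul continuous_id).mul (he.1.comp fun c => rep σ (r + c)).continuous

theorem lc_sum {X M : Type*} [TopologicalSpace X] [AddCommMonoid M] (f : ZMod 2 → X → M)
    (hf : ∀ r, IsLocallyConstant (f r)) : IsLocallyConstant fun x => ∑ r, f r x := by
  simp only [sum2']
  exact (hf 0).add (hf 1)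

theorem cor_cob [IsTopologicalGroup G] (he : e ∈ Hm (ZMod 2) G) (hσ : e σ = 1)
    (hU : ∀ g, g ∈ U ↔ e g = 0) {y : G → G → F} (hy : rs U y ∈ Cob F U) :
    cor e σ y ∈ Cob F G := by
  obtain ⟨z, hz, h⟩ := hy
  let T : ZMod 2 → G → U := fun r g => ⟨tau e σ r g, (hU _).2 (e_tau he hσ r g)⟩
  refine ⟨fun g => ∑ r, z (T r g), lc_sum _ fun r =>
    hz.comp_continuous ((tau_cont he r).subtype_mk _), fun g k => ?_⟩
  have h1 : ∀ r, z (T r (g * k)) =
      z (T r g) + z (T (r + e g) k) + y (tau e σ r g) (tau e σ (r + e g) k) := fun r => by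
    rw [show T r (g * k) = T r g * T (r + e g) k from Subtype.ext (tau_mul he r g k), h]
    rfl
  simp only [h1, Finset.sum_add_distrib]
  rw [sum2 (fun r => z (T r k)) (e g)]
  rfl

theorem cor_sub (y y' : G → G → F) (l : F) :
    cor e σ (y - l • y') = cor e σ y - l • cor e σ y' := by
  funext g h
  simp only [cor, Pi.sub_apply, Pi.smul_apply, smul_eq_mul, Finset.sum_sub_distrib,
    Finset.mul_sum]

theorem odd' [CharP F 2] [IsTopologicalGroup G] (hO : ODD) {U V : Subgroup G}
    (hV : IsOpen (V : Set G)) (hodd : Odd (V.relIndex U)) {y : G → G → F} (hy : IsZ2 (rs U y))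
    (h : rs V y ∈ Cob F V) : rs U y ∈ Cob F U := by
  obtain ⟨z, hz, h⟩ := h
  refine hO F U (V.subgroupOf U) (hV.preimage continuous_subtype_val) hodd _ hy
    ⟨fun a => z ⟨a.1.1, a.2⟩, hz.comp_continuous
      ((continuous_subtype_val.comp continuous_subtype_val).subtype_mk _), fun a b => ?_⟩
  exact h ⟨a.1.1, a.2⟩ ⟨b.1.1, b.2⟩

/-- projection formula -/
theorem proj [IsTopologicalGroup G] {K : Type} [Field K] [CharP K 2] (he : e ∈ Hm (ZMod 2) G)
    (hσ : e σ = 1) {z x a : G → K} (hz : IsLocallyConstant z) (hx : x ∈ Hm K G) (ha : a ∈ Hm K G)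
    (h : ∀ g k, z (g * k) = z g + z k + up K (e g) * x k) :
    cor e σ (cup z a) - cup x a ∈ Cob K G := by
  have two : (2 : K) = 0 := CharTwo.two_eq_zero
  have z1 : z 1 = 0 := by
    have := h 1 1
    rw [mul_one, hm_one hx] at this
    linear_combination -this
  have h0 : ∀ r g k, z (tau e σ r (g * k)) = z (tau e σ r g) + z (tau e σ (r + e g) k) :=
    fun r g k => by rw [tau_mul he, h, e_tau he hσ, map_zero, zero_mul, add_zero]
  have h1 : ∀ r g, z (tau e σ r g) = z g + z (rep σ r) + z (rep σ (r + e g)) +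
      up K (e g) * x (rep σ (r + e g)) +
        up K r * (x (rep σ r) + x g + x (rep σ (r + e g))) := fun r g => by
    have a1 := h (rep σ r) (tau e σ r g)
    have a2 := h g (rep σ (r + e g))
    rw [show rep σ r * tau e σ r g = g * rep σ (r + e g) by
      simp only [tau, mul_assoc, mul_inv_cancel_left], a2, e_rep he hσ, hm_tau hx] at a1
    linear_combination -a1 + (-z (rep σ r) + up K r * x (rep σ r) - up K r * x (rep σ r) -
      up K r * x g - up K r * x (rep σ (r + e g)) + up K r * x (rep σ r) -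
      up K r * x (rep σ r)) * two
  have h2 : ∀ g, ∑ r, z (tau e σ r g) = x g := fun g => by
    rw [sum2', h1, h1]
    rcases z2 (e g) with c | c
    · simp only [c, add_zero, rep0, rep1, map_zero, map_one, z1, hm_one hx]
      linear_combination (z g + z σ + x σ) * two
    · simp only [c, zero_add, show (1 : ZMod 2) + 1 = 0 from rfl, rep0, rep1, map_zero, map_one,
        z1, hm_one hx]
      linear_combination (z g + z σ + x σ) * two
  refine ⟨fun g => ∑ r, z (tau e σ r g) * a (rep σ (r + e g)), lc_sum _ fun r =>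
    (hz.comp_continuous (tau_cont he r)).mul (he.1.comp fun c => a (rep σ (r + c))),
    fun g k => ?_⟩
  have h3 := sum2 (fun r => z (tau e σ r k) * a (rep σ (r + e k))) (e g)
  simp only [Pi.sub_apply, cor, cup, h0, he.2, hm_tau ha]
  rw [← h3, ← h2 g, Finset.sum_mul, ← Finset.sum_sub_distrib, ← Finset.sum_add_distrib,
    ← Finset.sum_add_distrib]
  refine Finset.sum_congr rfl fun r _ => ?_
  rw [add_assoc r]
  ring

/-- the corestriction of a cup product for a form which is invariant under the subgroup -/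
theorem corid {M : Type} [AddCommGroup M] (act : G → M →+ M)
    (hm : ∀ g h m, act (g * h) m = act g (act h m)) (he : e ∈ Hm (ZMod 2) G)
    (B : ZMod 2 → M →+ M →+ F) (hB : ∀ r g X Y, B r (act g X) (act g Y) = B (r + e g) X Y)
    (w w' : G → M) (hw : ∀ g h, w (g * h) = w g + act g (w h))
    (hw' : ∀ g h, w' (g * h) = w' g + act g (w' h)) (k : G → F)
    (hk : ∀ g, k g = ∑ r, (B r (w (rep σ r)) (w' g + act g (w' (rep σ (r + e g))) - w' (rep σ r)) -
      B r (w g) (act g (w' (rep σ (r + e g)))))) (g h : G) :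
    ∑ r, B r (act (rep σ r) (w (tau e σ r g)))
      (act (rep σ r) (act (tau e σ r g) (w' (tau e σ (r + e g) h)))) =
      ∑ r, B r (w g) (act g (w' h)) - (k (g * h) - k g - k h) := by
  have e1 : ∀ r g, rep σ r * tau e σ r g = g * rep σ (r + e g) := fun r g => by
    simp only [tau, mul_assoc, mul_inv_cancel_left]
  have e2 : ∀ (v : G → M), (∀ g h, v (g * h) = v g + act g (v h)) → ∀ r g,
      act (rep σ r) (v (tau e σ r g)) = v g + act g (v (rep σ (r + e g))) - v (rep σ r) :=
    fun v hv r g => by rw [← hv, ← e1, hv]; abel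
  have e3 : k h = ∑ r, (B r (act g (w (rep σ (r + e g))))
      (act g (w' h + act h (w' (rep σ (r + e g + e h))) - w' (rep σ (r + e g)))) -
      B r (act g (w h)) (act g (act h (w' (rep σ (r + e g + e h)))))) := by
    rw [hk, ← sum2 _ (e g)]
    simp only [hB]
  rw [e3, hk (g * h), hk g, ← Finset.sum_sub_distrib, ← Finset.sum_sub_distrib,
    ← Finset.sum_sub_distrib]
  refine Finset.sum_congr rfl fun r _ => ?_
  rw [← hm, e1, hm, e2 w hw, e2 w' hw', he.2, ← add_assoc r, hw g h, hw' g h, hm]
  simp only [map_add, map_sub, AddMonoidHom.add_apply, AddMonoidHom.sub_apply]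
  ring

end PolP

end Vale.Agent.P022D.L2c
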