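import Vale.Agent.P022D.L2c.Defs

/-! # P022, block L2c: the obstruction is a quadratic form of rank at least three -/

set_option linter.all false

noncomputable section

namespace Vale.Agent.P022D.L2c

namespace Qda

theorem two_fun {F M : Type} [Field F] [AddCommGroup M] [Module F M] (p : Submodule F M)
    {x y : M} (hx : x ∉ p) (hy : y ∉ p) :
    ∃ l : M →ₗ[F] F, (∀ f ∈ p, l f = 0) ∧ l x ≠ 0 ∧ l y ≠ 0 := by
  have key : ∀ z ∉ p, ∃ l : M →ₗ[F] F, (∀ f ∈ p, l f = 0) ∧ l z ≠ 0 := by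
    intro z hz
    obtain ⟨l, h1, h2⟩ := Submodule.exists_dual_map_eq_bot_of_notMem hz inferInstance
    refine ⟨l, fun f hf => ?_, h1⟩
    have h3 : l f ∈ p.map l := Submodule.mem_map_of_mem hf
    rwa [h2, Submodule.mem_bot] at h3
  obtain ⟨l₁, h1, k1⟩ := key x hx
  obtain ⟨l₂, h2, k2⟩ := key y hy
  by_cases e1 : l₁ y = 0
  · by_cases e2 : l₂ x = 0
    · refine ⟨l₁ + l₂, fun f hf => ?_, ?_, ?_⟩
      · rw [LinearMap.add_apply, h1 f hf, h2 f hf, add_zero]
      · rwa [LinearMap.add_apply, e2, add_zero]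
      · rwa [LinearMap.add_apply, e1, zero_add]
    · exact ⟨l₂, h2, e2, k2⟩
  · exact ⟨l₁, h1, k1, e1⟩

theorem sq2 (x : ZMod 2) : x * x = x := by
  revert x; decide

theorem add2 (x : ZMod 2) : x + x = 0 := by
  revert x; decide

theorem neg2 (x y : ZMod 2) (h : x + y = 0) : y = x := by
  revert x y; decide

variable {G : Type} [Group G] [TopologicalSpace G] [IsTopologicalGroup G]

open Classical in
/-- the indicator of the complement -/
def ep (U : Subgroup G) (g : G) : ZMod 2 := if g ∈ U then 0 else 1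

theorem ep_mem {U : Subgroup G} {g : G} (h : g ∈ U) : ep U g = 0 := if_pos h

theorem ep_not {U : Subgroup G} {g : G} (h : g ∉ U) : ep U g = 1 := if_neg h

theorem ep_hm {U : Subgroup G} (ho : IsOpen (U : Set G)) (hi : U = ⊤ ∨ U.index = 2) :
    ep U ∈ Hm (ZMod 2) G := by
  refine ⟨?_, fun x y => ?_⟩
  · rw [IsLocallyConstant.iff_eventually_eq]
    intro x
    by_cases hx : x ∈ U
    · filter_upwards [ho.mem_nhds hx] with y hy
      rw [ep_mem hx, ep_mem hy]
    · filter_upwards [(U.isClosed_of_isOpen ho).isOpen_compl.mem_nhds hx] with y hy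
      rw [ep_not hx, ep_not hy]
  · have hm : x * y ∈ U ↔ (x ∈ U ↔ y ∈ U) := by
      rcases hi with h | h
      · simp [h]
      · exact Subgroup.mul_mem_iff_of_index_two h
    by_cases hx : x ∈ U <;> by_cases hy : y ∈ U
    · rw [ep_mem hx, ep_mem hy, ep_mem (hm.2 (iff_of_true hx hy)), add_zero]
    · rw [ep_mem hx, ep_not hy, ep_not fun h => hy ((hm.1 h).1 hx), zero_add]
    · rw [ep_not hx, ep_mem hy, ep_not fun h => hx ((hm.1 h).2 hy), add_zero]
    · rw [ep_not hx, ep_not hy, ep_mem (hm.2 (iff_of_false hx hy)), add2]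

variable {F : Type} [Field F] [CharP F 2] {rb : G →* M2 F} {U : Subgroup G}

theorem mul_inv (rb : G →* M2 F) (g : G) : rb g * rb g⁻¹ = 1 := by
  rw [← map_mul, mul_inv_cancel, map_one]

theorem eps_eq (D : Dih0 rb U) (g : G) : eps rb g = up F (ep U g) := by
  by_cases hg : g ∈ U
  · rw [ep_mem hg, map_zero, eps, (D.dg g hg).1, zero_mul]
  · have h := congrFun (congrFun (mul_inv rb g) 0) 0
    rw [Matrix.mul_apply, Fin.sum_univ_two, (D.ad g hg).1, zero_mul, zero_add,
      Matrix.one_apply_eq] at h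
    rw [ep_not hg, map_one, eps, h]

/-- the scalar cocycle -/
def sc (F : Type) [Field F] [CharP F 2] (a : G → ZMod 2) (g : G) : M2 F := up F (a g) • (1 : M2 F)

theorem conj_sc (rb : G →* M2 F) (a : G → ZMod 2) (g h : G) :
    rb g * sc F a h * rb g⁻¹ = sc F a h := by
  rw [sc, mul_smul_comm, mul_one, smul_mul_assoc, mul_inv]

theorem sc_mem (rb : G →* M2 F) {a : G → ZMod 2} (ha : a ∈ Hm (ZMod 2) G) : sc F a ∈ Zad rb := by
  refine ⟨ha.1.comp fun x => up F x • (1 : M2 F), fun g => ?_, fun g h => ?_⟩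
  · rw [sc, Matrix.trace_smul, Matrix.trace_one, Fintype.card_fin, smul_eq_mul,
      CharP.cast_eq_zero F 2, mul_zero]
  · rw [conj_sc, sc, sc, sc, ha.2, map_add, add_smul]

theorem bil_sc (D : Dih0 rb U) (a : G → ZMod 2) :
    bil rb (sc F a) (sc F a) = fun x y => up F (cup (ep U + a) a x y) := by
  funext g h
  have e : up F (a h) * up F (a h) = up F (a h) := by rw [← map_mul, sq2]
  rw [bil, conj_sc, eps_eq D, cup, Pi.add_apply, map_mul, map_add]
  simp [sc, e]
  ring

theorem bil_left (D : Dih0 rb U) (a : G → ZMod 2) {w : G → M2 F}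
    (hw : ∀ g, w g 0 0 = 0 ∧ w g 1 1 = 0) : bil rb (sc F a) w = 0 := by
  funext g h
  have e : (rb g * w h * rb g⁻¹) 0 0 = 0 := by
    simp only [Matrix.mul_apply, Fin.sum_univ_two, (hw h).1, (hw h).2]
    by_cases hg : g ∈ U
    · rw [(D.dg g hg).1, (D.dg g⁻¹ (U.inv_mem hg)).2]
      ring
    · rw [(D.ad g hg).1, (D.ad g⁻¹ fun k => hg ((U.inv_mem_iff).1 k)).1]
      ring
  rw [bil, sc, sc, smul_mul_assoc, one_mul, Matrix.smul_apply _ (rb g * w h * rb g⁻¹), e, (hw h).2]
  simp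

theorem bil_right (rb : G →* M2 F) (a : G → ZMod 2) {w : G → M2 F}
    (hw : ∀ g, w g 0 0 = 0 ∧ w g 1 1 = 0) : bil rb w (sc F a) = 0 := by
  funext g h
  rw [bil, conj_sc, sc, mul_smul_comm, mul_one, Matrix.smul_apply _ (w g), (hw g).1, (hw h).1]
  simp

end Qda

open Qda

theorem qda (h0 : SYM0) : QDA := by
  intro F _ _ _ G _ _ _ rb U V t D hN hE hP
  obtain ⟨w, hw, w', hw', hz, hc⟩ := hP
  obtain ⟨η, hη, hη0, hη1, hη2⟩ := hE
  have he := ep_hm D.opU D.idx
  have hne : ep U + η ≠ 0 := by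
    intro h
    have e : ∀ g, η g = ep U g := fun g => neg2 _ _ (congrFun h g)
    rcases D.idx with k | k
    · apply hη0
      funext g
      rw [e, ep_mem (by rw [k]; trivial)]
      rfl
    · obtain ⟨σ, hσ⟩ : ∃ σ, σ ∉ U := by
        by_contra hn
        have hU : U = ⊤ := eq_top_iff.2 fun g _ => by_contra fun hg => hn ⟨g, hg⟩
        rw [hU, Subgroup.index_top] at k
        exact absurd k (by norm_num)
      refine hη2 U V t σ D.nrm D.opV (fun g hg => ((D.sc g).1 hg).1) D.tU D.tV D.gen D.odd k hσ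
        (D.inv σ hσ) fun g => ?_
      rw [e]
      by_cases hg : g ∈ U
      · exact iff_of_true (ep_mem hg) hg
      · exact iff_of_false (by rw [ep_not hg]; exact one_ne_zero) hg
  obtain ⟨a, ha, hca⟩ := (hN _ (add_mem he hη) hne).1
  have h1 : cup (ep U + a) a ∉ Cob (ZMod 2) G := by
    intro h
    apply hca
    have e : cup (ep U + η) a = cup (ep U + a) a + cup (η + a) a := by
      funext x y
      simp only [cup, Pi.add_apply]
      linear_combination (-(a y)) * add2 (a x)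
    rw [e]
    exact add_mem h (hη1 a ha)
  have h2 : bil rb (sc F a) (sc F a) ∉ Cob F G := by
    rw [bil_sc D.toDih0]
    exact fun h => h1 (h0 F G _ h)
  obtain ⟨l, hl, l1, l2⟩ := two_fun (Cob F G) h2 hc
  have z1 : ∀ g, w g 0 0 = 0 ∧ w g 1 1 = 0 := fun g => ⟨(hz g).1, (hz g).2.1⟩
  have z2 : ∀ g, w' g 0 0 = 0 ∧ w' g 1 1 = 0 := fun g => (hz g).2.2
  refine ⟨l, hl, sc F a, sc_mem rb ha, w, hw, w', hw', l1, ?_, ?_, ?_⟩
  · rw [bil_left D.toDih0 a z1, bil_right rb a z1, map_zero, add_zero]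
  · rw [bil_left D.toDih0 a z2, bil_right rb a z2, map_zero, add_zero]
  · rwa [map_add] at l2

end Vale.Agent.P022D.L2c
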